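import Claimed.Agent.R285.Read.B8b
import Claimed.Agent.R285.F4a.Defs

/-!
# ROW 285, unit READOUT (post BP-READOUT #12738): DEFINITIONS (no `sorry`)                                  (architect helper16)

Sources: [E] P3.3 (`entry.tex` l.601-700), [F] `trajectory.tex` l.106-260 ((trj:neutral-response), (trj:neutral-readout), (trj:pure-response)), l.690-783 ((trj:gradient-diagnostic),
(trj:phase-functional), (trj:mixed-diagnostic), (trj:phase-multiplier)).  Vocabulary: `Read/B8b.lean` (`Cfg`, `Reg`, `To`, `toAct`, `Zter`, `Eter`, `termCov`), `F4a/Defs.lean` (`Phat`, `avg`, `Hav`).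
TARGET: the fields `r*_an, r*_bd, r*_par, v0_bd, k*_bd, kV_lo, pG_bd, rep*` of `Asm.RawReadOK` and `Asm.RawMapOK.resp`; also `Sys8.rV_an, rP_an, rP_bd, kP_bd`, `TorOK.rV_bd, kV_bd`, `PureOK.resp`.
Plan, verdicts, list of leaves: `R285/Rdo/Main.lean`.

## Conventions
* torus `G = K.s.T h`, side `n = G.M = D₀ L^h`; cells `c = 𝓡.gs h`, side `s = c.m`; `a = α²`, `α = Step.alpha K.p.ω` (`a = 8π`); `q_n = cos1 G`.
* ALL sources are REAL: `bg G w = w q_n`, `w : ℝ`.  The second source derivative is a derivative of a complex valued function of the REAL variable `w`.  No complex logarithm: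
  `∂_w² log (g(w)/g(0)) |_0 = g''(0)/g(0)` because `g` is even (all activities of `To` are even).
* `f_{n,s} (Q) = (s/n)² cos (2π x_Q/n)` is DEFINED as `(s/n)² β⁻¹ (B_s q_n)(Q)` (`Ker.rdo_avg_cos`: the two agree for whole cells), so no cell centre occurs.
* the polynomial continuation of `C_{<u}` at `λ = 0` gives the integrated fields a Gaussian constant mode of variance `low0 u / n²`: `EE` carries the factor `e^{q² a low0(L^j)/2n²}` which makes the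
  charged functional EXACTLY invariant along a history (`Stop.rdo_stop`).
-/

set_option autoImplicit false

namespace Claimed.Agent.R285.Rdo

open scoped BigOperators ENNReal NNReal
open MeasureTheory ProbabilityTheory Polynomial Filter Topology
open Claimed.Agent.R285 Claimed.Agent.R285.RG Claimed.Agent.R285.B8 Claimed.Agent.R285.F4a

noncomputable section

/-! ## 1. One torus with observation cells: tests, reference variance, amplitudes -/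

variable {G : Geom}

/-- `β_{n,s} = sin (π s/n) / (s sin (π/n))`: `B_s q_n = β_{n,s} cos (2π x_Q/n)` -/
def beta (n s : ℕ) : ℝ := Real.sin (Real.pi * s / n) / (s * Real.sin (Real.pi / n))

/-- the eigenvalue `λ₁ = 4 sin² (π/n)` of the Laplacian on the first cosine -/
def lam1 (n : ℕ) : ℝ := 4 * Real.sin (Real.pi / n) ^ 2

/-- `s/n` -/
def snr (c : Grid G) : ℝ := (c.m : ℝ) / G.M

/-- the test `f_{n,s}`, [E] (3.17), [F] (trj:probes) -/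
def ftest (c : Grid G) (Q : c.I) : ℝ := snr c ^ 2 / beta G.M c.m * avg c (cos1 G) Q

/-- `X_{n,s} (y) = ⟨y, f_{n,s}⟩` -/
def Xobs (c : Grid G) (y : c.I → ℝ) : ℝ := ∑ Q, ftest c Q * y Q

/-- the mean observation `\bar y` -/
def ybar (c : Grid G) (y : c.I → ℝ) : ℝ := (∑ Q, y Q) / (Fintype.card c.I : ℝ)

/-- `B_s^* f` -/
def Bst (c : Grid G) (f : c.I → ℝ) (v : G.V) : ℝ := f (c.blk v) / ((c.sites {c.blk v}).card : ℝ)

/-- `A⁺` (`termP 1 = 1`) -/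
def Apl (G : Geom) : Matrix G.V G.V ℝ := termCov G Fam.entry 1

/-- the noise variance `‖f_{n,s}‖² = (s/n)²/2` of `X_{n,s}` -/
def fsq (c : Grid G) : ℝ := ∑ Q, ftest c Q ^ 2

/-- `⟨B^* f, A⁺ B^* f⟩` -/
def hvar (c : Grid G) : ℝ := Bst c (ftest c) ⬝ᵥ (Apl G).mulVec (Bst c (ftest c))

/-- `v⁰_{n,s} = ⟨f, (I + a B A⁺ B^*) f⟩` -/
def v0raw (a : ℝ) (c : Grid G) : ℝ := fsq c + a * hvar c

/-- `γ_{n,s} = 2 v⁰_{n,s} / (α β_{n,s})` -/
def gam (a : ℝ) (c : Grid G) : ℝ := 2 * v0raw a c / (Real.sqrt a * beta G.M c.m)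

/-- the real source `w q_n` -/
def bg (G : Geom) (w : ℝ) : G.V → ℂ := fun v => ((w * cos1 G v : ℝ) : ℂ)

/-- `⟨q_n, A q_n⟩` (`= Cfg.kV`) -/
def qAq (G : Geom) : ℝ := cos1 G ⬝ᵥ (lap G).mulVec (cos1 G)

/-- `ave_x cos (t q_n (x))` -/
def aveCos (G : Geom) (t : ℝ) : ℝ := ((G.M : ℝ) ^ 2)⁻¹ * ∑ x : G.V, Real.cos (t * cos1 G x)

/-- the value at `λ = 0` of the multiplier of `C_{<u}`: `n⁻² low0 u` is the variance of the mean of the integrated field -/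
def low0 (F : Fam) (u : ℕ) : ℝ := (F.lowP u).eval 0

/-! ## 2. The normalised observables of a weight `W` on the observations ([E] (4.9)); `W = \hat Z_b` : shared with CUTGRID (helper167); `W` = strengthened law: [C] s5 (helper75) -/

/-- `∫_{𝒴} F W` over the fundamental domain pinned at the cell of the origin -/
def PhW (c : Grid G) (W F : (c.I → ℝ) → ℝ) : ℝ := ∫ y in fund c (c.blk (org G)), F y * W y

/-- the normalised expectation of the weight `W` -/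
def EhW (c : Grid G) (W F : (c.I → ℝ) → ℝ) : ℝ := PhW c W F / PhW c W fun _ => 1

/-- `(Var_W X_{n,s} - ‖f‖²)/β²` -/
def cVW (c : Grid G) (W : (c.I → ℝ) → ℝ) : ℝ :=
  ((EhW c W fun y => Xobs c y ^ 2) - (EhW c W (Xobs c)) ^ 2 - fsq c) / beta G.M c.m ^ 2

/-- `e^{(s/n)²/2} E_W cos \bar y` -/
def cPW (c : Grid G) (W : (c.I → ℝ) → ℝ) : ℝ := Real.exp (snr c ^ 2 / 2) * EhW c W fun y => Real.cos (ybar c y)

/-- `e^{(s/n)²/2} (E_W [cos \bar y e^{w X}] - e^{v⁰ w²/2} E_W cos \bar y)` -/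
def cMW (a w : ℝ) (c : Grid G) (W : (c.I → ℝ) → ℝ) : ℝ :=
  Real.exp (snr c ^ 2 / 2) * ((EhW c W fun y => Real.cos (ybar c y) * Real.exp (w * Xobs c y))
    - Real.exp (v0raw a c * w ^ 2 / 2) * EhW c W fun y => Real.cos (ybar c y))

/-- the reference observations `y = α B_s φ + e` -/
def obsY (a : ℝ) (c : Grid G) (φ : G.V → ℝ) (e : c.I → ℝ) : c.I → ℝ := fun i => avg c (fun x => Real.sqrt a * φ x) i + e i

/-- the entry average of the weight: `∫_ζ ∫_e e^{E_{full} (y)/2} W (y)`, `y = α B_s (ψ + ζ) + e`, `ζ ~ C_{<m}` -/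
def HavW (a : ℝ) (c : Grid G) (m : ℕ) (W : (c.I → ℝ) → ℝ) (ψ : G.V → ℝ) : ℝ :=
  ∫ ζ, ∫ e, Real.exp ((Top.full c).Eobs a 0 (obsY a c (fun x => ψ x + ζ x) e) / 2) * W (obsY a c (fun x => ψ x + ζ x) e) ∂(noise c) ∂(gauss G (Cless G m))

/-- what SRC needs to know about a weight -/
structure WtOK (c : Grid G) (W : (c.I → ℝ) → ℝ) : Prop where
  nonneg : ∀ y, 0 ≤ W y
  meas : Measurable W
  per : Per c W
  /-- all exponential moments of the test -/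
  expint : ∀ t : ℝ, IntegrableOn (fun y => Real.exp (t * Xobs c y) * W y) (fund c (c.blk (org G)))
  pos : 0 < PhW c W fun _ => 1

/-- the normalised cutoff expectation `\hat E_b` on the torus with cells `c` -/
def Ehat (b : ℝ) (c : Grid G) (F : (c.I → ℝ) → ℝ) : ℝ :=
  Phat b c (c.blk (org G)) 0 F / Phat b c (c.blk (org G)) 0 fun _ => 1

/-- `(\hat Var X_{n,s} - ‖f‖²)/β²` -/
def cVof (b : ℝ) (c : Grid G) : ℝ :=
  ((Ehat b c fun y => Xobs c y ^ 2) - (Ehat b c (Xobs c)) ^ 2 - fsq c) / beta G.M c.m ^ 2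

/-- `e^{(s/n)²/2} \hat E cos \bar y` -/
def cPof (b : ℝ) (c : Grid G) : ℝ := Real.exp (snr c ^ 2 / 2) * Ehat b c fun y => Real.cos (ybar c y)

/-- `e^{(s/n)²/2} (\hat E [cos \bar y e^{w X}] - e^{v⁰ w²/2} \hat E cos \bar y)` -/
def cMof (a w b : ℝ) (c : Grid G) : ℝ :=
  Real.exp (snr c ^ 2 / 2) * ((Ehat b c fun y => Real.cos (ybar c y) * Real.exp (w * Xobs c y))
    - Real.exp (v0raw a c * w ^ 2 / 2) * Ehat b c fun y => Real.cos (ybar c y))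

theorem Ehat_eq (b : ℝ) (c : Grid G) (F : (c.I → ℝ) → ℝ) : Ehat b c F = EhW c ((Top.full c).Zhat b 0) F := rfl
theorem cVof_eq (b : ℝ) (c : Grid G) : cVof b c = cVW c ((Top.full c).Zhat b 0) := rfl
theorem cPof_eq (b : ℝ) (c : Grid G) : cPof b c = cPW c ((Top.full c).Zhat b 0) := rfl
theorem cMof_eq (a w b : ℝ) (c : Grid G) : cMof a w b c = cMW a w c ((Top.full c).Zhat b 0) := rfl

/-! ## 3. The functionals of a state at the level `j` behind the stop `h` -/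

variable (K : Cfg) (𝓡 : Reg K.s)

/-- `a = α²` -/
def aa : ℝ := Step.alpha K.p.ω ^ 2

/-- the partition functional of the state `X` at the level `j` on the torus `h` (`Zlev h h = Cfg.Zter h`) -/
def Zlev (j h : ℕ) (X : (ℂ × ℂ) × K.To 𝓡 j h) : Fn (K.s.T h) :=
  ZA (K.s.lev h j) K.c.R (Kof (K.s.lev h j) (Step.alpha K.p.ω) (X.1.1, X.1.2, K.toAct 𝓡 X.2))

/-- `C_{≥ L^j}` on the torus `h` -/
def Gge (j h : ℕ) : Matrix (K.s.T h).V (K.s.T h).V ℝ := termCov (K.s.T h) K.F (K.s.L ^ j)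

/-- the factor of the integrated high mean, charge `q` -/
def hm (j h : ℕ) (q : ℤ) : ℝ := Real.exp ((q : ℝ) ^ 2 * aa K * low0 K.F (K.s.L ^ j) / (2 * ((K.s.T h).M : ℝ) ^ 2))

/-- **the invariant functional** `𝔈_j (q; X, w) = e^{q² a low0(L^j)/2n²} E_{C_{≥L^j}, θ} [e^{-iqαθ} 𝒵_j (X; ψ + θ + w q_n)]` -/
def EE (j h : ℕ) (q : ℤ) (X : (ℂ × ℂ) × K.To 𝓡 j h) (w : ℝ) : ℂ :=
  (hm K j h q : ℂ) * Eter (K.s.T h) (Gge K j h) K.p.ω q (Zlev K 𝓡 j h X) (bg _ w)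

/-- the terminal functional -/
def gq (h : ℕ) (q : ℤ) (X : (ℂ × ℂ) × K.To 𝓡 h h) (w : ℝ) : ℂ :=
  Eter (K.s.T h) (Gge K h h) K.p.ω q (Zlev K 𝓡 h h X) (bg _ w)

/-- cosine projection -/
def gc (h : ℕ) (X : (ℂ × ℂ) × K.To 𝓡 h h) (w : ℝ) : ℂ := (gq K 𝓡 h 1 X w + gq K 𝓡 h (-1) X w) / 2

/-- the basic gradient read-out (`γ = 1`) -/
def rV0 (h : ℕ) (X : (ℂ × ℂ) × K.To 𝓡 h h) : ℂ := iteratedDeriv 2 (gq K 𝓡 h 0 X) 0 / gq K 𝓡 h 0 X 0

/-- the basic phase read-out -/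
def rP0 (h : ℕ) (X : (ℂ × ℂ) × K.To 𝓡 h h) : ℂ := gc K 𝓡 h X 0 / gq K 𝓡 h 0 X 0

/-- the basic mixed read-out at the real source `w` -/
def rM0 (w : ℝ) (h : ℕ) (X : (ℂ × ℂ) × K.To 𝓡 h h) : ℂ := (gc K 𝓡 h X w - gc K 𝓡 h X 0) / gq K 𝓡 h 0 X 0

/-! ## 4. The read-outs, multipliers and observables of `Asm.RawSys` for the tower `(K, 𝓡)`; `w0` = source of the mixed diagnostic -/

/-- `γ²/β²` -/
def nV (h : ℕ) : ℝ := gam (aa K) (𝓡.gs h) ^ 2 / beta (K.s.T h).M (𝓡.gs h).m ^ 2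

/-- `e^{a low0 (L^h)/2n²}` times `e^{(s/n)²}` -/
def nP (h : ℕ) : ℝ := Real.exp (snr (𝓡.gs h) ^ 2) * hm K h h 1

/-- the prefactor of the mixed read-out -/
def nM (w0 : ℝ) (h : ℕ) : ℝ := Real.exp (v0raw (aa K) (𝓡.gs h) * w0 ^ 2 / 2) * nP K 𝓡 h

def rV (h : ℕ) (X : (ℂ × ℂ) × K.To 𝓡 h h) : ℂ := (nV K 𝓡 h : ℂ) * rV0 K 𝓡 h X
def rP (h : ℕ) (X : (ℂ × ℂ) × K.To 𝓡 h h) : ℂ := (nP K 𝓡 h : ℂ) * rP0 K 𝓡 h X
def rM (w0 : ℝ) (h : ℕ) (X : (ℂ × ℂ) × K.To 𝓡 h h) : ℂ := (nM K 𝓡 w0 h : ℂ) * rM0 K 𝓡 (w0 * gam (aa K) (𝓡.gs h)) h X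

/-- `(v⁰ - ‖f‖²)/β²` -/
def v0 (h : ℕ) : ℝ := aa K * hvar (𝓡.gs h) / beta (K.s.T h).M (𝓡.gs h).m ^ 2
def kV (h : ℕ) : ℝ := nV K 𝓡 h * K.kV h
def kP (h : ℕ) : ℝ := nP K 𝓡 h * K.kP h
def kM (w0 : ℝ) (h : ℕ) : ℝ :=
  nM K 𝓡 w0 h * K.kP h * (aveCos (K.s.T h) (Step.alpha K.p.ω * (w0 * gam (aa K) (𝓡.gs h))) - 1)

/-- the ENTRY-INDEPENDENT phase multiplier `p_h` (`RawK.p`) -/
def pH (h : ℕ) : ℝ := hm K h h 1 * K.kP h

/-- the eigenvalue of `𝖯_{L^{j0}}` on the first cosine of the torus `h` -/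
def pG (j0 h : ℕ) : ℝ := (K.F.termP (K.s.L ^ j0)).eval (lam1 (K.s.T h).M)

def cV (h : ℕ) (b : ℝ) : ℝ := cVof b (𝓡.gs h)
def cP (h : ℕ) (b : ℝ) : ℝ := cPof b (𝓡.gs h)
def cM (w0 : ℝ) (h : ℕ) (b : ℝ) : ℝ := cMof (aa K) w0 b (𝓡.gs h)

/-! ## 5. What READOUT needs from MAP-PACK and from ENTRY -/

/-- the torus remainder `a` on the torus `h` (ANY torus, retained in the plane family or not) is a copy of the plane remainder `R` -/
def IsCp (j h : ℕ) (a : K.To 𝓡 j h) (R : K.Pl 𝓡 j) : Prop :=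
  ∀ i : 𝓡.Ix j, Copy K.p.h0 K.c0 (K.s.lev h j) (K.s.lev i.1 j) (K.toAct 𝓡 a) (K.plAct 𝓡 R i)

/-- **from MAP-PACK** (helper114).  `cp` = copying in the `Copy` form: it must hold on the NON-RETAINED tori `j < h < hmin` too, because `RawMapOK.resp` / `PureOK.resp` are used at EVERY stop `h > j0`
(`Flow/Gauss.lean`); proof = `B8.weak_copy` between the torus `h` and the retained tori (as `Pack.pk_copy`).  `exact` = `Pack.MapSys.exact` verbatim.  Gapped towers (`cosOn = false`, [C] s5): only states with `z = 0`.  `exp_*` = `MapSys.eT_act`, `eT_bd` (`z = 0`), `pk_Rexp_copy`. -/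
structure ChainOK (j0 : ℕ) (ρ d1 Ce : ℝ) : Prop where
  cp : ∀ j h, j0 ≤ j → ∀ hj : j < h, ∀ (x : ℂ × ℂ × K.Pl 𝓡 j) (a : K.To 𝓡 j h), ‖x‖ < ρ → ‖a‖ < ρ → (K.cosOn = false → x.2.1 = 0) → IsCp K 𝓡 j h a x.2.2 →
    (K.PhiT 𝓡 h j hj (x.1, x.2.1, K.toAct 𝓡 a)).1 = (K.Phi 𝓡 j x).1 ∧ (K.PhiT 𝓡 h j hj (x.1, x.2.1, K.toAct 𝓡 a)).2.1 = (K.Phi 𝓡 j x).2.1 ∧
    IsCp K 𝓡 (j + 1) h (K.Psi 𝓡 j h ((x.1, x.2.1), a)) (K.Phi 𝓡 j x).2.2
  /-- on a retained torus: equality with the component (`pk_plAct_spec`: the components are copies of each other) -/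
  cp_of_eq : ∀ j h (hj : j < h) (hm : 𝓡.hmin ≤ h) (a : K.To 𝓡 j h) (R : K.Pl 𝓡 j),
    EqOn K.p.h0 (cutW K.c0 (K.toAct 𝓡 a)) (K.plAct 𝓡 R ⟨h, hj, hm⟩) → IsCp K 𝓡 j h a R
  /-- **the exact identity of one step** -/
  exact : ∀ j h, j0 ≤ j → ∀ hj : j < h, ∀ X ∈ Metric.ball (0 : (ℂ × ℂ) × K.To 𝓡 j h) ρ, (K.cosOn = false → X.1.2 = 0) →
    ∃ cst : ℂ, cst ≠ 0 ∧ ∀ z ∈ strip K.p.h0 (K.s.lev h (j + 1)) Finset.univ,
      conv (K.step 𝓡 h j hj).Γ (ZA (K.s.lev h j) K.c.R (Kof (K.s.lev h j) (Step.alpha K.p.ω) (X.1.1, X.1.2, K.toAct 𝓡 X.2))) z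
        = cst * ZA (K.s.lev h (j + 1)) K.c.R (Kof (K.s.lev h (j + 1)) (Step.alpha K.p.ω)
            ((K.PhiT 𝓡 h j hj (X.1.1, X.1.2, K.toAct 𝓡 X.2)).1, (K.PhiT 𝓡 h j hj (X.1.1, X.1.2, K.toAct 𝓡 X.2)).2.1, K.toAct 𝓡 (K.Psi 𝓡 j h X))) z
  /-- the exponential entries are what they should be, at every level -/
  exp_eq : ∀ j h, ∀ d : ℂ, ‖d‖ < d1 → EqOn K.p.h0 (K.toAct 𝓡 (K.eExpT 𝓡 j h d 0)) (Cfg.Rexp (K.s.lev h j) K.c.R (Step.alpha K.p.ω) d 0)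
  exp_bd : ∀ j h, ∀ d : ℂ, ‖d‖ < d1 → ‖K.eExpT 𝓡 j h d 0‖ ≤ Ce * ‖d‖ ^ 2
  /-- the pure torus entries (ALL tori) are copies of the pure plane entry -/
  exp_cp : ∀ j h, j ≤ h → ∀ d : ℂ, ‖d‖ < d1 → IsCp K 𝓡 j h (K.eExpT 𝓡 j h d 0) (K.eExp 𝓡 j d 0).2.2

/-- **from ENTRY** (helper56; `F4b.BulkOK.ident`, `CopyOK.bulk` put into the spaces by `plMk`, `toMk`): `B` = the real parameters, `Vd h` = valid stops -/
structure EntOK (j0 : ℕ) (B : Set ℝ) (Vd : ℕ → Prop) (K0 : ℂ → K.Pl 𝓡 j0) (T0 : ∀ h, ℂ → K.To 𝓡 j0 h) : Prop where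
  copy : ∀ b ∈ B, ∀ h, ∀ (hj : j0 < h) (hm : 𝓡.hmin ≤ h), EqOn K.p.h0 (cutW K.c0 (K.toAct 𝓡 (T0 h (b : ℂ)))) (K.plAct 𝓡 (K0 (b : ℂ)) ⟨h, hj, hm⟩)
  /-- (ent:ordinary-subset) -/
  ident : ∀ b ∈ B, ∀ h, j0 ≤ h → Vd h → ∃ cG : ℝ, 0 < cG ∧ ∀ ψ : (K.s.T h).V → ℝ,
    (Hav b (aa K) (𝓡.gs h) (K.s.L ^ j0) 0 0 ψ : ℂ) = cG * Zlev K 𝓡 j0 h ((0, 0), T0 h (b : ℂ)) (toC ψ)

/-- hypotheses on the terminal geometry (supplied by `B4`, `Sc.lev_ok`, `obs_extra`) -/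
structure TermGeo (j0 : ℕ) (cT : ℝ≥0) : Prop where
  term : K.TermOK 𝓡 j0 cT
  sep : ∀ h j, j0 ≤ j → j ≤ h → max 5 (𝓡.V h j).sep < K.c.R
  cells : ∀ h, j0 ≤ h → Whole (𝓡.gs h)
  /-- the lower integral is not subadditive: sums of regulators need measurability (helper43).  Concrete tower: `IsObs` gives `V.V X = Vobs ..`, continuous by `Obs.obs_vobsD_continuous` -/
  meas : ∀ h j, j0 ≤ j → j ≤ h → ∀ X, Measurable fun φ => (𝓡.V h j).V X φ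

end

end Claimed.Agent.R285.Rdo
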