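import Claimed.Agent.R285.Rdo.DomInt
import Claimed.Agent.R285.Asm.TowConc

/-!
# ROW 285, unit READOUT, leaf `L-RDO-X1` (architect helper16, prover helper231): THE TERMINAL GEOMETRY OF THE CONCRETE TOWER `Asm.obsReg`.   No `sorry`.

* `rdo_x_termGeo` : `Rdo.TermGeo` for `𝓡 = Asm.obsReg K.s o sd P0` from `TermOK` alone (`sep`, `cells`, `meas` are facts about `obsReg`: `Asm.obsReg_isObsTower`, `Tow.tw_whole`, `rdo_obs_cont`);
* `rdo_x_gs`      : the cells of the torus `h ≥ j0` are `torusGrid (K.s.T h) sd _`;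
* `rdo_x_n3`      : `q * sd = L^{j0}`, `2 ≤ q`, `2 ≤ D₀`: at least `4` cells per row, of side `sd`;
* `rdo_x_snr`     : `snr = sd / (D₀ L^h)`.
-/

set_option autoImplicit false

namespace Claimed.Agent.R285.Rdo

open scoped BigOperators ENNReal NNReal
open Claimed.Agent.R285 Claimed.Agent.R285.RG Claimed.Agent.R285.B4 Claimed.Agent.R285.B8 Claimed.Agent.R285.F4a

noncomputable section

theorem rdo_x_gs (s : Sc) (o : ObsPar) (sd P0 j0 : ℕ) (hsd : sd ∣ s.L ^ j0) (h : ℕ) (hj : j0 ≤ h) :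
    (Asm.obsReg s o sd P0).gs h = torusGrid (s.T h) sd (Tow.tw_sd_dvd s hsd hj) :=
  dif_pos (Tow.tw_sd_dvd s hsd hj)

theorem rdo_x_two_le (s : Sc) (sd j0 : ℕ) (hsd : sd ∣ s.L ^ j0) (hD : 2 ≤ s.D0) (h : ℕ) (hj : j0 ≤ h) : 2 * sd ≤ (s.T h).M := by
  have h1 : sd ≤ s.L ^ j0 := Nat.le_of_dvd (Nat.pow_pos s.L_pos) hsd
  have h2 : s.L ^ j0 ≤ s.L ^ h := Nat.pow_le_pow_right s.L_pos hj
  show 2 * sd ≤ s.D0 * s.L ^ h
  exact Nat.mul_le_mul hD (h1.trans h2)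

/-- **the terminal geometry of the concrete tower** -/
theorem rdo_x_termGeo (K : Cfg) (o : ObsPar) (sd P0 j0 : ℕ) (cT : ℝ≥0) (hR : K.c.R = RR) (hD : 2 ≤ K.s.D0) (hsd0 : 0 < sd) (hsd : sd ∣ K.s.L ^ j0)
    (hterm : K.TermOK (Asm.obsReg K.s o sd P0) j0 cT) : TermGeo K (Asm.obsReg K.s o sd P0) j0 cT where
  term := hterm
  sep := fun h j hj0 hj => by
    have h1 := (Asm.obsReg_isObsTower K.s o P0 hsd0 hsd).sep h j hj0 hj
    rw [hR]
    have h2 : 2 * pp + 8 < RR := by norm_num [RR, r0, pp]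
    have h3 : 5 < RR := by norm_num [RR, r0, pp]
    exact max_lt h3 (lt_of_le_of_lt h1 h2)
  cells := fun h hj => by
    rw [rdo_x_gs K.s o sd P0 j0 hsd h hj]
    exact Tow.tw_whole _ _ _ hsd0 (rdo_x_two_le K.s sd j0 hsd hD h hj)
  meas := fun h j hj0 hj X =>
    (rdo_obs_cont o _ _ (Nat.pow_pos K.s.L_pos) _ ((Asm.obsReg_isObsTower K.s o P0 hsd0 hsd).obs h j hj0 hj) X).measurable

/-- at least four cells per row -/
theorem rdo_x_n3 (s : Sc) (o : ObsPar) (sd P0 j0 q : ℕ) (hq : 2 ≤ q) (hside : q * sd = s.L ^ j0) (hD : 2 ≤ s.D0) (h : ℕ) (hj : j0 ≤ h) :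
    4 ≤ ((Asm.obsReg s o sd P0).gs h).n ∧ ((Asm.obsReg s o sd P0).gs h).m = sd := by
  have hsd : sd ∣ s.L ^ j0 := ⟨q, by rw [← hside]; ring⟩
  have hsd0 : 0 < sd := by
    rcases Nat.eq_zero_or_pos sd with h0 | h0
    · exfalso
      have := Nat.pow_pos (n := j0) s.L_pos
      rw [← hside, h0] at this
      simp at this
    · exact h0
  rw [rdo_x_gs s o sd P0 j0 hsd h hj]
  refine ⟨?_, rfl⟩
  show 4 ≤ (s.T h).M / sd
  rw [Nat.le_div_iff_mul_le hsd0]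
  show 4 * sd ≤ s.D0 * s.L ^ h
  have h2 : s.L ^ j0 ≤ s.L ^ h := Nat.pow_le_pow_right s.L_pos hj
  calc 4 * sd = 2 * (2 * sd) := by ring
    _ ≤ s.D0 * (q * sd) := Nat.mul_le_mul hD (Nat.mul_le_mul_right _ hq)
    _ = s.D0 * s.L ^ j0 := by rw [hside]
    _ ≤ s.D0 * s.L ^ h := Nat.mul_le_mul_left _ h2

theorem rdo_x_snr (s : Sc) (o : ObsPar) (sd P0 j0 : ℕ) (hsd : sd ∣ s.L ^ j0) (h : ℕ) (hj : j0 ≤ h) :
    snr ((Asm.obsReg s o sd P0).gs h) = (sd : ℝ) / ((s.D0 * s.L ^ h : ℕ) : ℝ) := by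
  rw [rdo_x_gs s o sd P0 j0 hsd h hj]
  rfl

end

end Claimed.Agent.R285.Rdo
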