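import Claimed.Agent.R285.Rdo.Ker

/-!
# ROW 285, unit READOUT, leaf `L-RDO-T4`: exponential moments of the dominating function at the stop          (helper43)

`rdo_dom_int` was stated in `Rdo/Term.lean`; it lives HERE because it cites `rdo_pG` (`Rdo/Ker.lean`) and `rdo_io_term` (`Rdo/Stop.lean`), which are downstream of `Rdo/Term.lean`.
CHANGE OF THE STATEMENT: one more hypothesis `hVm` = the regulators at the stop are measurable (`TermGeo.meas`).  `∫⁻` of a non-measurable function is the LOWER integral; it is superadditive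
(`le_lintegral_add`), so `∫⁻ ∑_W A^{-|W|} Wt (W, ·) ≤ ∑_W A^{-|W|} ∫⁻ Wt (W, ·)` is not available, and the old statement is false for exotic `Extra`.
For the concrete towers: `rdo_obs_cont` (`IsObs` ⟹ continuous).   No `sorry` in this file.
-/

set_option autoImplicit false

namespace Claimed.Agent.R285.Rdo

open scoped BigOperators ENNReal NNReal
open MeasureTheory ProbabilityTheory Polynomial Filter Topology
open Claimed.Agent.R285 Claimed.Agent.R285.RG Claimed.Agent.R285.B8 Claimed.Agent.R285.F4a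

noncomputable section

section grid

variable {G : Geom} (g : Grid G) (p : Par) (V : Extra g)

theorem rdo_di_wt_meas (hV : ∀ X, Measurable fun φ : G.V → ℝ => V.V X φ) (X : Finset g.I) :
    Measurable fun φ : G.V → ℝ => Wt g p.δ p.κ V X φ := by
  unfold Wt
  exact Real.measurable_exp.comp (((Obs.obs_U_continuous g p.δ X).measurable.const_mul p.κ).add (hV X))

theorem rdo_di_dom_meas (hV : ∀ X, Measurable fun φ : G.V → ℝ => V.V X φ) : Measurable (Dom g p V) := by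
  unfold Dom
  exact Finset.measurable_sum _ fun W _ => (rdo_di_wt_meas g p V hV W).const_mul _

theorem rdo_di_dom_nonneg (hA : 0 < p.A) (φ : G.V → ℝ) : 0 ≤ Dom g p V φ := by
  unfold Dom Wt
  exact Finset.sum_nonneg fun W _ => by positivity

/-- the sum over the subsets; here the measurability of the regulators is used (`∫⁻` is not subadditive otherwise) -/
theorem rdo_di_dom_le (hA : 1 ≤ p.A) (hV : ∀ X, Measurable fun φ : G.V → ℝ => V.V X φ) (μ : Measure (G.V → ℝ)) (c : ℝ≥0) (f : G.V → ℝ)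
    (h : ∀ X : Finset g.I, ∫⁻ ψ, ENNReal.ofReal (Wt g p.δ p.κ V X fun v => ψ v + f v) ∂μ ≤ (c : ℝ≥0∞) ^ X.card) :
    ∫⁻ ψ, ENNReal.ofReal (Dom g p V fun v => ψ v + f v) ∂μ ≤ ENNReal.ofReal ((1 + (c : ℝ)) ^ Fintype.card g.I) := by
  have hA0 : 0 < p.A := by linarith
  have hsh : Measurable fun (ψ : G.V → ℝ) (v : G.V) => ψ v + f v := by fun_prop
  have e : ∀ ψ : G.V → ℝ, ENNReal.ofReal (Dom g p V fun v => ψ v + f v)
      = ∑ W : Finset g.I, ENNReal.ofReal ((p.A ^ W.card)⁻¹) * ENNReal.ofReal (Wt g p.δ p.κ V W fun v => ψ v + f v) := by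
    intro ψ
    unfold Dom
    rw [ENNReal.ofReal_sum_of_nonneg fun W _ => by unfold Wt; positivity]
    refine Finset.sum_congr rfl fun W _ => ?_
    rw [ENNReal.ofReal_mul (by positivity)]
  simp only [e]
  have hm : ∀ W : Finset g.I, Measurable fun ψ : G.V → ℝ => ENNReal.ofReal (Wt g p.δ p.κ V W fun v => ψ v + f v) := fun W =>
    ENNReal.measurable_ofReal.comp ((rdo_di_wt_meas g p V hV W).comp hsh)
  rw [lintegral_finsetSum _ fun W _ => (hm W).const_mul _]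
  have h2 : ∀ W : Finset g.I, ∫⁻ ψ, ENNReal.ofReal ((p.A ^ W.card)⁻¹) * ENNReal.ofReal (Wt g p.δ p.κ V W fun v => ψ v + f v) ∂μ
      ≤ (c : ℝ≥0∞) ^ W.card * 1 ^ (Fintype.card g.I - W.card) := by
    intro W
    rw [lintegral_const_mul _ (hm W), one_pow, mul_one]
    have h3 : ENNReal.ofReal ((p.A ^ W.card)⁻¹) ≤ 1 := by
      rw [ENNReal.ofReal_le_one]
      exact inv_le_one_of_one_le₀ (one_le_pow₀ hA)
    calc _ ≤ 1 * (c : ℝ≥0∞) ^ W.card := mul_le_mul' h3 (h W)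
      _ = _ := one_mul _
  refine (Finset.sum_le_sum fun W _ => h2 W).trans (le_of_eq ?_)
  rw [Fintype.sum_pow_mul_eq_add_pow, ENNReal.ofReal_pow (by positivity), ENNReal.ofReal_add zero_le_one c.coe_nonneg,
    ENNReal.ofReal_one, ENNReal.ofReal_coe_nnreal, add_comm]

end grid

/-- Cameron-Martin, multiplicative form -/
theorem rdo_di_cm {G : Geom} (Γ : Matrix G.V G.V ℝ) (hΓ : Γ.PosSemidef) (η q : G.V → ℝ) (hq : Γ.mulVec η = q)
    (f : (G.V → ℝ) → ℝ≥0∞) (hf : Measurable f) :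
    ∫⁻ ζ, ENNReal.ofReal (Real.exp (η ⬝ᵥ ζ)) * f ζ ∂(gauss G Γ)
      = ENNReal.ofReal (Real.exp ((η ⬝ᵥ q) / 2)) * ∫⁻ ζ, f (ζ + q) ∂(gauss G Γ) := by
  have h := Hol.gauss_shift_lintegral Γ hΓ η f hf
  rw [hq] at h
  rw [h, ← lintegral_const_mul _ ((Hol.cm_density_measurable Γ η).mul hf |> fun hm => by rw [hq] at hm; exact hm)]
  refine lintegral_congr fun ζ => ?_
  rw [← mul_assoc, ← ENNReal.ofReal_mul (Real.exp_pos _).le, ← Real.exp_add]
  congr 3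
  ring

theorem rdo_di_lam_le (n : ℕ) (hn : 0 < n) : lam1 n * (n : ℝ) ^ 2 ≤ 4 * Real.pi ^ 2 := by
  unfold lam1
  have hn' : (0 : ℝ) < n := by exact_mod_cast hn
  have h0 : 0 ≤ Real.pi / n := by positivity
  have h1 : Real.sin (Real.pi / n) ≤ Real.pi / n := Real.sin_le h0
  have h2 : -(Real.pi / n) ≤ Real.sin (Real.pi / n) := by
    have hle : Real.pi / n ≤ Real.pi := div_le_self Real.pi_pos.le (by exact_mod_cast hn)
    have := Real.sin_nonneg_of_nonneg_of_le_pi h0 hle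
    linarith
  have h3 : Real.sin (Real.pi / n) ^ 2 ≤ (Real.pi / n) ^ 2 := by
    apply sq_le_sq'  h2 h1
  calc 4 * Real.sin (Real.pi / n) ^ 2 * (n : ℝ) ^ 2 ≤ 4 * (Real.pi / n) ^ 2 * (n : ℝ) ^ 2 := by gcongr
    _ = 4 * Real.pi ^ 2 := by field_simp

theorem rdo_di_cos_sq (G : Geom) : cos1 G ⬝ᵥ cos1 G ≤ (G.M : ℝ) ^ 2 ∧ 0 ≤ cos1 G ⬝ᵥ cos1 G := by
  constructor
  · unfold dotProduct
    calc ∑ v, cos1 G v * cos1 G v ≤ ∑ _v : G.V, (1 : ℝ) := by
          refine Finset.sum_le_sum fun v _ => ?_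
          unfold cos1
          have := Real.cos_sq_le_one (2 * Real.pi * (v.1 : ℕ) / G.M)
          nlinarith
      _ = (G.M : ℝ) ^ 2 := rdo_card G
  · exact Finset.sum_nonneg fun v _ => mul_self_nonneg _

theorem rdo_di_card (s : Sc) (h : ℕ) : Fintype.card (s.lev h h).I = s.D0 ^ 2 := by
  have e : (s.lev h h).n = s.D0 := by
    show s.D0 * s.L ^ h / s.L ^ (min h h) = s.D0
    rw [min_self]
    exact Nat.mul_div_cancel _ (Nat.pow_pos s.L_pos)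
  rw [Fintype.card_prod, Fintype.card_fin, e, sq]

/-- the exponential weight, from the two shifted integrals -/
theorem rdo_di_abs {G : Geom} (Γ : Matrix G.V G.V ℝ) (hΓ : Γ.PosSemidef) (η q : G.V → ℝ) (hq : Γ.mulVec η = q)
    (D : (G.V → ℝ) → ℝ) (hD : Measurable D) (hD0 : ∀ φ, 0 ≤ D φ) (B : ℝ)
    (h1 : ∫⁻ ζ, ENNReal.ofReal (D (ζ + q)) ∂(gauss G Γ) ≤ ENNReal.ofReal B)
    (h2 : ∫⁻ ζ, ENNReal.ofReal (D (ζ + -q)) ∂(gauss G Γ) ≤ ENNReal.ofReal B) :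
    ∫⁻ ψ, ENNReal.ofReal (Real.exp |η ⬝ᵥ ψ| * D ψ) ∂(gauss G Γ) ≤ ENNReal.ofReal (2 * Real.exp ((η ⬝ᵥ q) / 2) * B) := by
  have hF : Measurable fun φ => ENNReal.ofReal (D φ) := ENNReal.measurable_ofReal.comp hD
  have c1 := rdo_di_cm Γ hΓ η q hq _ hF
  have c2 := rdo_di_cm Γ hΓ (-η) (-q) (by rw [Matrix.mulVec_neg, hq]) _ hF
  rw [neg_dotProduct_neg] at c2
  have hm1 : Measurable fun ζ : G.V → ℝ => ENNReal.ofReal (Real.exp (η ⬝ᵥ ζ)) * ENNReal.ofReal (D ζ) :=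
    (ENNReal.measurable_ofReal.comp (Real.measurable_exp.comp (Hol.dot_continuous η).measurable)).mul hF
  calc ∫⁻ ψ, ENNReal.ofReal (Real.exp |η ⬝ᵥ ψ| * D ψ) ∂(gauss G Γ)
      ≤ ∫⁻ ψ, (ENNReal.ofReal (Real.exp (η ⬝ᵥ ψ)) * ENNReal.ofReal (D ψ)
          + ENNReal.ofReal (Real.exp (-η ⬝ᵥ ψ)) * ENNReal.ofReal (D ψ)) ∂(gauss G Γ) := by
        refine lintegral_mono fun ψ => ?_
        rw [← ENNReal.ofReal_mul (Real.exp_pos _).le, ← ENNReal.ofReal_mul (Real.exp_pos _).le,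
          ← ENNReal.ofReal_add (mul_nonneg (Real.exp_pos _).le (hD0 ψ)) (mul_nonneg (Real.exp_pos _).le (hD0 ψ)), ← add_mul]
        refine ENNReal.ofReal_le_ofReal (mul_le_mul_of_nonneg_right ?_ (hD0 ψ))
        rw [neg_dotProduct]
        rcases abs_cases (η ⬝ᵥ ψ) with ⟨h, -⟩ | ⟨h, -⟩ <;> rw [h]
        · linarith [Real.exp_pos (-(η ⬝ᵥ ψ))]
        · linarith [Real.exp_pos (η ⬝ᵥ ψ)]
    _ = ENNReal.ofReal (Real.exp ((η ⬝ᵥ q) / 2)) * ∫⁻ ζ, ENNReal.ofReal (D (ζ + q)) ∂(gauss G Γ)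
          + ENNReal.ofReal (Real.exp ((η ⬝ᵥ q) / 2)) * ∫⁻ ζ, ENNReal.ofReal (D (ζ + -q)) ∂(gauss G Γ) := by
        rw [lintegral_add_left hm1, c1, c2]
    _ ≤ ENNReal.ofReal (Real.exp ((η ⬝ᵥ q) / 2)) * ENNReal.ofReal B + ENNReal.ofReal (Real.exp ((η ⬝ᵥ q) / 2)) * ENNReal.ofReal B := by
        gcongr
    _ = ENNReal.ofReal (2 * Real.exp ((η ⬝ᵥ q) / 2) * B) := by
        rw [← two_mul, ← ENNReal.ofReal_mul (Real.exp_pos _).le, mul_assoc, ENNReal.ofReal_mul zero_le_two]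
        simp

/-- `L-RDO-T4` exponential moments of the dominating function at the stop; `M` depends on `(A, c_T, D₀)` only.
THE REGULATORS AT THE STOP MUST BE MEASURABLE (`hVm`): `∫⁻` of a non-measurable function is the LOWER integral, which is superadditive, so that `∫⁻ ∑_W .. ≤ ∑_W ∫⁻ ..` is not available (and false) in general. -/
theorem rdo_dom_int : ∃ D1 : ℕ, ∀ (A : ℝ) (cT : ℝ≥0) (D0 : ℕ), 1 ≤ A → D1 ≤ D0 → ∃ M : ℝ, ∀ K : Cfg, K.p.A = A → K.s.D0 = D0 → K.F = Fam.entry → 1 ≤ K.s.ℓ →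
    ∀ (𝓡 : Reg K.s) (j0 : ℕ), K.TermOK 𝓡 j0 cT → ∀ h, j0 ≤ h → (∀ X, Measurable fun φ : (K.s.T h).V → ℝ => (𝓡.V h h).V X φ) →
      sigQ K h h ≤ M ∧ 0 ≤ sigQ K h h ∧
      (∀ w : ℝ, |w| ≤ 1 → ∫⁻ ψ, ENNReal.ofReal (Dom (K.s.lev h h) K.p (𝓡.V h h) fun v => ψ v + w * cos1 (K.s.T h) v) ∂(gauss (K.s.T h) (Gge K h h)) ≤ ENNReal.ofReal M) ∧
      ∫⁻ ψ, ENNReal.ofReal (Real.exp |etaQ K h h ⬝ᵥ ψ| * Dom (K.s.lev h h) K.p (𝓡.V h h) ψ) ∂(gauss (K.s.T h) (Gge K h h)) ≤ ENNReal.ofReal M := by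
  obtain ⟨C, hC⟩ := rdo_pG
  refine ⟨max 2 ⌈2 * |C|⌉₊, fun A cT D0 hA hD => ?_⟩
  obtain ⟨M2, hM2⟩ : ∃ M2 : ℝ, M2 = (1 + (cT : ℝ)) ^ D0 ^ 2 := ⟨_, rfl⟩
  have hM2pos : 0 ≤ M2 := by rw [hM2]; positivity
  obtain ⟨M1, hM1⟩ : ∃ M1 : ℝ, M1 = 8 * Real.pi ^ 2 := ⟨_, rfl⟩
  have hM1pos : 0 ≤ M1 := by rw [hM1]; positivity
  have hD2 : 2 ≤ D0 := le_trans (le_max_left _ _) hD
  have hDC : 2 * |C| ≤ (D0 : ℝ) := by
    have h1 : ⌈2 * |C|⌉₊ ≤ D0 := le_trans (le_max_right _ _) hD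
    exact (Nat.le_ceil _).trans (by exact_mod_cast h1)
  have hbig : M2 ≤ 2 * Real.exp (M1 / 2) * M2 := by
    have : 1 ≤ Real.exp (M1 / 2) := Real.one_le_exp (by positivity)
    nlinarith
  refine ⟨max M1 (2 * Real.exp (M1 / 2) * M2), fun K hKA hKD hF hℓ 𝓡 j0 hTerm h hj hVm => ?_⟩
  have hL : 1 ≤ K.s.L ^ h := Nat.pow_pos K.s.L_pos
  have hMeq : (K.s.T h).M = K.s.D0 * K.s.L ^ h := rfl
  have hMpos : 0 < (K.s.T h).M := (K.s.T h).hM
  have hM2' : 2 ≤ (K.s.T h).M := by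
    rw [hMeq, hKD]
    calc 2 ≤ D0 := hD2
      _ = D0 * 1 := (mul_one _).symm
      _ ≤ D0 * K.s.L ^ h := Nat.mul_le_mul_left _ hL
  have hper : (K.s.T h).bc = BC.per := rfl
  -- the multiplier
  have hp : 1 / 2 ≤ pG K h h := by
    have h1 := (hC (K.s.T h).M (K.s.L ^ h) hL (by
      rw [hMeq, hKD]
      exact Nat.mul_le_mul_right _ hD2)).2.2
    have h2 : ((K.s.L ^ h : ℕ) : ℝ) / ((K.s.T h).M : ℝ) = 1 / (D0 : ℝ) := by
      rw [hMeq, hKD]
      have : ((K.s.L ^ h : ℕ) : ℝ) ≠ 0 := by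
        have : 0 < K.s.L ^ h := hL
        positivity
      push_cast at this ⊢
      field_simp
    rw [h2] at h1
    have hD0 : (2 : ℝ) ≤ D0 := by exact_mod_cast hD2
    have h3 : C * (1 / (D0 : ℝ)) ^ 2 ≤ 1 / 2 := by
      have h4 : C * (1 / (D0 : ℝ)) ^ 2 ≤ |C| * (1 / (D0 : ℝ)) ^ 2 := by
        gcongr
        exact le_abs_self C
      have h5 : |C| * (1 / (D0 : ℝ)) ^ 2 ≤ 1 / 2 := by
        rw [one_div, inv_pow, ← div_eq_mul_inv, div_le_iff₀ (by positivity)]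
        nlinarith [abs_nonneg C]
      linarith
    unfold pG
    rw [hF]
    linarith
  have hp0 : 0 < pG K h h := by linarith
  have hlam0 : 0 ≤ lam1 (K.s.T h).M := by unfold lam1; positivity
  have hsig : sigQ K h h = lam1 (K.s.T h).M / pG K h h * (cos1 (K.s.T h) ⬝ᵥ cos1 (K.s.T h)) := by
    unfold sigQ etaQ dotProduct
    rw [Finset.mul_sum]
    refine Finset.sum_congr rfl fun v _ => ?_
    ring
  obtain ⟨hc1, hc0⟩ := rdo_di_cos_sq (K.s.T h)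
  have hs0 : 0 ≤ sigQ K h h := by
    rw [hsig]
    positivity
  have hs1 : sigQ K h h ≤ M1 := by
    rw [hsig, hM1]
    have h1 := rdo_di_lam_le (K.s.T h).M hMpos
    calc lam1 (K.s.T h).M / pG K h h * (cos1 (K.s.T h) ⬝ᵥ cos1 (K.s.T h))
        ≤ lam1 (K.s.T h).M / pG K h h * ((K.s.T h).M : ℝ) ^ 2 := by gcongr
      _ = lam1 (K.s.T h).M * ((K.s.T h).M : ℝ) ^ 2 / pG K h h := by ring
      _ ≤ 4 * Real.pi ^ 2 / pG K h h := by gcongr
      _ ≤ 4 * Real.pi ^ 2 / (1 / 2) := by gcongr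
      _ = 8 * Real.pi ^ 2 := by ring
  -- the terminal covariance
  have hΓ : IsTerminal (K.s.T h) K.F (K.s.L ^ h) (Gge K h h) := by
    unfold Gge
    rw [hF]
    exact rdo_io_term _ _ hL
  have heta : (Gge K h h).mulVec (etaQ K h h) = cos1 (K.s.T h) :=
    rdo_term_eta hper hM2' K.F (K.s.L ^ h) _ hΓ hp0.ne'
  have hA' : 1 ≤ K.p.A := by rw [hKA]; exact hA
  have hdom : ∀ w : ℝ, |w| ≤ 1 → ∫⁻ ψ, ENNReal.ofReal (Dom (K.s.lev h h) K.p (𝓡.V h h) fun v => ψ v + w * cos1 (K.s.T h) v)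
      ∂(gauss (K.s.T h) (Gge K h h)) ≤ ENNReal.ofReal M2 := by
    intro w hw
    have := rdo_di_dom_le (K.s.lev h h) K.p (𝓡.V h h) hA' hVm (gauss (K.s.T h) (Gge K h h)) cT (fun v => w * cos1 (K.s.T h) v)
      (fun X => hTerm h hj X w hw)
    rwa [rdo_di_card, hKD, ← hM2] at this
  refine ⟨hs1.trans (le_max_left _ _), hs0, fun w hw => (hdom w hw).trans (ENNReal.ofReal_le_ofReal (hbig.trans (le_max_right _ _))), ?_⟩
  have h1 := hdom 1 (by simp)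
  have h2 := hdom (-1) (by simp)
  have e1 : ∀ ψ : (K.s.T h).V → ℝ, (fun v => ψ v + 1 * cos1 (K.s.T h) v) = ψ + cos1 (K.s.T h) := fun ψ => by
    funext v; simp
  have e2 : ∀ ψ : (K.s.T h).V → ℝ, (fun v => ψ v + -1 * cos1 (K.s.T h) v) = ψ + -cos1 (K.s.T h) := fun ψ => by
    funext v; simp
  simp only [e1] at h1
  simp only [e2] at h2
  have key := rdo_di_abs (Gge K h h) hΓ.psd (etaQ K h h) (cos1 (K.s.T h)) heta (Dom (K.s.lev h h) K.p (𝓡.V h h))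
    (rdo_di_dom_meas _ _ _ hVm) (rdo_di_dom_nonneg _ _ _ (by linarith)) M2 h1 h2
  refine key.trans (ENNReal.ofReal_le_ofReal (le_trans ?_ (le_max_right _ _)))
  have : Real.exp ((etaQ K h h ⬝ᵥ cos1 (K.s.T h)) / 2) ≤ Real.exp (M1 / 2) := by
    apply Real.exp_le_exp.2
    have : etaQ K h h ⬝ᵥ cos1 (K.s.T h) = sigQ K h h := rfl
    rw [this]
    linarith
  gcongr

/-- the observation regulators are continuous, hence measurable (hypothesis = `F4a.IsObs o c g V`, unfolded): supplies `hVm` of `rdo_dom_int` for the concrete towers -/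
theorem rdo_obs_cont {G : Geom} (o : B4.ObsPar) (c g : Grid G) (hm : 1 ≤ g.m) (V : Extra g)
    (hV : ∀ X φ, V.V X φ = Vobs o.a o.hstar o.p1 c g (Cless G g.m) X φ) (X : Finset g.I) :
    Continuous fun φ : G.V → ℝ => V.V X φ := by
  have e : (fun φ : G.V → ℝ => V.V X φ) = fun φ => Obs.VobsD o.a o.hstar o.p1 c (Cless G g.m) (g.Dm X) φ := by
    funext φ
    rw [hV, Obs.vobs_eq]
  rw [e]
  exact Obs.obs_vobsD_continuous (B4.obsPar_opar o) c _ (B4.low_psd G Fam.entry Ker.ker_entry_adm g.m hm) (Obs.obs_low_cac G g.m hm) _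

end

end Claimed.Agent.R285.Rdo
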