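import Claimed.Agent.R285.Rdo.Ker
import Claimed.Agent.R285.Rdo.DomInt
import Claimed.Agent.R285.Hol.Ch

/-!
# ROW 285, unit READOUT, leaf `L-RDO-T8`: the package `GOK` of the terminal functionals          (helper203; statement of architect helper16, moved here VERBATIM from `Rdo/Term.lean`)

This file sits ABOVE `Rdo/Ker.lean` (it needs `rdo_pG`).  No sorry.  Consumes `rdo_core`, `rdo_cm_formula`, `rdo_dict`, `rdo_dom_int`, `rdo_ZA_le`, `rdo_g_par`, `rdo_g_dz`, `rdo_pG`.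
* `rdo_gk_gq`      : `g_q (X, w)` as an iterated integral over real fields;
* `rdo_gk_theta`   : a weighted Gaussian integral of the partition functional, integrated over the phase, is holomorphic in the state and within `ω M C_s ‖X‖` of its value at `0`;
* `rdo_gk_gq_core`, `rdo_gk_gq_zero`, `rdo_gk_even`, `rdo_gk_N` : the functionals; `rdo_gk_pG_pos` : `p_* > 0` for large `D₀`;
* `rdo_gok`        : the exit.
-/

set_option autoImplicit false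

namespace Claimed.Agent.R285.Rdo

open scoped BigOperators ENNReal NNReal
open MeasureTheory ProbabilityTheory Polynomial Filter Topology
open Claimed.Agent.R285 Claimed.Agent.R285.RG Claimed.Agent.R285.B8 Claimed.Agent.R285.F4a

noncomputable section

/-! ## 0. generalities -/

theorem rdo_gk_psd (G : Geom) (F : Fam) (u : ℕ) : (termCov G F u).PosSemidef := by
  unfold termCov
  split_ifs with h
  · exact h.choose_spec.psd
  · exact Matrix.PosSemidef.zero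

theorem rdo_gk_prob (G : Geom) (Γ : Matrix G.V G.V ℝ) : IsProbabilityMeasure (gauss G Γ) := Reg.reg_gauss_prob Γ

/-- the Gaussian measure is symmetric -/
theorem rdo_gk_neg {G : Geom} (Γ : Matrix G.V G.V ℝ) (hΓ : Γ.PosSemidef) (f : (G.V → ℝ) → ℂ) :
    ∫ ψ, f (-ψ) ∂(gauss G Γ) = ∫ ψ, f ψ ∂(gauss G Γ) := by
  have h1 : (gauss G Γ).map (fun ζ => -ζ) = gauss G Γ := Reg.reg_gauss_neg hΓ
  conv_rhs => rw [← h1]
  exact ((MeasurableEquiv.neg (G.V → ℝ)).measurableEmbedding.integral_map f).symm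

section grid

variable {G : Geom} (g : Grid G) (p : Par) (V : Extra g)

theorem rdo_gk_Dom_const (φ : G.V → ℝ) (c : ℝ) : Dom g p V (fun v => φ v + c) = Dom g p V φ := by
  unfold Dom
  simp only [Hol.Wt_add_const]

theorem rdo_gk_Dom_nonneg (hA : 0 < p.A) (φ : G.V → ℝ) : 0 ≤ Dom g p V φ := by
  unfold Dom Wt
  exact Finset.sum_nonneg fun W _ => mul_nonneg (inv_nonneg.2 (pow_pos hA _).le) (Real.exp_pos _).le

end grid

/-- `∫_0^ω e^{-iqαθ} dθ` -/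
theorem rdo_gk_chK_int (ω : ℝ) (hω : 0 < ω) (q : ℤ) :
    ∫ θ in (0 : ℝ)..ω, Complex.exp (-(Complex.I * q * ((2 * Real.pi / ω : ℝ) : ℂ) * θ)) = if q = 0 then (ω : ℂ) else 0 := by
  split_ifs with hq
  · subst hq
    simp
  · have hc : -(Complex.I * q * ((2 * Real.pi / ω : ℝ) : ℂ)) ≠ 0 := by
      have h1 : (q : ℂ) ≠ 0 := by exact_mod_cast hq
      have h2 : ((2 * Real.pi / ω : ℝ) : ℂ) ≠ 0 := by
        have : (2 * Real.pi / ω : ℝ) ≠ 0 := by positivity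
        exact_mod_cast this
      exact neg_ne_zero.2 (mul_ne_zero (mul_ne_zero Complex.I_ne_zero h1) h2)
    have e : ∀ θ : ℝ, Complex.exp (-(Complex.I * q * ((2 * Real.pi / ω : ℝ) : ℂ) * θ))
        = Complex.exp (-(Complex.I * q * ((2 * Real.pi / ω : ℝ) : ℂ)) * θ) := fun θ => by rw [neg_mul]
    simp only [e]
    rw [integral_exp_mul_complex hc]
    have h3 := Hol.chK_period ω hω.ne' q
    unfold Hol.chK at h3
    rw [← neg_mul] at h3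
    rw [h3]
    simp

/-! ## 1. the partition functional at real fields -/

section state

variable (K : Cfg) (𝓡 : Reg K.s) (h : ℕ) (Cs : ℝ)

theorem rdo_gk_Z_apply (X : (ℂ × ℂ) × K.To 𝓡 h h) (z : (K.s.T h).V → ℂ) :
    Zlev K 𝓡 h h X z = ∑ W : Finset (K.s.lev h h).I, ∏ Y ∈ (K.s.lev h h).comps K.c.R W, Kst K 𝓡 h h X Y z := by
  rw [Zlev_eq]
  simp only [ZA, Finset.sum_apply, Finset.prod_apply]

variable {K 𝓡 h Cs}

theorem rdo_gk_Z_cont (dict : DictOK K 𝓡 h h Cs) (X : (ℂ × ℂ) × K.To 𝓡 h h) :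
    Continuous fun φ : (K.s.T h).V → ℝ => Zlev K 𝓡 h h X (toC φ) := by
  simp only [rdo_gk_Z_apply]
  exact continuous_finsetSum _ fun W _ => continuous_finsetProd _ fun Y _ => dict.cont X Y

theorem rdo_gk_Z_per (dict : DictOK K 𝓡 h h Cs) (X : (ℂ × ℂ) × K.To 𝓡 h h) (φ : (K.s.T h).V → ℝ) :
    Zlev K 𝓡 h h X (toC fun v => φ v + K.p.ω) = Zlev K 𝓡 h h X (toC φ) := by
  simp only [rdo_gk_Z_apply, dict.per]

theorem rdo_gk_Z_even (dict : DictOK K 𝓡 h h Cs) (X : (ℂ × ℂ) × K.To 𝓡 h h) (φ : (K.s.T h).V → ℝ) :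
    Zlev K 𝓡 h h X (toC fun v => -φ v) = Zlev K 𝓡 h h X (toC φ) := by
  simp only [rdo_gk_Z_apply, dict.even]

theorem rdo_gk_Z_le (hδ : 0 ≤ K.p.δ) (hκ : 0 ≤ K.p.κ) (hA : 0 < K.p.A) (hsep : max 5 (𝓡.V h h).sep < K.c.R) (hCs : 0 ≤ Cs)
    (dict : DictOK K 𝓡 h h Cs) (X : (ℂ × ℂ) × K.To 𝓡 h h) (hX : Cs * ‖X‖ ≤ 1) (φ : (K.s.T h).V → ℝ) :
    ‖Zlev K 𝓡 h h X (toC φ) - 1‖ ≤ Cs * ‖X‖ * Dom (K.s.lev h h) K.p (𝓡.V h h) φ ∧
      ‖Zlev K 𝓡 h h X (toC φ)‖ ≤ Dom (K.s.lev h h) K.p (𝓡.V h h) φ :=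
  rdo_ZA_le (K.s.lev h h) K.c.R K.p (𝓡.V h h) (K.s.lev_ok h h) hδ hκ hA hsep (Kst K 𝓡 h h X) (toC φ) φ (Cs * ‖X‖)
    (mul_nonneg hCs (norm_nonneg _)) hX fun Y => dict.bd X Y φ

theorem rdo_gk_Z_zero (hδ : 0 ≤ K.p.δ) (hκ : 0 ≤ K.p.κ) (hA : 0 < K.p.A) (hsep : max 5 (𝓡.V h h).sep < K.c.R) (hCs : 0 ≤ Cs)
    (dict : DictOK K 𝓡 h h Cs) (φ : (K.s.T h).V → ℝ) : Zlev K 𝓡 h h 0 (toC φ) = 1 := by
  have := (rdo_gk_Z_le hδ hκ hA hsep hCs dict 0 (by simp) φ).1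
  rw [norm_zero, mul_zero, zero_mul] at this
  exact sub_eq_zero.1 (norm_le_zero_iff.1 this)

variable (K 𝓡 h)

/-- the terminal functional as an iterated integral over real fields -/
theorem rdo_gk_gq (q : ℤ) (X : (ℂ × ℂ) × K.To 𝓡 h h) (w : ℝ) :
    gq K 𝓡 h q X w = ((1 / K.p.ω : ℝ) : ℂ) * ∫ θ in (0 : ℝ)..K.p.ω,
      Complex.exp (-(Complex.I * q * ((2 * Real.pi / K.p.ω : ℝ) : ℂ) * θ)) *
        ∫ ψ, Zlev K 𝓡 h h X (toC fun v => ψ v + w * cos1 (K.s.T h) v + θ) ∂(gauss (K.s.T h) (Gge K h h)) := by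
  unfold gq Eter conv
  congr 1
  refine intervalIntegral.integral_congr fun θ _ => ?_
  congr 1
  refine integral_congr_ae (Eventually.of_forall fun ψ => ?_)
  simp only
  congr 1
  funext v
  simp only [Pi.add_apply, bg, toC]
  push_cast
  ring

end state

/-! ## 2. the uniform phase -/

section theta

variable {K : Cfg} {𝓡 : Reg K.s} {h : ℕ} {Cs : ℝ}

/-- a weighted integral of the partition functional, integrated over the phase against a bounded continuous function -/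
theorem rdo_gk_theta (hδ : 0 ≤ K.p.δ) (hκ : 0 ≤ K.p.κ) (hA : 0 < K.p.A) (hω : 0 < K.p.ω)
    (hsep : max 5 (𝓡.V h h).sep < K.c.R) (hCs : 0 < Cs) (dict : DictOK K 𝓡 h h Cs)
    (wgt : ((K.s.T h).V → ℝ) → ℂ) (hw : Continuous wgt) (s : (K.s.T h).V → ℝ) (M : ℝ) (hM0 : 0 ≤ M)
    (hM : ∫⁻ ψ, ENNReal.ofReal (‖wgt ψ‖ * Dom (K.s.lev h h) K.p (𝓡.V h h) fun v => ψ v + s v) ∂(gauss (K.s.T h) (Gge K h h))
      ≤ ENNReal.ofReal M)
    (e : ℝ → ℂ) (he : Continuous e) (he1 : ∀ θ, ‖e θ‖ ≤ 1) :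
    DifferentiableOn ℂ (fun X => ∫ θ in (0 : ℝ)..K.p.ω, e θ *
        ∫ ψ, wgt ψ * Zlev K 𝓡 h h X (toC fun v => ψ v + s v + θ) ∂(gauss (K.s.T h) (Gge K h h))) (Metric.ball 0 Cs⁻¹) ∧
    ∀ X ∈ Metric.ball (0 : (ℂ × ℂ) × K.To 𝓡 h h) Cs⁻¹,
      ‖(∫ θ in (0 : ℝ)..K.p.ω, e θ * ∫ ψ, wgt ψ * Zlev K 𝓡 h h X (toC fun v => ψ v + s v + θ) ∂(gauss (K.s.T h) (Gge K h h)))
        - (∫ θ in (0 : ℝ)..K.p.ω, e θ) * ∫ ψ, wgt ψ ∂(gauss (K.s.T h) (Gge K h h))‖ ≤ K.p.ω * (M * Cs * ‖X‖) := by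
  obtain ⟨μ, hμ⟩ : ∃ μ, μ = gauss (K.s.T h) (Gge K h h) := ⟨_, rfl⟩
  have hprob : IsProbabilityMeasure μ := by rw [hμ]; exact rdo_gk_prob _ _
  rw [← hμ] at hM ⊢
  obtain ⟨I, hI⟩ : ∃ I : ((ℂ × ℂ) × K.To 𝓡 h h) → ℝ → ℂ,
      I = fun X θ => ∫ ψ, wgt ψ * Zlev K 𝓡 h h X (toC fun v => ψ v + s v + θ) ∂μ := ⟨_, rfl⟩
  obtain ⟨W0, hW0⟩ : ∃ W0, W0 = ∫ ψ, wgt ψ ∂μ := ⟨_, rfl⟩
  have core : ∀ θ : ℝ, DifferentiableOn ℂ (fun X => I X θ) (Metric.ball 0 Cs⁻¹) ∧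
      ∀ X ∈ Metric.ball (0 : (ℂ × ℂ) × K.To 𝓡 h h) Cs⁻¹, ‖I X θ - W0‖ ≤ M * Cs * ‖X‖ := by
    intro θ
    rw [hI, hW0]
    refine rdo_core (K.s.lev h h) K.c.R K.p (𝓡.V h h) μ (K.s.lev_ok h h) hδ hκ hA hsep (Kst K 𝓡 h h)
      (fun ψ v => ψ v + s v + θ) wgt Cs M hCs hM0 (fun Y ψ => dict.lin Y _) (fun x Y ψ => dict.bd x Y _)
      (fun x Y => (dict.cont x Y).comp (by fun_prop)) hw ?_
    simp only [rdo_gk_Dom_const]
    exact hM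
  have hjc : ∀ X, Continuous fun x : ℝ × ((K.s.T h).V → ℝ) =>
      wgt x.2 * Zlev K 𝓡 h h X (toC fun v => x.2 v + s v + x.1) := by
    intro X
    refine (hw.comp continuous_snd).mul ((rdo_gk_Z_cont dict X).comp ?_)
    fun_prop
  have hIm : ∀ X, StronglyMeasurable (I X) := by
    intro X
    rw [hI]
    exact (hjc X).stronglyMeasurable.integral_prod_right'
  have hsm : ∀ X ∈ Metric.ball (0 : (ℂ × ℂ) × K.To 𝓡 h h) Cs⁻¹, M * Cs * ‖X‖ ≤ M := by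
    intro X hX
    have h1 : ‖X‖ < Cs⁻¹ := by simpa using hX
    have h2 : Cs * ‖X‖ ≤ 1 := by
      have := mul_lt_mul_of_pos_left h1 hCs
      rw [mul_inv_cancel₀ hCs.ne'] at this
      exact this.le
    calc M * Cs * ‖X‖ = M * (Cs * ‖X‖) := by ring
      _ ≤ M * 1 := mul_le_mul_of_nonneg_left h2 hM0
      _ = M := mul_one M
  have hIb : ∀ X ∈ Metric.ball (0 : (ℂ × ℂ) × K.To 𝓡 h h) Cs⁻¹, ∀ θ, ‖e θ * I X θ‖ ≤ ‖W0‖ + M := by
    intro X hX θ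
    have h1 := (core θ).2 X hX
    have h2 : ‖I X θ‖ ≤ ‖W0‖ + M := by
      calc ‖I X θ‖ = ‖W0 + (I X θ - W0)‖ := by congr 1; ring
        _ ≤ ‖W0‖ + ‖I X θ - W0‖ := norm_add_le _ _
        _ ≤ ‖W0‖ + M := by linarith [hsm X hX]
    rw [norm_mul]
    calc ‖e θ‖ * ‖I X θ‖ ≤ 1 * (‖W0‖ + M) := mul_le_mul (he1 θ) h2 (norm_nonneg _) zero_le_one
      _ = _ := one_mul _
  have hdiff : DifferentiableOn ℂ (fun X => ∫ θ, e θ * I X θ ∂(volume.restrict (Set.Ioc 0 K.p.ω))) (Metric.ball 0 Cs⁻¹) := by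
    refine rdo_hol_integral _ _ Metric.isOpen_ball (fun X θ => e θ * I X θ) (fun θ => (core θ).1.const_mul (e θ))
      (fun X _ => (he.stronglyMeasurable.mul (hIm X)).aestronglyMeasurable) ?_
    intro X hX
    obtain ⟨ε, hε, hball⟩ := Metric.isOpen_iff.1 Metric.isOpen_ball X hX
    exact ⟨ε, hε, fun _ => ‖W0‖ + M, integrable_const _, fun X' hX' θ => hIb X' (hball hX') θ⟩
  have hbound : ∀ X ∈ Metric.ball (0 : (ℂ × ℂ) × K.To 𝓡 h h) Cs⁻¹,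
      ‖(∫ θ in (0 : ℝ)..K.p.ω, e θ * I X θ) - (∫ θ in (0 : ℝ)..K.p.ω, e θ) * W0‖ ≤ K.p.ω * (M * Cs * ‖X‖) := by
    intro X hX
    have hii : IntervalIntegrable (fun θ => e θ * I X θ) volume 0 K.p.ω := by
      rw [intervalIntegrable_iff_integrableOn_Ioc_of_le hω.le]
      exact Measure.integrableOn_of_bounded (M := ‖W0‖ + M) measure_Ioc_lt_top.ne
        (he.stronglyMeasurable.mul (hIm X)).aestronglyMeasurable (Eventually.of_forall fun θ => hIb X hX θ)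
    have hie : IntervalIntegrable e volume 0 K.p.ω := he.intervalIntegrable _ _
    have e1 : (∫ θ in (0 : ℝ)..K.p.ω, e θ * I X θ) - (∫ θ in (0 : ℝ)..K.p.ω, e θ) * W0
        = ∫ θ in (0 : ℝ)..K.p.ω, e θ * (I X θ - W0) := by
      rw [← intervalIntegral.integral_mul_const, ← intervalIntegral.integral_sub hii (hie.mul_const W0)]
      refine intervalIntegral.integral_congr fun θ _ => ?_
      ring
    rw [e1]
    have h3 := intervalIntegral.norm_integral_le_of_norm_le_const (a := 0) (b := K.p.ω) (C := M * Cs * ‖X‖)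
      (f := fun θ => e θ * (I X θ - W0)) fun θ _ => by
        rw [norm_mul]
        calc ‖e θ‖ * ‖I X θ - W0‖ ≤ 1 * (M * Cs * ‖X‖) :=
              mul_le_mul (he1 θ) ((core θ).2 X hX) (norm_nonneg _) zero_le_one
          _ = _ := one_mul _
    rw [sub_zero, abs_of_pos hω] at h3
    linarith
  simp only [intervalIntegral.integral_of_le hω.le] at hbound ⊢
  subst hI hW0
  exact ⟨hdiff, hbound⟩

end theta

/-! ## 3. the functionals -/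

section fnl

variable {K : Cfg} {𝓡 : Reg K.s} {h : ℕ} {Cs : ℝ}

theorem rdo_gk_gq_core (hδ : 0 ≤ K.p.δ) (hκ : 0 ≤ K.p.κ) (hA : 0 < K.p.A) (hω : 0 < K.p.ω)
    (hsep : max 5 (𝓡.V h h).sep < K.c.R) (hCs : 0 < Cs) (dict : DictOK K 𝓡 h h Cs) (q : ℤ) (w M : ℝ) (hM0 : 0 ≤ M)
    (hM : ∫⁻ ψ, ENNReal.ofReal (Dom (K.s.lev h h) K.p (𝓡.V h h) fun v => ψ v + w * cos1 (K.s.T h) v) ∂(gauss (K.s.T h) (Gge K h h))
      ≤ ENNReal.ofReal M) :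
    DifferentiableOn ℂ (fun X => gq K 𝓡 h q X w) (Metric.ball 0 Cs⁻¹) ∧
    ∀ X ∈ Metric.ball (0 : (ℂ × ℂ) × K.To 𝓡 h h) Cs⁻¹, ‖gq K 𝓡 h q X w - (if q = 0 then 1 else 0)‖ ≤ M * Cs * ‖X‖ := by
  have hprob : IsProbabilityMeasure (gauss (K.s.T h) (Gge K h h)) := rdo_gk_prob _ _
  have key := rdo_gk_theta hδ hκ hA hω hsep hCs dict (fun _ => 1) continuous_const (fun v => w * cos1 (K.s.T h) v) M hM0
    (by simpa using hM) (fun θ : ℝ => Hol.chK K.p.ω q θ) ((Hol.chK_continuous _ _).comp Complex.continuous_ofReal)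
    (fun θ => (Hol.norm_chK_real _ _ _).le)
  have h1 : ∫ _ψ : (K.s.T h).V → ℝ, (1 : ℂ) ∂(gauss (K.s.T h) (Gge K h h)) = 1 := by simp
  have hint : ∫ θ in (0 : ℝ)..K.p.ω, Hol.chK K.p.ω q θ = if q = 0 then (K.p.ω : ℂ) else 0 := rdo_gk_chK_int _ hω q
  simp only [one_mul] at key
  rw [h1, hint] at key
  have hg : ∀ X, gq K 𝓡 h q X w = ((1 / K.p.ω : ℝ) : ℂ) * ∫ θ in (0 : ℝ)..K.p.ω, Hol.chK K.p.ω q θ *
      ∫ ψ, Zlev K 𝓡 h h X (toC fun v => ψ v + w * cos1 (K.s.T h) v + θ) ∂(gauss (K.s.T h) (Gge K h h)) :=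
    fun X => rdo_gk_gq K 𝓡 h q X w
  refine ⟨(key.1.const_mul ((1 / K.p.ω : ℝ) : ℂ)).congr fun X _ => hg X, fun X hX => ?_⟩
  have e2 : (if q = 0 then (1 : ℂ) else 0) = ((1 / K.p.ω : ℝ) : ℂ) * ((if q = 0 then (K.p.ω : ℂ) else 0) * 1) := by
    have hω' : (K.p.ω : ℂ) ≠ 0 := by exact_mod_cast hω.ne'
    split_ifs
    · push_cast
      field_simp
    · simp
  have hn : ‖((1 / K.p.ω : ℝ) : ℂ)‖ = 1 / K.p.ω := by
    rw [Complex.norm_real, Real.norm_of_nonneg (by positivity)]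
  rw [hg, e2, ← mul_sub, norm_mul, hn]
  calc 1 / K.p.ω * _ ≤ 1 / K.p.ω * (K.p.ω * (M * Cs * ‖X‖)) := mul_le_mul_of_nonneg_left (key.2 X hX) (by positivity)
    _ = M * Cs * ‖X‖ := by field_simp

theorem rdo_gk_gq_zero (hδ : 0 ≤ K.p.δ) (hκ : 0 ≤ K.p.κ) (hA : 0 < K.p.A) (hω : 0 < K.p.ω)
    (hsep : max 5 (𝓡.V h h).sep < K.c.R) (hCs : 0 ≤ Cs) (dict : DictOK K 𝓡 h h Cs) (q : ℤ) (w : ℝ) :
    gq K 𝓡 h q 0 w = if q = 0 then 1 else 0 := by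
  have hprob : IsProbabilityMeasure (gauss (K.s.T h) (Gge K h h)) := rdo_gk_prob _ _
  have h1 : ∫ _ψ : (K.s.T h).V → ℝ, (1 : ℂ) ∂(gauss (K.s.T h) (Gge K h h)) = 1 := by simp
  rw [rdo_gk_gq]
  simp only [rdo_gk_Z_zero hδ hκ hA hsep hCs dict]
  rw [h1]
  simp only [mul_one]
  rw [rdo_gk_chK_int _ hω]
  have hω' : (K.p.ω : ℂ) ≠ 0 := by exact_mod_cast hω.ne'
  split_ifs
  · push_cast
    field_simp
  · simp

/-- evenness: `ψ ↦ -ψ`, `θ ↦ -θ` -/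
theorem rdo_gk_even (hω : 0 < K.p.ω) (dict : DictOK K 𝓡 h h Cs) (q : ℤ) (X : (ℂ × ℂ) × K.To 𝓡 h h) (w : ℝ) :
    gq K 𝓡 h (-q) X (-w) = gq K 𝓡 h q X w := by
  obtain ⟨F, hF⟩ : ∃ F : ℝ → ℝ → ℂ, F = fun w θ =>
      ∫ ψ, Zlev K 𝓡 h h X (toC fun v => ψ v + w * cos1 (K.s.T h) v + θ) ∂(gauss (K.s.T h) (Gge K h h)) := ⟨_, rfl⟩
  have h1 : ∀ θ, F (-w) θ = F w (-θ) := by
    intro θ
    rw [hF]
    simp only
    rw [← rdo_gk_neg (Gge K h h) (rdo_gk_psd _ _ _)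
      (fun ψ => Zlev K 𝓡 h h X (toC fun v => ψ v + -w * cos1 (K.s.T h) v + θ))]
    refine integral_congr_ae (Eventually.of_forall fun ψ => ?_)
    simp only
    rw [← rdo_gk_Z_even dict]
    congr 2
    funext v
    simp only [Pi.neg_apply]
    ring
  have h2 : ∀ θ, F w (θ + K.p.ω) = F w θ := by
    intro θ
    rw [hF]
    simp only
    refine integral_congr_ae (Eventually.of_forall fun ψ => ?_)
    simp only
    rw [← rdo_gk_Z_per dict X (fun v => ψ v + w * cos1 _ v + θ)]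
    congr 2
    funext v
    ring
  have h3 : ∀ θ : ℝ, Hol.chK K.p.ω (-q) θ = Hol.chK K.p.ω q ((-θ : ℝ) : ℂ) := by
    intro θ
    unfold Hol.chK
    congr 1
    push_cast
    ring
  have hper : Function.Periodic (fun t : ℝ => Hol.chK K.p.ω q t * F w t) K.p.ω := by
    intro t
    simp only
    rw [h2]
    push_cast
    rw [Hol.chK_add, Hol.chK_period _ hω.ne', mul_one]
  have hg : ∀ (q : ℤ) (w : ℝ), gq K 𝓡 h q X w = ((1 / K.p.ω : ℝ) : ℂ) * ∫ θ in (0 : ℝ)..K.p.ω, Hol.chK K.p.ω q θ * F w θ := by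
    intro q w
    rw [hF]
    exact rdo_gk_gq K 𝓡 h q X w
  rw [hg, hg]
  congr 1
  calc ∫ θ in (0 : ℝ)..K.p.ω, Hol.chK K.p.ω (-q) θ * F (-w) θ
      = ∫ θ in (0 : ℝ)..K.p.ω, (fun t : ℝ => Hol.chK K.p.ω q t * F w t) (-θ) := by
        refine intervalIntegral.integral_congr fun θ _ => ?_
        simp only
        rw [h1, h3]
    _ = ∫ θ in -K.p.ω..-0, Hol.chK K.p.ω q θ * F w θ :=
        intervalIntegral.integral_comp_neg (fun t : ℝ => Hol.chK K.p.ω q t * F w t)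
    _ = ∫ θ in (0 : ℝ)..K.p.ω, Hol.chK K.p.ω q θ * F w θ := by
        have := hper.intervalIntegral_add_eq (-K.p.ω) 0
        simpa using this

/-- the second source derivative of the neutral functional -/
theorem rdo_gk_N (hF : K.F = Fam.entry) (hℓ : 1 ≤ K.s.ℓ) (hD : 2 ≤ K.s.D0) (hδ : 0 ≤ K.p.δ) (hκ : 0 ≤ K.p.κ) (hA : 0 < K.p.A) (hω : 0 < K.p.ω)
    (hsep : max 5 (𝓡.V h h).sep < K.c.R) (hCs : 0 < Cs) (dict : DictOK K 𝓡 h h Cs) (hp : 0 < pG K h h) (M : ℝ) (hM0 : 0 ≤ M)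
    (hσ0 : 0 ≤ sigQ K h h) (hσ : sigQ K h h ≤ M)
    (hM : ∫⁻ ψ, ENNReal.ofReal (Real.exp |etaQ K h h ⬝ᵥ ψ| * Dom (K.s.lev h h) K.p (𝓡.V h h) ψ) ∂(gauss (K.s.T h) (Gge K h h))
      ≤ ENNReal.ofReal M) :
    DifferentiableOn ℂ (fun X => iteratedDeriv 2 (gq K 𝓡 h 0 X) 0) (Metric.ball 0 Cs⁻¹) ∧
    (∀ X ∈ Metric.ball (0 : (ℂ × ℂ) × K.To 𝓡 h h) Cs⁻¹, ‖iteratedDeriv 2 (gq K 𝓡 h 0 X) 0‖ ≤ (2 + M) * M * Cs * ‖X‖) ∧
    iteratedDeriv 2 (gq K 𝓡 h 0 0) 0 = 0 ∧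
    ∀ X ∈ Metric.ball (0 : (ℂ × ℂ) × K.To 𝓡 h h) Cs⁻¹, ContDiffAt ℝ 2 (gq K 𝓡 h 0 X) 0 := by
  obtain ⟨wN, hwN⟩ : ∃ wN : ((K.s.T h).V → ℝ) → ℂ, wN = fun ψ => (((etaQ K h h ⬝ᵥ ψ) ^ 2 - sigQ K h h : ℝ) : ℂ) := ⟨_, rfl⟩
  have hwc : Continuous wN := by
    rw [hwN]
    refine Complex.continuous_ofReal.comp ?_
    unfold dotProduct
    fun_prop
  have hwb : ∀ ψ, ‖wN ψ‖ ≤ (2 + M) * Real.exp |etaQ K h h ⬝ᵥ ψ| := by
    intro ψ
    rw [hwN]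
    simp only
    rw [Complex.norm_real, Real.norm_eq_abs]
    obtain ⟨x, hx⟩ : ∃ x, x = etaQ K h h ⬝ᵥ ψ := ⟨_, rfl⟩
    rw [← hx]
    have h1 := Real.quadratic_le_exp_of_nonneg (abs_nonneg x)
    have h2 : |x| ^ 2 = x ^ 2 := sq_abs x
    have h3 : 1 ≤ Real.exp |x| := Real.one_le_exp (abs_nonneg x)
    have h4 := mul_nonneg hM0 (sub_nonneg.2 h3)
    rw [abs_le]
    constructor <;> nlinarith [abs_nonneg x, sq_nonneg x]
  have hM' : ∫⁻ ψ, ENNReal.ofReal (‖wN ψ‖ * Dom (K.s.lev h h) K.p (𝓡.V h h) fun v => ψ v + (fun _ => (0 : ℝ)) v)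
      ∂(gauss (K.s.T h) (Gge K h h)) ≤ ENNReal.ofReal ((2 + M) * M) := by
    simp only [add_zero]
    calc ∫⁻ ψ, ENNReal.ofReal (‖wN ψ‖ * Dom (K.s.lev h h) K.p (𝓡.V h h) fun v => ψ v) ∂(gauss (K.s.T h) (Gge K h h))
        ≤ ∫⁻ ψ, ENNReal.ofReal (2 + M) * ENNReal.ofReal (Real.exp |etaQ K h h ⬝ᵥ ψ| * Dom (K.s.lev h h) K.p (𝓡.V h h) ψ)
            ∂(gauss (K.s.T h) (Gge K h h)) := by
          refine lintegral_mono fun ψ => ?_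
          rw [← ENNReal.ofReal_mul (by linarith)]
          refine ENNReal.ofReal_le_ofReal ?_
          calc ‖wN ψ‖ * Dom (K.s.lev h h) K.p (𝓡.V h h) (fun v => ψ v)
              ≤ ((2 + M) * Real.exp |etaQ K h h ⬝ᵥ ψ|) * Dom (K.s.lev h h) K.p (𝓡.V h h) ψ :=
                mul_le_mul_of_nonneg_right (hwb ψ) (rdo_gk_Dom_nonneg _ _ _ hA _)
            _ = _ := by ring
      _ = ENNReal.ofReal (2 + M) * ∫⁻ ψ, ENNReal.ofReal (Real.exp |etaQ K h h ⬝ᵥ ψ| * Dom (K.s.lev h h) K.p (𝓡.V h h) ψ)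
            ∂(gauss (K.s.T h) (Gge K h h)) := lintegral_const_mul' _ _ ENNReal.ofReal_ne_top
      _ ≤ ENNReal.ofReal (2 + M) * ENNReal.ofReal M := by gcongr
      _ = _ := (ENNReal.ofReal_mul (by linarith)).symm
  have key := rdo_gk_theta hδ hκ hA hω hsep hCs dict wN hwc (fun _ => 0) ((2 + M) * M) (by positivity) hM'
    (fun θ : ℝ => Hol.chK K.p.ω 0 θ) ((Hol.chK_continuous _ _).comp Complex.continuous_ofReal)
    (fun θ => (Hol.norm_chK_real _ _ _).le)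
  simp only [add_zero] at key
  subst hwN
  have hsm : ∀ X ∈ Metric.ball (0 : (ℂ × ℂ) × K.To 𝓡 h h) Cs⁻¹, Cs * ‖X‖ ≤ 1 := by
    intro X hX
    have h1 : ‖X‖ < Cs⁻¹ := by simpa using hX
    have := mul_lt_mul_of_pos_left h1 hCs
    rw [mul_inv_cancel₀ hCs.ne'] at this
    exact this.le
  have cm := fun (X : (ℂ × ℂ) × K.To 𝓡 h h) (hX : X ∈ Metric.ball (0 : (ℂ × ℂ) × K.To 𝓡 h h) Cs⁻¹) =>
    rdo_cm_formula K 𝓡 hF hℓ hD hω h hp 0 (Zlev K 𝓡 h h X) 1 zero_le_one (rdo_gk_Z_cont dict X)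
      (fun φ => by rw [one_mul]; exact (rdo_gk_Z_le hδ hκ hA hsep hCs.le dict X (hsm X hX) φ).2)
      (ne_top_of_le_ne_top ENNReal.ofReal_ne_top hM)
  obtain ⟨J, hJ⟩ : ∃ J : ((ℂ × ℂ) × K.To 𝓡 h h) → ℂ, J = fun X => ∫ θ in (0 : ℝ)..K.p.ω, Hol.chK K.p.ω 0 θ *
      ∫ ψ, (((etaQ K h h ⬝ᵥ ψ) ^ 2 - sigQ K h h : ℝ) : ℂ) * Zlev K 𝓡 h h X (toC fun v => ψ v + θ) ∂(gauss (K.s.T h) (Gge K h h)) :=
    ⟨_, rfl⟩
  have hN : ∀ X ∈ Metric.ball (0 : (ℂ × ℂ) × K.To 𝓡 h h) Cs⁻¹,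
      iteratedDeriv 2 (gq K 𝓡 h 0 X) 0 = ((1 / K.p.ω : ℝ) : ℂ) * J X := by
    intro X hX
    rw [hJ]
    exact (cm X hX).2.1
  have hz : iteratedDeriv 2 (gq K 𝓡 h 0 0) 0 = 0 := by
    have : gq K 𝓡 h 0 0 = fun _ => 1 := by
      funext w
      rw [rdo_gk_gq_zero hδ hκ hA hω hsep hCs.le dict 0 w, if_pos rfl]
    rw [this, iteratedDeriv_const]
    simp
  have h0m : (0 : (ℂ × ℂ) × K.To 𝓡 h h) ∈ Metric.ball (0 : (ℂ × ℂ) × K.To 𝓡 h h) Cs⁻¹ :=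
    Metric.mem_ball_self (inv_pos.2 hCs)
  have hc0 : ((1 / K.p.ω : ℝ) : ℂ) ≠ 0 := by
    have : (1 / K.p.ω : ℝ) ≠ 0 := by positivity
    exact_mod_cast this
  have hJ0 : J 0 = 0 := by
    have := hN 0 h0m
    rw [hz] at this
    exact (mul_eq_zero.1 this.symm).resolve_left hc0
  rw [← hJ] at key
  obtain ⟨c0, hc0'⟩ : ∃ c0 : ℂ, c0 = (∫ θ in (0 : ℝ)..K.p.ω, Hol.chK K.p.ω 0 θ) *
      ∫ ψ, (((etaQ K h h ⬝ᵥ ψ) ^ 2 - sigQ K h h : ℝ) : ℂ) ∂(gauss (K.s.T h) (Gge K h h)) := ⟨_, rfl⟩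
  have key2 : ∀ X ∈ Metric.ball (0 : (ℂ × ℂ) × K.To 𝓡 h h) Cs⁻¹, ‖J X - c0‖ ≤ K.p.ω * ((2 + M) * M * Cs * ‖X‖) := by
    intro X hX
    rw [hJ, hc0']
    exact key.2 X hX
  have hc00 : c0 = 0 := by
    have := key2 0 h0m
    rw [hJ0, norm_zero, mul_zero, mul_zero, zero_sub, norm_neg] at this
    exact norm_le_zero_iff.1 this
  have hn : ‖((1 / K.p.ω : ℝ) : ℂ)‖ = 1 / K.p.ω := by
    rw [Complex.norm_real, Real.norm_of_nonneg (by positivity)]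
  refine ⟨(key.1.const_mul ((1 / K.p.ω : ℝ) : ℂ)).congr fun X hX => hN X hX, fun X hX => ?_, hz, fun X hX => (cm X hX).2.2⟩
  rw [hN X hX, norm_mul, hn]
  have := key2 X hX
  rw [hc00, sub_zero] at this
  calc 1 / K.p.ω * ‖J X‖ ≤ 1 / K.p.ω * (K.p.ω * ((2 + M) * M * Cs * ‖X‖)) := mul_le_mul_of_nonneg_left this (by positivity)
    _ = _ := by field_simp

end fnl

/-- the multiplier at the stop is positive for large `D₀` -/
theorem rdo_gk_pG_pos : ∃ D1 : ℕ, ∀ K : Cfg, K.F = Fam.entry → D1 ≤ K.s.D0 → ∀ h, 0 < pG K h h := by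
  obtain ⟨C, hC⟩ := rdo_pG
  obtain ⟨N, hN⟩ := exists_nat_gt (max C 0)
  refine ⟨max 2 (N + 1), fun K hF hD h => ?_⟩
  have hu : 1 ≤ K.s.L ^ h := Nat.one_le_pow _ _ K.s.L_pos
  have hM : (K.s.T h).M = K.s.D0 * K.s.L ^ h := rfl
  have h2 : 2 * K.s.L ^ h ≤ (K.s.T h).M := by
    rw [hM]
    exact Nat.mul_le_mul_right _ (le_trans (le_max_left _ _) hD)
  have h3 := (hC (K.s.T h).M (K.s.L ^ h) hu h2).2.2
  unfold pG
  rw [hF]
  have hd : (N : ℝ) + 1 ≤ (K.s.D0 : ℝ) := by exact_mod_cast le_trans (le_max_right _ _) hD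
  have hu' : (0 : ℝ) < ((K.s.L ^ h : ℕ) : ℝ) := by exact_mod_cast hu
  have hN0 : (0 : ℝ) < N := lt_of_le_of_lt (le_max_right _ _) hN
  have hCN : C < N := lt_of_le_of_lt (le_max_left _ _) hN
  have e : ((K.s.L ^ h : ℕ) : ℝ) / ((K.s.T h).M : ℝ) = 1 / (K.s.D0 : ℝ) := by
    rw [hM]
    push_cast
    have : (0 : ℝ) < K.s.D0 := by linarith
    have hL : (0 : ℝ) < (K.s.L : ℝ) ^ h := by
      have : (0 : ℝ) < (K.s.L : ℝ) := by exact_mod_cast K.s.L_pos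
      positivity
    field_simp
  rw [e] at h3
  have h4 : C * (1 / (K.s.D0 : ℝ)) ^ 2 < 1 := by
    have hd0 : (0 : ℝ) < K.s.D0 := by linarith
    rw [one_div, inv_pow, ← div_eq_mul_inv, div_lt_one (by positivity)]
    nlinarith
  linarith

/-- `L-RDO-T8` **TERM, exit**: constants `ρ₁, C₁` depend on `(δ, κ, h₀, A, c_T, D₀, α_max)` only -/
theorem rdo_gok : ∃ D1 : ℕ, ∀ (δ κ : ℝ) (h0 : ℝ≥0) (A αmax : ℝ) (cT : ℝ≥0) (D0 : ℕ), 0 < δ → 0 < κ → 0 < h0 → 1 ≤ A → D1 ≤ D0 →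
    ∃ ρ1 C1 : ℝ, 0 < ρ1 ∧ 0 ≤ C1 ∧ ∀ K : Cfg, K.p.δ = δ → K.p.κ = κ → K.p.h0 = h0 → K.p.A = A → K.s.D0 = D0 → K.F = Fam.entry → 1 ≤ K.s.ℓ →
      0 < K.p.ω → Step.alpha K.p.ω ≤ αmax → ∀ (𝓡 : Reg K.s) (j0 : ℕ), TermGeo K 𝓡 j0 cT → ∀ h, j0 ≤ h →
      ∀ σ : K.To 𝓡 h h →L[ℂ] K.To 𝓡 h h, (∀ a, EqOn K.p.h0 (K.toAct 𝓡 (σ a)) (halfShift K.p.ω (K.toAct 𝓡 a))) → GOK K 𝓡 h σ ρ1 C1 := by
  obtain ⟨Da, hDa⟩ := rdo_dom_int
  obtain ⟨Db, hDb⟩ := rdo_gk_pG_pos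
  refine ⟨max (max Da Db) 2, fun δ κ h0 A αmax cT D0 hδ hκ hh hA hD => ?_⟩
  obtain ⟨Cs, hCs1, hdict⟩ := rdo_dict δ κ h0 A αmax hδ hκ hh hA
  obtain ⟨M0, hM0⟩ := hDa A cT D0 hA (le_trans (le_trans (le_max_left _ _) (le_max_left _ _)) hD)
  obtain ⟨M, hMdef⟩ : ∃ M, M = max M0 0 := ⟨_, rfl⟩
  have hMn : 0 ≤ M := hMdef ▸ le_max_right _ _
  have hMM : M0 ≤ M := hMdef ▸ le_max_left _ _
  have hCs : 0 < Cs := lt_of_lt_of_le zero_lt_one hCs1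
  refine ⟨1 / (2 * (M + 1) * Cs), (2 + M) * M + M + 1, by positivity, by positivity, ?_⟩
  intro K eδ eκ eh eA eD hF hℓ hω hα 𝓡 j0 geo h hj σ hσ
  have dict := hdict K eδ eκ eh eA hω hα 𝓡 h h
  obtain ⟨hs1, hs0, hw, hexp⟩ := hM0 K eA eD hF hℓ 𝓡 j0 geo.term h hj (geo.meas h h hj le_rfl)
  have hsep := geo.sep h h hj le_rfl
  have hδ' : 0 ≤ K.p.δ := eδ ▸ hδ.le
  have hκ' : 0 ≤ K.p.κ := eκ ▸ hκ.le
  have hA' : 0 < K.p.A := eA ▸ lt_of_lt_of_le zero_lt_one hA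
  have hh' : 0 < K.p.h0 := eh ▸ hh
  have hD2 : 2 ≤ K.s.D0 := eD ▸ le_trans (le_max_right _ _) hD
  have hp : 0 < pG K h h := hDb K hF (eD ▸ le_trans (le_trans (le_max_right _ _) (le_max_left _ _)) hD) h
  have hR : 1 ≤ K.c.R := by
    have := lt_of_le_of_lt (le_max_left 5 _) hsep
    omega
  have hmono : ENNReal.ofReal M0 ≤ ENNReal.ofReal M := ENNReal.ofReal_le_ofReal hMM
  have hρ : ∀ X ∈ Metric.ball (0 : (ℂ × ℂ) × K.To 𝓡 h h) (1 / (2 * (M + 1) * Cs)), 2 * (M + 1) * (Cs * ‖X‖) < 1 := by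
    intro X hX
    have h1 : ‖X‖ < 1 / (2 * (M + 1) * Cs) := by simpa using hX
    rw [lt_div_iff₀ (by positivity)] at h1
    linarith
  have hsub : Metric.ball (0 : (ℂ × ℂ) × K.To 𝓡 h h) (1 / (2 * (M + 1) * Cs)) ⊆ Metric.ball 0 Cs⁻¹ := by
    intro X hX
    have h1 := hρ X hX
    have h2 : Cs * ‖X‖ < 1 := by nlinarith [mul_nonneg hCs.le (norm_nonneg X)]
    rw [mem_ball_zero_iff, inv_eq_one_div, lt_div_iff₀' hCs]
    exact h2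
  have core := fun (q : ℤ) (w : ℝ) (hw1 : |w| ≤ 1) =>
    rdo_gk_gq_core hδ' hκ' hA' hω hsep hCs dict q w M hMn ((hw w hw1).trans hmono)
  have zero := rdo_gk_gq_zero hδ' hκ' hA' hω hsep hCs.le dict
  have NN := rdo_gk_N hF hℓ hD2 hδ' hκ' hA' hω hsep hCs dict hp M hMn hs0 (hs1.trans hMM) (hexp.trans hmono)
  have par := rdo_g_par K 𝓡 hω hh' hA' h σ hσ
  refine
    { D_an := (core 0 0 (by simp)).1.mono hsub
      D_bd := fun X hX w hw1 => ?_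
      D_zero := fun w => by rw [zero 0 w, if_pos rfl]
      N_an := NN.1.mono hsub
      N_bd := fun X hX => ?_
      N_zero := NN.2.2.1
      c_an := fun w hw1 => ?_
      c_bd := fun w hw1 X hX => ?_
      c_zero := fun w => ?_
      par0 := fun X w => by rw [par 0 X w]; simp
      parc := fun X w => ?_
      dz := fun w _ => rdo_g_dz K 𝓡 hF hℓ hω hh' hR h w
      q_even := fun X => by
        have := rdo_gk_even hω dict 1 X 0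
        rwa [neg_zero] at this
      w_even := fun X w => by
        have := rdo_gk_even hω dict 0 X w
        rwa [neg_zero] at this
      w_cd := fun X hX => NN.2.2.2 X (hsub hX) }
  · have h1 := (core 0 w hw1).2 X (hsub hX)
    rw [if_pos rfl] at h1
    have h2 := hρ X hX
    have h3 := mul_nonneg hCs.le (norm_nonneg X)
    nlinarith
  · have h1 := NN.2.1 X (hsub hX)
    have h2 := hρ X hX
    have h3 := mul_nonneg hCs.le (norm_nonneg X)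
    have h4 : Cs * ‖X‖ ≤ 1 := by nlinarith
    have h5 : (2 + M) * M * Cs * ‖X‖ ≤ (2 + M) * M := by
      calc (2 + M) * M * Cs * ‖X‖ = (2 + M) * M * (Cs * ‖X‖) := by ring
        _ ≤ (2 + M) * M * 1 := mul_le_mul_of_nonneg_left h4 (by positivity)
        _ = _ := mul_one _
    linarith
  · have h1 := (((core 1 w hw1).1.add (core (-1) w hw1).1).mul_const (2⁻¹ : ℂ)).mono hsub
    refine h1.congr fun X _ => ?_
    unfold gc
    rw [div_eq_mul_inv]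
    rfl
  · have h1 := (core 1 w hw1).2 X (hsub hX)
    have h1' := (core (-1) w hw1).2 X (hsub hX)
    rw [if_neg (by norm_num), sub_zero] at h1 h1'
    have h2 := hρ X hX
    have h3 := mul_nonneg hCs.le (norm_nonneg X)
    have h4 : Cs * ‖X‖ ≤ 1 := by nlinarith
    have h5 : M * Cs * ‖X‖ ≤ M := by
      calc M * Cs * ‖X‖ = M * (Cs * ‖X‖) := by ring
        _ ≤ M * 1 := mul_le_mul_of_nonneg_left h4 hMn
        _ = _ := mul_one _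
    unfold gc
    rw [norm_div]
    have h6 := norm_add_le (gq K 𝓡 h 1 X w) (gq K 𝓡 h (-1) X w)
    have h7 : ‖(2 : ℂ)‖ = 2 := by simp
    rw [h7, div_le_iff₀ (by norm_num)]
    nlinarith
  · unfold gc
    rw [zero 1 w, zero (-1) w]
    simp
  · unfold gc
    rw [par 1 X w, par (-1) X w]
    simp
    ring

end

end Claimed.Agent.R285.Rdo
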