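import Claimed.Agent.R285.Rdo.Main
import Claimed.Agent.R285.Rdo.Gok

/-!
# ROW 285, unit READOUT (post BP-READOUT #12738): THE EXIT, vocabulary `(K, 𝓡)` (no `Asm`)                     (architect helper16)

`rdo_out`: ONE theorem with the parameter protocol of `Asm/ConcDefs.lean`: first the source `w0` and `D₁` (absolute), then, for `(δ, κ, h₀, A, c_T, D₀)`, the radius `ρ₁` and the constants `C, c`;
then for EVERY tower with `TowerOK`, `TermGeo`, `ChainOK` and at least three cells per side: `StopOut` = all fields of `Asm.RawReadOK` owed by READOUT (with the normalisers `nV, nP, nM`),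
`RawMapOK.resp` in the `THist` form, the representation identities in the `RepIn` form.  The dictionary to `Asm.concSys` is `Asm/ReadTop.lean` (helper231).
-/

set_option autoImplicit false

namespace Claimed.Agent.R285.Rdo

open scoped BigOperators ENNReal NNReal
open MeasureTheory ProbabilityTheory Polynomial Filter Topology
open Claimed.Agent.R285 Claimed.Agent.R285.RG Claimed.Agent.R285.B8 Claimed.Agent.R285.F4a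

noncomputable section

/-- smaller radius -/
theorem ChainOK.anti {K : Cfg} {𝓡 : Reg K.s} {j0 : ℕ} {ρ ρ' d1 Ce : ℝ} (h : ChainOK K 𝓡 j0 ρ d1 Ce) (hρ : ρ' ≤ ρ) : ChainOK K 𝓡 j0 ρ' d1 Ce where
  cp := fun j hh hj0 hj x a hx ha => h.cp j hh hj0 hj x a (hx.trans_le hρ) (ha.trans_le hρ)
  cp_of_eq := h.cp_of_eq
  exact := fun j hh hj0 hj X hX => h.exact j hh hj0 hj X (Metric.ball_subset_ball hρ hX)
  exp_eq := h.exp_eq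
  exp_bd := h.exp_bd
  exp_cp := h.exp_cp

theorem rdo_x_snr_nonneg {G : Geom} (c : Grid G) : 0 ≤ snr c := by unfold snr; positivity

/-- larger constant -/
theorem MultOK.mono {K : Cfg} {𝓡 : Reg K.s} {w0 : ℝ} {h : ℕ} {C C' c : ℝ} (H : MultOK K 𝓡 w0 h C c) (h0 : 0 < C) (hC : C ≤ C') : MultOK K 𝓡 w0 h C' c where
  v0_bd := H.v0_bd.trans (mul_le_mul_of_nonneg_right hC (add_nonneg (rdo_x_snr_nonneg _) (by positivity)))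
  kV_bd := H.kV_bd.trans (mul_le_mul_of_nonneg_right hC (add_nonneg (rdo_x_snr_nonneg _) (by positivity)))
  kV_lo := (one_div_le_one_div_of_le h0 hC).trans H.kV_lo
  kP_bd := H.kP_bd.trans (mul_le_mul_of_nonneg_right hC (by positivity))
  kM_bd := ⟨H.kM_bd.1, H.kM_bd.2.trans hC⟩
  src := H.src
  gam_pos := H.gam_pos
  beta_pos := H.beta_pos
  nV_bd := ⟨H.nV_bd.1, H.nV_bd.2.trans hC⟩
  nP_bd := ⟨H.nP_bd.1, H.nP_bd.2.trans hC⟩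
  nM_bd := ⟨H.nM_bd.1, H.nM_bd.2.trans hC⟩

/-- **everything READOUT delivers for one tower** -/
structure StopOut (K : Cfg) (𝓡 : Reg K.s) (j0 : ℕ) (w0 : ℝ) (σ : ∀ h, K.To 𝓡 h h →L[ℂ] K.To 𝓡 h h) (ρ d1 C c : ℝ) : Prop where
  rV_an : ∀ h, j0 ≤ h → DifferentiableOn ℂ (rV K 𝓡 h) (Metric.ball 0 ρ)
  rP_an : ∀ h, j0 ≤ h → DifferentiableOn ℂ (rP K 𝓡 h) (Metric.ball 0 ρ)
  rM_an : ∀ h, j0 ≤ h → DifferentiableOn ℂ (rM K 𝓡 w0 h) (Metric.ball 0 ρ)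
  rV_bd : ∀ h, j0 ≤ h → ∀ X ∈ Metric.ball (0 : (ℂ × ℂ) × K.To 𝓡 h h) ρ, ‖rV K 𝓡 h X - kV K 𝓡 h * X.1.1‖ ≤ C * (‖X.2‖ + ‖X‖ ^ 2)
  rP_bd : ∀ h, j0 ≤ h → ∀ X ∈ Metric.ball (0 : (ℂ × ℂ) × K.To 𝓡 h h) ρ, ‖rP K 𝓡 h X - kP K 𝓡 h * X.1.2‖ ≤ C * (‖X.2‖ + ‖X‖ ^ 2)
  rM_bd : ∀ h, j0 ≤ h → ∀ X ∈ Metric.ball (0 : (ℂ × ℂ) × K.To 𝓡 h h) ρ, ‖rM K 𝓡 w0 h X - kM K 𝓡 w0 h * X.1.2‖ ≤ C * (‖X.2‖ + ‖X‖ ^ 2)
  rV_par : ∀ h, j0 ≤ h → ∀ X, rV K 𝓡 h (Flow.parX (σ h) X) = rV K 𝓡 h X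
  rP_par : ∀ h, j0 ≤ h → ∀ X, rP K 𝓡 h (Flow.parX (σ h) X) = -rP K 𝓡 h X
  rM_par : ∀ h, j0 ≤ h → ∀ X, rM K 𝓡 w0 h (Flow.parX (σ h) X) = -rM K 𝓡 w0 h X
  mult : ∀ h, j0 ≤ h → MultOK K 𝓡 w0 h C c
  pG_bd : ∀ h, j0 ≤ h → 0 ≤ pG K j0 h ∧ pG K j0 h ≤ 1 ∧ 1 - pG K j0 h ≤ C * ((K.s.L : ℝ) ^ j0 / (K.s.T h).M) ^ 2
  kV_hi : ∀ h, j0 ≤ h → 4 * |kV K 𝓡 h| ≤ C
  /-- [F] (trj:pure-response) -/
  resp : ∀ h, j0 ≤ h → ∀ X : ∀ j, (ℂ × ℂ) × K.To 𝓡 j h, THist K 𝓡 j0 h ρ X → ∀ d : ℂ, ‖d‖ < d1 → X j0 = ((d, 0), K.eExpT 𝓡 j0 h d 0) →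
    rV K 𝓡 h (X h) = kV K 𝓡 h * d / (1 - pG K j0 h * d)
  /-- exact representation of the normalised observables of a weight -/
  rep : ∀ (h : ℕ) (X : ∀ j, (ℂ × ℂ) × K.To 𝓡 j h) (W : ((𝓡.gs h).I → ℝ) → ℝ), RepIn K 𝓡 j0 h ρ X W →
    (cVW (𝓡.gs h) W : ℂ) = v0 K 𝓡 h + rV K 𝓡 h (X h) ∧ (cPW (𝓡.gs h) W : ℂ) = rP K 𝓡 h (X h) ∧ (cMW (aa K) w0 (𝓡.gs h) W : ℂ) = rM K 𝓡 w0 h (X h)

theorem rdo_x_omega8_pos : 0 < ω8 := by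
  unfold ω8 k0
  have := Real.pi_pos
  positivity

/-- a read-out with its normaliser -/
theorem rdo_x_scale (n C M : ℝ) (r k x : ℂ) (E : ℝ) (hn0 : 0 ≤ n) (hn : n ≤ C)
    (h : ‖r - k * x‖ ≤ M * E) : ‖(n : ℂ) * r - (n : ℂ) * k * x‖ ≤ C * M * E := by
  have e : (n : ℂ) * r - (n : ℂ) * k * x = (n : ℂ) * (r - k * x) := by ring
  rw [e, norm_mul, Complex.norm_real, Real.norm_eq_abs, abs_of_nonneg hn0, mul_assoc]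
  exact mul_le_mul hn h (norm_nonneg _) (hn0.trans hn)

/-- **THE EXIT OF READOUT** -/
theorem rdo_out : ∃ (w0 : ℝ) (D1 : ℕ), 0 < w0 ∧ ∀ (δ κ : ℝ) (h0 : ℝ≥0) (A : ℝ) (cT : ℝ≥0) (D0 : ℕ), 0 < δ → 0 < κ → 0 < h0 → 1 ≤ A → D1 ≤ D0 →
    ∃ ρ1 C c : ℝ, 0 < ρ1 ∧ 1 ≤ C ∧ 0 < c ∧ ∀ K : Cfg, K.p.δ = δ → K.p.κ = κ → K.p.h0 = h0 → K.p.A = A → K.s.D0 = D0 → K.F = Fam.entry → 1 ≤ K.s.ℓ →
      K.p.ω = ω8 → (∀ h, c ≤ pH K h ∧ pH K h ≤ C) ∧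
      ∀ (𝓡 : Reg K.s) (j0 : ℕ) (ρ0 d1 Ce : ℝ), K.TowerOK 𝓡 j0 → TermGeo K 𝓡 j0 cT → ChainOK K 𝓡 j0 ρ0 d1 Ce → 0 < d1 → (∀ h, j0 ≤ h → 3 ≤ (𝓡.gs h).n) →
      ∀ σ : ∀ h, K.To 𝓡 h h →L[ℂ] K.To 𝓡 h h, (∀ h a, EqOn K.p.h0 (K.toAct 𝓡 (σ h a)) (halfShift K.p.ω (K.toAct 𝓡 a))) →
      ∀ ρ, ρ ≤ ρ1 → ρ ≤ ρ0 → StopOut K 𝓡 j0 w0 σ ρ d1 C c := by
  obtain ⟨w0, Dm, hw0, hmult⟩ := rdo_mult
  obtain ⟨Dg, hgok⟩ := rdo_gok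
  obtain ⟨dst, hdst, hpure⟩ := rdo_pure
  refine ⟨w0, max (max Dm Dg) 2, hw0, fun δ κ h0 A cT D0 hδ hκ hh hA hD => ?_⟩
  have hDm : Dm ≤ D0 := le_trans (le_trans (le_max_left _ _) (le_max_left _ _)) hD
  have hDg : Dg ≤ D0 := le_trans (le_trans (le_max_right _ _) (le_max_left _ _)) hD
  have hD2 : 2 ≤ D0 := le_trans (le_max_right _ _) hD
  obtain ⟨Cm, cm, hCm, hcm, hmult⟩ := hmult D0 hDm
  obtain ⟨ρg, Cg, hρg, hCg, hgok⟩ := hgok δ κ h0 A (Step.alpha ω8) cT D0 hδ hκ hh hA hDg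
  obtain ⟨M0, hM0⟩ : ∃ M0 : ℝ, M0 = 2 * (4 * Cg) / ρg + 4 * (4 * Cg) / ρg ^ 2 := ⟨_, rfl⟩
  have hM0n : 0 ≤ M0 := by rw [hM0]; positivity
  have hCm0 : 0 < Cm := lt_of_lt_of_le one_pos hCm
  obtain ⟨C, hC⟩ : ∃ C : ℝ, C = Cm * M0 + 4 * (Cm * Cm) + Cm := ⟨_, rfl⟩
  have hC1 : Cm * M0 ≤ C := by rw [hC]; nlinarith
  have hC2 : 4 * (Cm * Cm) ≤ C := by rw [hC]; nlinarith [mul_nonneg hCm0.le hM0n]
  have hC3 : Cm ≤ C := by rw [hC]; nlinarith [mul_nonneg hCm0.le hM0n]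
  refine ⟨min ρg (min dst 1), C, cm, by positivity, hCm.trans hC3, hcm, ?_⟩
  intro K eδ eκ eh eA eD hF hℓ hω
  obtain ⟨hpH, hkV, hkP, hpG, hM⟩ := hmult K hF hω eD
  refine ⟨fun h => ⟨(hpH h).1, (hpH h).2.trans hC3⟩, ?_⟩
  intro 𝓡 j0 ρ0 d1 Ce htow hgeo hch0 hd1 hn3 σ hσ ρ hρ1 hρ0
  have hω0 : 0 < K.p.ω := hω ▸ rdo_x_omega8_pos
  have hhK : 0 < K.p.h0 := eh ▸ hh
  have B : Base K 𝓡 j0 cT := ⟨hF, hω0, hhK, eA ▸ hA, eδ ▸ hδ, eκ ▸ hκ, htow, hgeo⟩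
  have hch : ChainOK K 𝓡 j0 ρ d1 Ce := hch0.anti hρ0
  have hP : PureAt K dst := hpure K hF hω0 (eD ▸ hD2)
  have hρg' : ρ ≤ ρg := hρ1.trans (min_le_left _ _)
  have hρd : ρ ≤ dst := hρ1.trans ((min_le_right _ _).trans (min_le_left _ _))
  have hρ1' : ρ ≤ 1 := hρ1.trans ((min_le_right _ _).trans (min_le_right _ _))
  have G : ∀ h, j0 ≤ h → GOK K 𝓡 h (σ h) ρg Cg := fun h hj =>
    hgok K eδ eκ eh eA eD hF hℓ hω0 (le_of_eq (by rw [hω])) 𝓡 j0 hgeo h hj (σ h) (hσ h)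
  have Mu : ∀ h, j0 ≤ h → MultOK K 𝓡 w0 h Cm cm := fun h hj => hM 𝓡 h (hgeo.cells h hj) (hn3 h hj)
  have R0 : ∀ h (hj : j0 ≤ h), R0OK K 𝓡 h (σ h) ρg M0 (w0 * gam (aa K) (𝓡.gs h)) := fun h hj =>
    hM0 ▸ rdo_r0 hhK hch hP hd1 hdst (G h hj) hρg (hpG h h le_rfl).1 (hpG h h le_rfl).2.1 (Mu h hj).src
  have hE : ∀ {h : ℕ} (X : (ℂ × ℂ) × K.To 𝓡 h h), 0 ≤ ‖X.2‖ + ‖X‖ ^ 2 := fun X => by positivity
  refine
    { rV_an := fun h hj => ((R0 h hj).V_an.mono (Metric.ball_subset_ball hρg')).const_mul _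
      rP_an := fun h hj => ((R0 h hj).P_an.mono (Metric.ball_subset_ball hρg')).const_mul _
      rM_an := fun h hj => ((R0 h hj).M_an.mono (Metric.ball_subset_ball hρg')).const_mul _
      rV_bd := fun h hj X hX => ?_
      rP_bd := fun h hj X hX => ?_
      rM_bd := fun h hj X hX => ?_
      rV_par := fun h hj X => by unfold rV; rw [(R0 h hj).V_par]
      rP_par := fun h hj X => by unfold rP; rw [(R0 h hj).P_par, mul_neg]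
      rM_par := fun h hj X => by unfold rM; rw [(R0 h hj).M_par, mul_neg]
      mult := fun h hj => (Mu h hj).mono hCm0 hC3
      pG_bd := fun h hj => ⟨(hpG j0 h hj).1, (hpG j0 h hj).2.1, (hpG j0 h hj).2.2.trans (mul_le_mul_of_nonneg_right hC3 (by positivity))⟩
      kV_hi := fun h hj => ?_
      resp := fun h hj X H d hd hX0 => ?_
      rep := fun h X W I => ⟨rdo_repV B hch (G h I.hj) hρg' I, rdo_repP B hch (G h I.hj) hρg' I, rdo_repM B hch (G h I.hj) hρg' I w0 (Mu h I.hj).src⟩ }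
  · have := rdo_x_scale (nV K 𝓡 h) Cm M0 _ _ _ _ (Mu h hj).nV_bd.1 (Mu h hj).nV_bd.2 ((R0 h hj).V_bd X (Metric.ball_subset_ball hρg' hX))
    unfold rV kV
    rw [Complex.ofReal_mul]
    exact this.trans (mul_le_mul_of_nonneg_right hC1 (hE X))
  · have := rdo_x_scale (nP K 𝓡 h) Cm M0 _ _ _ _ (Mu h hj).nP_bd.1 (Mu h hj).nP_bd.2 ((R0 h hj).P_bd X (Metric.ball_subset_ball hρg' hX))
    unfold rP kP
    rw [Complex.ofReal_mul]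
    exact this.trans (mul_le_mul_of_nonneg_right hC1 (hE X))
  · have := rdo_x_scale (nM K 𝓡 w0 h) Cm M0 _ _ _ _ (Mu h hj).nM_bd.1 (Mu h hj).nM_bd.2 ((R0 h hj).M_bd X (Metric.ball_subset_ball hρg' hX))
    unfold rM kM
    rw [mul_assoc, Complex.ofReal_mul]
    exact this.trans (mul_le_mul_of_nonneg_right hC1 (hE X))
  · have h1 := (Mu h hj).nV_bd
    have h2 := hkV h
    have h3 : 0 ≤ K.kV h := le_trans (by positivity) h2.1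
    unfold kV
    rw [abs_of_nonneg (mul_nonneg h1.1 h3)]
    have : nV K 𝓡 h * K.kV h ≤ Cm * Cm := mul_le_mul h1.2 h2.2 h3 hCm0.le
    linarith
  · have hin := H.inside j0 le_rfl hj
    have hdn : ‖d‖ < ρ := by
      rw [hX0] at hin
      refine lt_of_le_of_lt ?_ hin
      exact (norm_fst_le (d, (0 : ℂ))).trans (norm_fst_le (((d, (0 : ℂ)), K.eExpT 𝓡 j0 h d 0) : (ℂ × ℂ) × K.To 𝓡 j0 h))
    have := rdo_resp0 B hch hP hj (G h hj) hρg' (hpG j0 h hj).1 (hpG j0 h hj).2.1 H d hd (hdn.trans_le hρd) (hdn.trans_le hρ1') hX0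
    unfold rV kV
    rw [this]
    push_cast
    ring

/-! ## Tools for the dictionary to `Asm.concSys` -/

/-- a plane history with its torus history is a history of torus states; the copy at the entry is only needed if there is a step -/
theorem rdo_x_toT {K : Cfg} {𝓡 : Reg K.s} {j0 : ℕ} {ρ d1 Ce : ℝ} (hch : ChainOK K 𝓡 j0 ρ d1 Ce) {h : ℕ} (hj : j0 ≤ h)
    {x : ∀ j, ℂ × ℂ × K.Pl 𝓡 j} {a : ∀ j, K.To 𝓡 j h}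
    (xs : ∀ j, j0 ≤ j → j < h → x (j + 1) = K.Phi 𝓡 j (x j))
    (as : ∀ j, j0 ≤ j → j < h → a (j + 1) = K.Psi 𝓡 j h (((x j).1, (x j).2.1), a j))
    (xin : ∀ j, j0 ≤ j → j ≤ h → ‖x j‖ < ρ) (ain : ∀ j, j0 ≤ j → j ≤ h → ‖a j‖ < ρ)
    (zz : K.cosOn = false → ∀ j, j0 ≤ j → j ≤ h → (x j).2.1 = 0)
    (cp0 : j0 < h → IsCp K 𝓡 j0 h (a j0) (x j0).2.2) :
    THist K 𝓡 j0 h ρ fun j => (((x j).1, (x j).2.1), a j) := by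
  rcases hj.lt_or_eq with hlt | rfl
  · exact HistOK.toT hch ⟨xs, as, xin, ain, zz, cp0 hlt⟩
  · exact ⟨fun j h1 h2 => absurd h2 (not_lt.2 h1), fun j h1 h2 => rdo_norm_st K 𝓡 (x j) (a j) (xin j h1 h2) (ain j h1 h2), fun hc j h1 h2 => zz hc j h1 h2⟩

/-- the hypotheses of the representation for the cutoff weight `\hat Z_b`, from ENTRY -/
theorem rdo_x_repIn {K : Cfg} {𝓡 : Reg K.s} {j0 h : ℕ} {ρ : ℝ} {B : Set ℝ} {Vd : ℕ → Prop} {K0 : ℂ → K.Pl 𝓡 j0} {T0 : ∀ h, ℂ → K.To 𝓡 j0 h}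
    (hE : EntOK K 𝓡 j0 B Vd K0 T0) (hc : Whole (𝓡.gs h)) {b : ℝ} (hb : b ∈ B) (hb0 : 0 < b) (hj : j0 ≤ h) (hV : Vd h) (h3 : 3 ≤ (𝓡.gs h).n)
    {X : ∀ j, (ℂ × ℂ) × K.To 𝓡 j h} (H : THist K 𝓡 j0 h ρ X) (hX0 : X j0 = ((0, 0), T0 h (b : ℂ))) :
    RepIn K 𝓡 j0 h ρ X ((Top.full (𝓡.gs h)).Zhat b 0) where
  hj := hj
  h3 := h3
  hist := H
  wt := rdo_wt_zhat rfl b hb0 (𝓡.gs h) hc
  scal := by rw [hX0]
  ident := by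
    obtain ⟨cG, hcG, hid⟩ := hE.ident b hb h hj hV
    have hZ : 0 < (Top.full (𝓡.gs h)).Zobs b 0 0 := Zobs_pos hc _ b hb0 0 0
    refine ⟨(Top.full (𝓡.gs h)).Zobs b 0 0 * cG, mul_pos hZ hcG, fun ψ => ?_⟩
    have h1 := hid ψ
    rw [rdo_hav_eq] at h1
    rw [hX0]
    push_cast at h1 ⊢
    rw [mul_assoc, ← h1]
    have : ((Top.full (𝓡.gs h)).Zobs b 0 0 : ℂ) ≠ 0 := by exact_mod_cast hZ.ne'
    field_simp

end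

end Claimed.Agent.R285.Rdo
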