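import Claimed.Agent.R285.Rdo.Stop
import Claimed.Agent.R285.F4a.UnitB

/-!
# ROW 285, unit READOUT, package MULT: the multipliers                                                         (architect helper16)

[E] (3.19) `eq:readout-multipliers`, [F] (trj:neutral-readout), (trj:phase-multiplier), l.245-255.  Elementary: trigonometry, one Poincaré inequality, `B4.Q_spec`, `B8.terminal_diag`.  `a = 8π`, `a 𝔤 = 1/π`.
EXIT: `rdo_mult` (`MultOK`), `rdo_pG`.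

## Numbers (`N = n/s ≥ 3`)
`4/5 ≤ β ≤ 1`, `1 - β ≤ 2 (s/n)²`;  `‖f‖² = (s/n)²/2`;  `B^*f = β n⁻² q_n + g`, `g ⟂ q_n`, `g ⟂ 𝟙`, `‖g‖² = (1 - β²)/2n²`;  `hvar = β²/(8 n² sin²(π/n)) + ⟨g, A⁺g⟩`, `0 ≤ ⟨g, A⁺ g⟩ ≤ C_P n² ‖g‖²`;
`0 ≤ π/(n² sin²(π/n)) - 1/π ≤ 2/n²`;  `0.2 ≤ v⁰ ≤ 0.9`, `0.08 ≤ γ ≤ 0.45` (with `C_P = 1/16`; any `C_P` gives some bounds), `w0 = 1/2`: `|w0 γ| ≤ 1`, `t = α w0 γ ∈ [0.2, 2]`, `-t²/4 ≤ ave cos (t q_n) - 1 ≤ -t²/6`;
`low0 u = lim_{λ↓0} (1 - 𝖯_u(λ))/λ = (u² - 1)/12`.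

## Leaves
* `L-RDO-K1` `rdo_beta`, `rdo_cosCost`, `rdo_aveCos`, `rdo_cos_sums`   (trigonometry, finite cosine sums)                                        ~350 l.
* `L-RDO-K2` `rdo_avg_cos`                                          (cells of `Whole c` are `[sQ, sQ + s)`; Dirichlet kernel)                     ~250 l.
* `L-RDO-K3` `rdo_poincare`                                         (`⟨g, A⁺ g⟩ ≤ C n² ‖g‖²`; path argument or `R285/Ker` Parseval)                  ~300 l.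
* `L-RDO-K4` `rdo_hvar`                                             (decomposition of `B^* f`)                                                     ~300 l.
* `L-RDO-K5` `rdo_pG`, `rdo_low0`                                    (`B4.Q_spec` at `cos z = 1 - λ/64`)                                            ~300 l.
* `L-RDO-K6` `rdo_mult`                                             (assembly, numerics; `B8.terminal_diag`, `B4.exists_terminal`)                   ~400 l.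
-/

set_option autoImplicit false

namespace Claimed.Agent.R285.Rdo

open scoped BigOperators ENNReal NNReal
open MeasureTheory ProbabilityTheory Polynomial Filter Topology
open Claimed.Agent.R285 Claimed.Agent.R285.RG Claimed.Agent.R285.B8 Claimed.Agent.R285.F4a

noncomputable section

/-- Dirichlet kernel, real form -/
theorem rdo_dirichlet (θ φ : ℝ) (s : ℕ) :
    Real.sin (θ / 2) * ∑ k ∈ Finset.range s, Real.cos (φ + k * θ) = Real.sin (s * θ / 2) * Real.cos (φ + ((s : ℝ) - 1) * θ / 2) := by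
  induction s with
  | zero => simp
  | succ s ih =>
    rw [Finset.sum_range_succ, mul_add, ih]
    have e1 : φ + (s : ℝ) * θ = (φ + s * θ / 2) + s * θ / 2 := by ring
    have e2 : φ + ((s : ℝ) - 1) * θ / 2 = (φ + s * θ / 2) - θ / 2 := by ring
    have e3 : ((s + 1 : ℕ) : ℝ) * θ / 2 = s * θ / 2 + θ / 2 := by push_cast; ring
    have e4 : φ + (((s + 1 : ℕ) : ℝ) - 1) * θ / 2 = φ + s * θ / 2 := by push_cast; ring
    rw [e1, e2, e3, e4, Real.cos_add (φ + s * θ / 2), Real.cos_sub (φ + s * θ / 2), Real.sin_add (s * θ / 2)]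
    ring

theorem rdo_abs_sin_nat_mul (s : ℕ) (x : ℝ) : |Real.sin (s * x)| ≤ s * |Real.sin x| := by
  induction s with
  | zero => simp
  | succ s ih =>
    have e : ((s + 1 : ℕ) : ℝ) * x = s * x + x := by push_cast; ring
    rw [e, Real.sin_add]
    calc |Real.sin (s * x) * Real.cos x + Real.cos (s * x) * Real.sin x|
        ≤ |Real.sin (s * x) * Real.cos x| + |Real.cos (s * x) * Real.sin x| := abs_add_le _ _
      _ = |Real.sin (s * x)| * |Real.cos x| + |Real.cos (s * x)| * |Real.sin x| := by rw [abs_mul, abs_mul]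
      _ ≤ |Real.sin (s * x)| * 1 + 1 * |Real.sin x| := by
          gcongr
          · exact Real.abs_cos_le_one _
          · exact Real.abs_cos_le_one _
      _ ≤ ((s + 1 : ℕ) : ℝ) * |Real.sin x| := by push_cast; nlinarith

theorem rdo_pi_sq_lt : Real.pi ^ 2 < 9.87 := by
  have h1 := Real.pi_lt_d4
  have h0 := Real.pi_pos
  nlinarith

/-- `(1 - y²/6) s sin x ≤ sin y ≤ s sin x`, `y = s x ≤ π/3` -/
theorem rdo_beta_aux (s : ℕ) (hs : 1 ≤ s) (x : ℝ) (hx : 0 < x) (hsx : s * x ≤ Real.pi / 3) :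
    0 < s * Real.sin x ∧ (1 - (s * x) ^ 2 / 6) * (s * Real.sin x) ≤ Real.sin (s * x) ∧ Real.sin (s * x) ≤ s * Real.sin x := by
  have hs' : (1 : ℝ) ≤ s := by exact_mod_cast hs
  have hpi := Real.pi_pos
  have hx3 : x ≤ Real.pi / 3 := by nlinarith
  have hsin : 0 < Real.sin x := Real.sin_pos_of_pos_of_lt_pi hx (by linarith)
  have hy : 0 < (s : ℝ) * x := by positivity
  refine ⟨by positivity, ?_, ?_⟩
  · have h1 := Real.sin_ge_sub_cube hy.le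
    have h2 : Real.sin x ≤ x := Real.sin_le hx.le
    have h3 : 0 ≤ 1 - ((s : ℝ) * x) ^ 2 / 6 := by
      have : ((s : ℝ) * x) ^ 2 ≤ (Real.pi / 3) ^ 2 := by gcongr
      have := rdo_pi_sq_lt
      nlinarith
    calc (1 - ((s : ℝ) * x) ^ 2 / 6) * (s * Real.sin x) ≤ (1 - ((s : ℝ) * x) ^ 2 / 6) * (s * x) := by gcongr
      _ = s * x - (s * x) ^ 3 / 6 := by ring
      _ ≤ _ := h1
  · have := rdo_abs_sin_nat_mul s x
    rw [abs_of_pos hsin] at this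
    exact (le_abs_self _).trans this

/-- the one-dimensional sums -/
theorem rdo_cos_sum1 (M : ℕ) (hM : 3 ≤ M) :
    ∑ k ∈ Finset.range M, Real.cos (2 * Real.pi * (k : ℕ) / M) = 0 ∧ ∑ k ∈ Finset.range M, Real.cos (2 * Real.pi * (k : ℕ) / M) ^ 2 = (M : ℝ) / 2 := by
  have hM' : (3 : ℝ) ≤ M := by exact_mod_cast hM
  have hM0 : (0 : ℝ) < M := by linarith
  have hpi := Real.pi_pos
  have key : ∀ j : ℕ, 1 ≤ j → j ≤ 2 → ∑ k ∈ Finset.range M, Real.cos (0 + (k : ℝ) * (j * (2 * Real.pi / M))) = 0 := by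
    intro j hj1 hj2
    have hj1' : (1 : ℝ) ≤ j := by exact_mod_cast hj1
    have hj2' : (j : ℝ) ≤ 2 := by exact_mod_cast hj2
    have h := rdo_dirichlet (j * (2 * Real.pi / M)) 0 M
    have e : (M : ℝ) * (j * (2 * Real.pi / M)) / 2 = j * Real.pi := by field_simp
    rw [e, Real.sin_nat_mul_pi, zero_mul] at h
    have hs : 0 < Real.sin (j * (2 * Real.pi / M) / 2) := by
      apply Real.sin_pos_of_pos_of_lt_pi
      · positivity
      · have : (j : ℝ) * (2 * Real.pi / M) / 2 = j * Real.pi / M := by ring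
        rw [this, div_lt_iff₀ hM0]
        nlinarith
    rcases mul_eq_zero.1 h with h | h
    · exact absurd h hs.ne'
    · exact h
  constructor
  · have := key 1 le_rfl (by norm_num)
    rw [← this]
    apply Finset.sum_congr rfl
    intro k _
    congr 1
    push_cast; ring
  · have h2 := key 2 (by norm_num) le_rfl
    have : ∀ k ∈ Finset.range M, Real.cos (2 * Real.pi * (k : ℕ) / M) ^ 2 = 1 / 2 + Real.cos (0 + (k : ℝ) * ((2 : ℕ) * (2 * Real.pi / M))) / 2 := by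
      intro k _
      rw [Real.cos_sq]
      congr 3
      push_cast; ring
    rw [Finset.sum_congr rfl this, Finset.sum_add_distrib, ← Finset.sum_div, ← Finset.sum_div, h2]
    simp

theorem rdo_cos_le_quartic (y : ℝ) (hy : |y| ≤ 2) : Real.cos y ≤ 1 - y ^ 2 / 2 + y ^ 4 / 24 := by
  wlog h0 : 0 ≤ y generalizing y
  · have := this (-y) (by rwa [abs_neg]) (by linarith)
    rw [Real.cos_neg] at this
    have e1 : (-y) ^ 2 = y ^ 2 := by ring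
    have e2 : (-y) ^ 4 = y ^ 4 := by ring
    rwa [e1, e2] at this
  have hy2 : y ≤ 2 := (le_abs_self y).trans hy
  have h1 := Real.sin_ge_sub_cube (x := y / 2) (by linarith)
  have hpos : 0 ≤ y / 2 - (y / 2) ^ 3 / 6 := by
    have : y / 2 - (y / 2) ^ 3 / 6 = y / 2 * (1 - y ^ 2 / 24) := by ring
    rw [this]
    apply mul_nonneg (by linarith)
    nlinarith
  have h2 : (y / 2 - (y / 2) ^ 3 / 6) ^ 2 ≤ Real.sin (y / 2) ^ 2 := by gcongr
  have h3 : Real.cos y = 1 - 2 * Real.sin (y / 2) ^ 2 := by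
    have : y = 2 * (y / 2) := by ring
    conv_lhs => rw [this]
    rw [Real.cos_two_mul, Real.cos_sq']
    ring
  rw [h3]
  have h4 : (y / 2 - (y / 2) ^ 3 / 6) ^ 2 = y ^ 2 / 4 - y ^ 4 / 48 + y ^ 6 / 2304 := by ring
  have h5 : 0 ≤ y ^ 6 := by positivity
  nlinarith

/-- a sum over the torus of a function of the first coordinate -/
theorem rdo_sum_fst (G : Geom) (f : ℕ → ℝ) : ∑ v : G.V, f (v.1 : ℕ) = (G.M : ℝ) * ∑ k ∈ Finset.range G.M, f k := by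
  rw [Fintype.sum_prod_type]
  simp only [Finset.sum_const, Finset.card_univ, Fintype.card_fin, nsmul_eq_mul]
  rw [← Finset.mul_sum, Fin.sum_univ_eq_sum_range]

/-- `L-RDO-K1` -/
theorem rdo_beta (s N : ℕ) (hs : 1 ≤ s) (hN : 3 ≤ N) : 4 / 5 ≤ beta (N * s) s ∧ beta (N * s) s ≤ 1 ∧ 1 - beta (N * s) s ≤ 2 * ((s : ℝ) / (N * s : ℕ)) ^ 2 := by
  have hs' : (1 : ℝ) ≤ s := by exact_mod_cast hs
  have hN' : (3 : ℝ) ≤ N := by exact_mod_cast hN
  have hpi := Real.pi_pos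
  have hn : (0 : ℝ) < ((N * s : ℕ) : ℝ) := by push_cast; positivity
  set x : ℝ := Real.pi / ((N * s : ℕ) : ℝ) with hx
  have hx0 : 0 < x := by positivity
  have hsx : (s : ℝ) * x = Real.pi / N := by
    rw [hx]; push_cast; field_simp
  have hsx3 : (s : ℝ) * x ≤ Real.pi / 3 := by
    rw [hsx]; gcongr
  obtain ⟨h0, h1, h2⟩ := rdo_beta_aux s hs x hx0 hsx3
  have hb : beta (N * s) s = Real.sin (s * x) / (s * Real.sin x) := by
    unfold beta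
    congr 2
    rw [hx]; ring
  have hlow : 1 - ((s : ℝ) * x) ^ 2 / 6 ≤ beta (N * s) s := by
    rw [hb, le_div_iff₀ h0]; exact h1
  have hsq : ((s : ℝ) * x) ^ 2 ≤ (Real.pi / 3) ^ 2 := by
    have : 0 ≤ (s : ℝ) * x := by positivity
    gcongr
  have hp2 := rdo_pi_sq_lt
  refine ⟨?_, ?_, ?_⟩
  · nlinarith
  · rw [hb, div_le_one h0]; exact h2
  · have e : ((s : ℝ) * x) ^ 2 = Real.pi ^ 2 * ((s : ℝ) / ((N * s : ℕ) : ℝ)) ^ 2 := by
      rw [hx]; ring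
    have hq : 0 ≤ ((s : ℝ) / ((N * s : ℕ) : ℝ)) ^ 2 := by positivity
    nlinarith

/-- `L-RDO-K1` -/
theorem rdo_cosCost (n : ℕ) (hn : 3 ≤ n) :
    0 ≤ Real.pi / ((n : ℝ) ^ 2 * Real.sin (Real.pi / n) ^ 2) - 1 / Real.pi ∧ Real.pi / ((n : ℝ) ^ 2 * Real.sin (Real.pi / n) ^ 2) - 1 / Real.pi ≤ 2 / (n : ℝ) ^ 2 := by
  have hn' : (3 : ℝ) ≤ n := by exact_mod_cast hn
  have hn0 : (0 : ℝ) < n := by linarith
  have hpi := Real.pi_pos
  set x : ℝ := Real.pi / n with hx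
  have hx0 : 0 < x := by positivity
  have hx3 : x ≤ Real.pi / 3 := by rw [hx]; gcongr
  have hsin : 0 < Real.sin x := Real.sin_pos_of_pos_of_lt_pi hx0 (by linarith)
  have hle : Real.sin x ≤ x := Real.sin_le hx0.le
  have hge := Real.sin_ge_sub_cube hx0.le
  have hp2 := rdo_pi_sq_lt
  have hnx : (n : ℝ) = Real.pi / x := by rw [hx]; field_simp
  have hxsq : x ^ 2 ≤ (Real.pi / 3) ^ 2 := by gcongr
  have hx2 : x ^ 2 ≤ 1.0967 := by nlinarith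
  have e1 : Real.pi / ((n : ℝ) ^ 2 * Real.sin x ^ 2) - 1 / Real.pi = (x ^ 2 - Real.sin x ^ 2) / (Real.pi * Real.sin x ^ 2) := by
    rw [hnx]; field_simp
  have e2 : 2 / (n : ℝ) ^ 2 = 2 * x ^ 2 / Real.pi ^ 2 := by
    rw [hnx]; field_simp
  rw [e1, e2]
  have hden : 0 < Real.pi * Real.sin x ^ 2 := by positivity
  constructor
  · apply div_nonneg _ hden.le
    nlinarith
  · rw [div_le_div_iff₀ hden (by positivity)]
    have hlow : x * (1 - x ^ 2 / 6) ≤ Real.sin x := by nlinarith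
    have hpos : 0 ≤ x * (1 - x ^ 2 / 6) := by
      apply mul_nonneg hx0.le; nlinarith
    have hs2 : (x * (1 - x ^ 2 / 6)) ^ 2 ≤ Real.sin x ^ 2 := by gcongr
    have hs3 : x ^ 2 * (1 - x ^ 2 / 3) ≤ Real.sin x ^ 2 := by
      have : x ^ 2 * (1 - x ^ 2 / 3) ≤ (x * (1 - x ^ 2 / 6)) ^ 2 := by
        have : 0 ≤ x ^ 2 * (x ^ 2 / 6) ^ 2 := by positivity
        nlinarith
      linarith
    have h4 : x ^ 2 - Real.sin x ^ 2 ≤ x ^ 4 / 3 := by nlinarith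
    have hpi4 : Real.pi < 3.1416 := Real.pi_lt_d4
    have h5 : x ^ 2 * (Real.pi / 6) ≤ Real.sin x ^ 2 := by
      have : x ^ 2 * (Real.pi / 6) ≤ x ^ 2 * (1 - x ^ 2 / 3) := by
        apply mul_le_mul_of_nonneg_left _ (by positivity)
        nlinarith
      linarith
    have h6 : (x ^ 2 - Real.sin x ^ 2) * Real.pi ≤ 2 * x ^ 2 * Real.sin x ^ 2 := by
      calc (x ^ 2 - Real.sin x ^ 2) * Real.pi ≤ x ^ 4 / 3 * Real.pi := by gcongr
        _ = 2 * x ^ 2 * (x ^ 2 * (Real.pi / 6)) := by ring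
        _ ≤ _ := by gcongr
    calc (x ^ 2 - Real.sin x ^ 2) * Real.pi ^ 2 = ((x ^ 2 - Real.sin x ^ 2) * Real.pi) * Real.pi := by ring
      _ ≤ (2 * x ^ 2 * Real.sin x ^ 2) * Real.pi := by gcongr
      _ = _ := by ring

variable {G : Geom}

/-- `L-RDO-K1` sums of the first cosine -/
theorem rdo_cos_sums (hM : 3 ≤ G.M) : ∑ v, cos1 G v = 0 ∧ ∑ v, cos1 G v ^ 2 = (G.M : ℝ) ^ 2 / 2 := by
  obtain ⟨h1, h2⟩ := rdo_cos_sum1 G.M hM
  constructor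
  · have := rdo_sum_fst G (fun k => Real.cos (2 * Real.pi * (k : ℕ) / G.M))
    rw [h1, mul_zero] at this
    exact this
  · have := rdo_sum_fst G (fun k => Real.cos (2 * Real.pi * (k : ℕ) / G.M) ^ 2)
    rw [h2] at this
    rw [show (G.M : ℝ) ^ 2 / 2 = (G.M : ℝ) * ((G.M : ℝ) / 2) by ring]
    exact this

/-- `L-RDO-K1` -/
theorem rdo_aveCos (hM : 3 ≤ G.M) (t : ℝ) (ht : |t| ≤ 2) : -(t ^ 2 / 4) ≤ aveCos G t - 1 ∧ aveCos G t - 1 ≤ -(t ^ 2 / 6) := by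
  obtain ⟨-, h2⟩ := rdo_cos_sums (G := G) hM
  have hM' : (3 : ℝ) ≤ G.M := by exact_mod_cast hM
  have hM0 : (0 : ℝ) < (G.M : ℝ) ^ 2 := by positivity
  have hcard : ∑ _x : G.V, (1 : ℝ) = (G.M : ℝ) ^ 2 := by
    simp [Fintype.card_prod, sq]
  have ht2 : t ^ 2 ≤ 4 := by
    have := abs_le.1 ht
    nlinarith
  have hc : ∀ x : G.V, |cos1 G x| ≤ 1 := fun x => Real.abs_cos_le_one _
  have hc2 : ∀ x : G.V, cos1 G x ^ 2 ≤ 1 := fun x => by
    have := abs_le.1 (hc x)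
    nlinarith
  unfold aveCos
  constructor
  · have hlow : ∑ x : G.V, (1 - t ^ 2 / 2 * cos1 G x ^ 2) ≤ ∑ x : G.V, Real.cos (t * cos1 G x) := by
      apply Finset.sum_le_sum
      intro x _
      have := Real.one_sub_sq_div_two_le_cos (x := t * cos1 G x)
      nlinarith
    rw [Finset.sum_sub_distrib, hcard, ← Finset.mul_sum, h2] at hlow
    have : ((G.M : ℝ) ^ 2)⁻¹ * ((G.M : ℝ) ^ 2 - t ^ 2 / 2 * ((G.M : ℝ) ^ 2 / 2)) ≤ ((G.M : ℝ) ^ 2)⁻¹ * ∑ x : G.V, Real.cos (t * cos1 G x) := by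
      gcongr
    have e : ((G.M : ℝ) ^ 2)⁻¹ * ((G.M : ℝ) ^ 2 - t ^ 2 / 2 * ((G.M : ℝ) ^ 2 / 2)) = 1 - t ^ 2 / 4 := by
      field_simp; ring
    linarith
  · have hup : ∑ x : G.V, Real.cos (t * cos1 G x) ≤ ∑ x : G.V, (1 - t ^ 2 / 3 * cos1 G x ^ 2) := by
      apply Finset.sum_le_sum
      intro x _
      have hy : |t * cos1 G x| ≤ 2 := by
        rw [abs_mul]
        calc |t| * |cos1 G x| ≤ 2 * 1 := by gcongr; exact hc x
          _ = 2 := by norm_num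
      have h := rdo_cos_le_quartic _ hy
      have h4 : (t * cos1 G x) ^ 4 ≤ 4 * t ^ 2 * cos1 G x ^ 2 := by
        have e : (t * cos1 G x) ^ 4 = (t ^ 2 * cos1 G x ^ 2) * (t ^ 2 * cos1 G x ^ 2) := by ring
        rw [e]
        have h0 : 0 ≤ t ^ 2 * cos1 G x ^ 2 := by positivity
        have h1 : t ^ 2 * cos1 G x ^ 2 ≤ 4 * 1 := by
          gcongr
          exact hc2 x
        nlinarith
      have e2 : (t * cos1 G x) ^ 2 = t ^ 2 * cos1 G x ^ 2 := by ring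
      rw [e2] at h
      nlinarith
    rw [Finset.sum_sub_distrib, hcard, ← Finset.mul_sum, h2] at hup
    have : ((G.M : ℝ) ^ 2)⁻¹ * ∑ x : G.V, Real.cos (t * cos1 G x) ≤ ((G.M : ℝ) ^ 2)⁻¹ * ((G.M : ℝ) ^ 2 - t ^ 2 / 3 * ((G.M : ℝ) ^ 2 / 2)) := by
      gcongr
    have e : ((G.M : ℝ) ^ 2)⁻¹ * ((G.M : ℝ) ^ 2 - t ^ 2 / 3 * ((G.M : ℝ) ^ 2 / 2)) = 1 - t ^ 2 / 6 := by
      field_simp; ring
    linarith

/-- the sites of one interval of a whole grid -/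
theorem rdo_sum_cell1 {c : Grid G} (hc : Whole c) (b : Fin c.n) (f : ℕ → ℝ) :
    ∑ i ∈ Finset.univ.filter (fun i => c.blk1 i = b), f (i : ℕ) = ∑ k ∈ Finset.range c.m, f ((b : ℕ) * c.m + k) := by
  have hM := whole_card hc
  have hm := hc.pos
  rw [Finset.sum_filter]
  have h1 : ∀ i : Fin G.M, (if c.blk1 i = b then f (i : ℕ) else 0) = (fun j : ℕ => if j / c.m = (b : ℕ) then f j else 0) (i : ℕ) := by
    intro i
    simp only [← whole_blk1 hc i, Fin.ext_iff]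
  rw [Finset.sum_congr rfl (fun i _ => h1 i), Fin.sum_univ_eq_sum_range (fun j => if j / c.m = (b : ℕ) then f j else 0), ← Finset.sum_filter]
  have h2 : (Finset.range G.M).filter (fun j => j / c.m = (b : ℕ)) = Finset.Ico ((b : ℕ) * c.m) ((b : ℕ) * c.m + c.m) := by
    ext j
    simp only [Finset.mem_filter, Finset.mem_range, Finset.mem_Ico]
    rw [Nat.div_eq_iff hm]
    constructor
    · rintro ⟨-, h3, h4⟩
      exact ⟨h3, by omega⟩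
    · rintro ⟨h3, h4⟩
      refine ⟨?_, h3, by omega⟩
      have hb : (b : ℕ) + 1 ≤ c.n := b.2
      calc j < (b : ℕ) * c.m + c.m := h4
        _ = ((b : ℕ) + 1) * c.m := by ring
        _ ≤ c.n * c.m := Nat.mul_le_mul_right _ hb
        _ = G.M := hM.symm
  rw [h2, Finset.sum_Ico_eq_sum_range]
  simp

/-- a cell is a product of two intervals -/
theorem rdo_sites_prod (c : Grid G) (Q : c.I) :
    c.sites {Q} = (Finset.univ.filter fun i => c.blk1 i = Q.1) ×ˢ (Finset.univ.filter fun i => c.blk1 i = Q.2) := by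
  ext v
  simp only [Grid.sites, Grid.blk, Finset.mem_filter, Finset.mem_univ, true_and, Finset.mem_singleton, Finset.mem_product]
  exact Prod.ext_iff

theorem rdo_sites_card {c : Grid G} (hc : Whole c) (Q : c.I) : (c.sites {Q}).card = c.m * c.m := by
  rw [rdo_sites_prod, Finset.card_product, hc.size, hc.size]

/-- the average over a cell of a function of the first coordinate -/
theorem rdo_avg_fst {c : Grid G} (hc : Whole c) (Q : c.I) (f : ℕ → ℝ) :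
    avg c (fun v => f (v.1 : ℕ)) Q = (∑ k ∈ Finset.range c.m, f ((Q.1 : ℕ) * c.m + k)) / c.m := by
  have hm : (0 : ℝ) < c.m := by exact_mod_cast hc.pos
  show (∑ v ∈ c.sites {Q}, f (v.1 : ℕ)) / ((c.sites {Q}).card : ℝ) = _
  rw [rdo_sites_card hc, rdo_sites_prod, Finset.sum_product]
  simp only [Finset.sum_const, hc.size, nsmul_eq_mul]
  rw [← Finset.mul_sum, rdo_sum_cell1 hc]
  push_cast
  field_simp

/-- `L-RDO-K2` `B_s q_n = β cos (2π x_Q/n)`, `x_Q = s Q₁ + (s-1)/2` -/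
theorem rdo_avg_cos (c : Grid G) (hc : Whole c) (Q : c.I) :
    G.M = c.n * c.m ∧ avg c (cos1 G) Q = beta G.M c.m * Real.cos (2 * Real.pi * ((Q.1 : ℕ) * (c.m : ℝ) + ((c.m : ℝ) - 1) / 2) / G.M) := by
  have hM := whole_card hc
  refine ⟨hM, ?_⟩
  have hm : (0 : ℝ) < c.m := by exact_mod_cast hc.pos
  have hM2 : 2 ≤ G.M := by
    rw [hM]
    calc 2 = 2 * 1 := by norm_num
      _ ≤ c.n * c.m := Nat.mul_le_mul hc.two hc.pos
  have hM2' : (2 : ℝ) ≤ G.M := by exact_mod_cast hM2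
  have hM0 : (0 : ℝ) < G.M := by linarith
  have hpi := Real.pi_pos
  have hsin : 0 < Real.sin (Real.pi / G.M) := by
    apply Real.sin_pos_of_pos_of_lt_pi (by positivity)
    rw [div_lt_iff₀ hM0]
    nlinarith
  have h1 := rdo_avg_fst hc Q (fun k => Real.cos (2 * Real.pi * (k : ℕ) / G.M))
  have h2 : avg c (cos1 G) Q = avg c (fun v => (fun k : ℕ => Real.cos (2 * Real.pi * (k : ℕ) / G.M)) (v.1 : ℕ)) Q := rfl
  rw [h2, h1]
  have h3 := rdo_dirichlet (2 * Real.pi / G.M) (2 * Real.pi * ((Q.1 : ℕ) * (c.m : ℝ)) / G.M) c.m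
  have e1 : 2 * Real.pi / (G.M : ℝ) / 2 = Real.pi / G.M := by ring
  have e2 : (c.m : ℝ) * (2 * Real.pi / G.M) / 2 = Real.pi * c.m / G.M := by ring
  have e3 : 2 * Real.pi * ((Q.1 : ℕ) * (c.m : ℝ)) / G.M + ((c.m : ℝ) - 1) * (2 * Real.pi / G.M) / 2
      = 2 * Real.pi * ((Q.1 : ℕ) * (c.m : ℝ) + ((c.m : ℝ) - 1) / 2) / G.M := by ring
  rw [e1, e2, e3] at h3
  have e4 : ∑ k ∈ Finset.range c.m, Real.cos (2 * Real.pi * (((Q.1 : ℕ) * c.m + k : ℕ) : ℝ) / G.M)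
      = ∑ k ∈ Finset.range c.m, Real.cos (2 * Real.pi * ((Q.1 : ℕ) * (c.m : ℝ)) / G.M + k * (2 * Real.pi / G.M)) := by
    apply Finset.sum_congr rfl
    intro k _
    congr 1
    push_cast
    ring
  rw [e4]
  unfold beta
  rw [div_mul_eq_mul_div, ← h3]
  field_simp

/-- `L-RDO-K3` Poincaré inequality in the form of a bound for `A⁺` -/
theorem rdo_poincare : ∃ C : ℝ, 0 < C ∧ ∀ G : Geom, G.bc = BC.per → ∀ g : G.V → ℝ, ∑ v, g v = 0 →
    0 ≤ g ⬝ᵥ (Apl G).mulVec g ∧ g ⬝ᵥ (Apl G).mulVec g ≤ C * (G.M : ℝ) ^ 2 * ∑ v, g v ^ 2 := by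
  refine ⟨1 / 16, by norm_num, ?_⟩
  intro G hG g _
  have hex : ∃ Γ, IsTerminal G Fam.entry 1 Γ := Ker.ker_exists_terminal G Fam.entry Ker.ker_entry_adm 1 le_rfl
  have hT : IsTerminal G Fam.entry 1 (Apl G) := by
    unfold Apl termCov
    rw [dif_pos hex]
    exact hex.choose_spec
  have hmul := Ker.ker_terminal_mul Ker.ker_entry_adm 1 hT
  have hper : Ker.per G = G.M := by unfold Ker.per; rw [hG]
  have hMpos : (0 : ℝ) < (G.M : ℝ) := by exact_mod_cast G.hM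
  constructor
  · exact Ker.ker_quad_nonneg hmul
      (fun k => Ker.ker_tm_nonneg Ker.ker_entry_adm 1 _ (Ker.ker_lam_nonneg _ k) (Ker.ker_lam_le _ k)) g
  · have h1 := Ker.ker_quad_le hmul (1 / 16 * (G.M : ℝ) ^ 2) ?_ g
    · refine h1.trans (le_of_eq ?_)
      congr 1
      simp only [dotProduct, sq]
    · intro k
      by_cases hk : Ker.lam (Ker.per G) k = 0
      · simp only [Ker.tm, hk, if_true]
        positivity
      · have hgap := Ker.ker_lam_gap (Ker.per G) k hk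
        have hl0 := Ker.ker_lam_nonneg (Ker.per G) k
        have hl8 := Ker.ker_lam_le (Ker.per G) k
        have hperR : ((Ker.per G : ℕ) : ℝ) = (G.M : ℝ) := by rw [hper]
        rw [hperR] at hgap
        have hxpos : 0 < Ker.lam (Ker.per G) k := lt_of_le_of_ne hl0 (Ne.symm hk)
        simp only [Ker.tm, hk, if_false, Ker.ker_termP_eval]
        have hq := Ker.ker_qq_le_one Fam.entry.c (by norm_num [Fam.entry]) 1 le_rfl _ hl0 hl8
        have hp : Fam.entry.pref.eval (Ker.lam (Ker.per G) k) = 1 := by simp [Fam.entry]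
        rw [hp, one_mul, div_le_iff₀ hxpos]
        rw [div_le_iff₀ (by positivity)] at hgap
        nlinarith

/-- telescoping cosine sum -/
theorem rdo_hvar_cossum (N : ℕ) (a φ : ℝ) (ha : Real.sin (a / 2) ≠ 0) (m : ℤ) (hN : a * N = m * (2 * Real.pi)) :
    ∑ k ∈ Finset.range N, Real.cos (a * k + φ) = 0 := by
  have h1 : ∀ k : ℕ, 2 * Real.sin (a / 2) * Real.cos (a * k + φ)
      = Real.sin (a * ((k + 1 : ℕ) : ℝ) + φ - a / 2) - Real.sin (a * (k : ℝ) + φ - a / 2) := by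
    intro k
    have e1 : a * ((k + 1 : ℕ) : ℝ) + φ - a / 2 = (a * k + φ) + a / 2 := by push_cast; ring
    have e2 : a * (k : ℝ) + φ - a / 2 = (a * k + φ) - a / 2 := by ring
    rw [e1, e2, Real.sin_add, Real.sin_sub]; ring
  have h2 : 2 * Real.sin (a / 2) * ∑ k ∈ Finset.range N, Real.cos (a * k + φ) = 0 := by
    rw [Finset.mul_sum, Finset.sum_congr rfl (fun k _ => h1 k),
      Finset.sum_range_sub (fun k : ℕ => Real.sin (a * (k : ℝ) + φ - a / 2))]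
    have e3 : a * (N : ℝ) + φ - a / 2 = (φ - a / 2) + m * (2 * Real.pi) := by rw [hN]; ring
    rw [e3, Real.sin_add_int_mul_two_pi]; simp
  exact (mul_eq_zero.1 h2).resolve_left (mul_ne_zero two_ne_zero ha)

theorem rdo_hvar_cossq (N : ℕ) (hN : 3 ≤ N) (φ : ℝ) :
    ∑ k ∈ Finset.range N, Real.cos (2 * Real.pi * k / N + φ) ^ 2 = (N : ℝ) / 2 := by
  have hN3 : (3 : ℝ) ≤ N := by exact_mod_cast hN
  have hN0 : (N : ℝ) ≠ 0 := by positivity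
  have h1 : ∀ k : ℕ, Real.cos (2 * Real.pi * k / N + φ) ^ 2 = 1 / 2 + Real.cos (4 * Real.pi / N * k + 2 * φ) / 2 := by
    intro k
    rw [Real.cos_sq]
    congr 3
    ring
  have hs : Real.sin (4 * Real.pi / N / 2) ≠ 0 := by
    have e : 4 * Real.pi / N / 2 = 2 * Real.pi / N := by ring
    rw [e]
    apply ne_of_gt
    apply Real.sin_pos_of_pos_of_lt_pi
    · have := Real.pi_pos; positivity
    · rw [div_lt_iff₀ (by positivity)]
      nlinarith [Real.pi_pos]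
  have h0 := rdo_hvar_cossum N (4 * Real.pi / N) (2 * φ) hs 2 (by push_cast; field_simp; norm_num)
  rw [Finset.sum_congr rfl (fun k _ => h1 k), Finset.sum_add_distrib,
    ← Finset.sum_div _ (fun k : ℕ => Real.cos (4 * Real.pi / N * k + 2 * φ)) (2 : ℝ), h0]
  simp
  ring

theorem rdo_hvar_card {c : Grid G} (hc : Whole c) (i : c.I) : ((c.sites {i}).card : ℝ) = (c.m : ℝ) ^ 2 := by
  have : c.sites {i} = (Finset.univ.filter fun a => c.blk1 a = i.1) ×ˢ (Finset.univ.filter fun a => c.blk1 a = i.2) := by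
    ext v
    simp only [Grid.sites, Grid.blk, Finset.mem_filter, Finset.mem_univ, true_and, Finset.mem_singleton, Finset.mem_product]
    exact Prod.ext_iff
  rw [this, Finset.card_product, hc.size, hc.size]
  push_cast
  ring

/-- sums over the sites, cell by cell -/
theorem rdo_hvar_fib (c : Grid G) (F : G.V → ℝ) : ∑ v, F v = ∑ Q : c.I, ∑ v ∈ c.sites {Q}, F v := by
  rw [← Finset.sum_fiberwise (s := Finset.univ) (g := c.blk) (f := F)]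
  refine Finset.sum_congr rfl fun Q _ => ?_
  refine Finset.sum_congr ?_ fun _ _ => rfl
  ext v
  simp [Grid.sites]

/-- `⟨B^* f, u⟩ = ⟨f, B u⟩` -/
theorem rdo_hvar_adj (c : Grid G) (f : c.I → ℝ) (u : G.V → ℝ) : ∑ v, Bst c f v * u v = ∑ Q, f Q * avg c u Q := by
  rw [rdo_hvar_fib c]
  refine Finset.sum_congr rfl fun Q _ => ?_
  have h : ∀ v ∈ c.sites {Q}, Bst c f v * u v = f Q / ((c.sites {Q}).card : ℝ) * u v := by
    intro v hv
    have hv' : c.blk v = Q := by simpa [Grid.sites] using hv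
    unfold Bst
    rw [hv']
  rw [Finset.sum_congr rfl h, ← Finset.mul_sum]
  show _ = f Q * ((∑ v ∈ c.sites {Q}, u v) / ((c.sites {Q}).card : ℝ))
  ring

theorem rdo_hvar_avg_bst {c : Grid G} (hc : Whole c) (f : c.I → ℝ) (Q : c.I) : avg c (Bst c f) Q = f Q / (c.m : ℝ) ^ 2 := by
  have hm : (c.m : ℝ) ≠ 0 := by have := hc.pos; positivity
  have h : ∀ v ∈ c.sites {Q}, Bst c f v = f Q / (c.m : ℝ) ^ 2 := by
    intro v hv
    have hv' : c.blk v = Q := by simpa [Grid.sites] using hv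
    unfold Bst
    rw [hv', rdo_hvar_card hc]
  show (∑ v ∈ c.sites {Q}, Bst c f v) / ((c.sites {Q}).card : ℝ) = _
  rw [Finset.sum_congr rfl h, Finset.sum_const, nsmul_eq_mul, rdo_hvar_card hc]
  field_simp

theorem rdo_hvar_sum_avg {c : Grid G} (hc : Whole c) (u : G.V → ℝ) : ∑ Q, avg c u Q = (∑ v, u v) / (c.m : ℝ) ^ 2 := by
  rw [rdo_hvar_fib c u, Finset.sum_div]
  refine Finset.sum_congr rfl fun Q _ => ?_
  show (∑ v ∈ c.sites {Q}, u v) / ((c.sites {Q}).card : ℝ) = _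
  rw [rdo_hvar_card hc]

theorem rdo_hvar_term (G : Geom) : IsTerminal G Fam.entry 1 (Apl G) := by
  have h : ∃ Γ, IsTerminal G Fam.entry 1 Γ := B4.exists_terminal G Fam.entry B4.entry_adm 1 le_rfl
  unfold Apl termCov
  rw [dif_pos h]
  exact h.choose_spec

theorem rdo_hvar_termP (x : ℝ) : (Fam.entry.termP 1).eval x = 1 := by
  simp [Fam.termP, Fam.entry, Qs, Q, Fej]


theorem rdo_hvar_T (c : Grid G) (hc : Whole c) (hn : 3 ≤ c.n) :
    ∑ Q : c.I, avg c (cos1 G) Q ^ 2 = beta G.M c.m ^ 2 * (c.n : ℝ) ^ 2 / 2 := by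
  have hM : G.M = c.n * c.m := (rdo_avg_cos c hc (⟨0, by omega⟩, ⟨0, by omega⟩)).1
  have hs : (c.m : ℝ) ≠ 0 := by have := hc.pos; positivity
  have hN : (c.n : ℝ) ≠ 0 := by positivity
  have h1 : ∀ Q : c.I, avg c (cos1 G) Q ^ 2
      = beta G.M c.m ^ 2 * Real.cos (2 * Real.pi * ((Q.1 : ℕ) : ℝ) / c.n + Real.pi * ((c.m : ℝ) - 1) / G.M) ^ 2 := by
    intro Q
    rw [(rdo_avg_cos c hc Q).2, mul_pow]
    congr 3
    rw [hM]
    push_cast
    field_simp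
  rw [Finset.sum_congr rfl (fun Q _ => h1 Q), ← Finset.mul_sum, Fintype.sum_prod_type]
  simp only [Finset.sum_const, Finset.card_univ, Fintype.card_fin, nsmul_eq_mul]
  rw [← Finset.mul_sum,
    Fin.sum_univ_eq_sum_range (fun k : ℕ => Real.cos (2 * Real.pi * (k : ℝ) / c.n + Real.pi * ((c.m : ℝ) - 1) / G.M) ^ 2) c.n,
    rdo_hvar_cossq _ hn]
  ring

theorem rdo_hvar_symm {A : Matrix G.V G.V ℝ} (hA : A.PosSemidef) (x y : G.V → ℝ) : x ⬝ᵥ A.mulVec y = A.mulVec x ⬝ᵥ y := by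
  have hT : A.transpose = A := by
    have := hA.isHermitian
    rwa [Matrix.IsHermitian, Matrix.conjTranspose_eq_transpose_of_trivial] at this
  rw [Matrix.dotProduct_mulVec, ← Matrix.mulVec_transpose, hT]

/-- the numbers of a whole grid -/
theorem rdo_hvar_num (c : Grid G) (hc : Whole c) (hn : 3 ≤ c.n) :
    (G.M : ℝ) = c.n * c.m ∧ 3 ≤ G.M ∧ snr c = 1 / (c.n : ℝ) ∧ (0 : ℝ) < c.m ∧ (3 : ℝ) ≤ c.n ∧
      4 / 5 ≤ beta G.M c.m ∧ beta G.M c.m ≤ 1 ∧ 1 - beta G.M c.m ≤ 2 * snr c ^ 2 := by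
  have hM : G.M = c.n * c.m := (rdo_avg_cos c hc (⟨0, by omega⟩, ⟨0, by omega⟩)).1
  have hs : (0 : ℝ) < c.m := by have := hc.pos; positivity
  have hN3 : (3 : ℝ) ≤ c.n := by exact_mod_cast hn
  have hMr : (G.M : ℝ) = c.n * c.m := by rw [hM]; push_cast; ring
  have hM3 : 3 ≤ G.M := by
    rw [hM]
    calc 3 ≤ c.n := hn
      _ = c.n * 1 := (mul_one _).symm
      _ ≤ c.n * c.m := Nat.mul_le_mul_left _ hc.pos
  have hsnr : snr c = 1 / (c.n : ℝ) := by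
    unfold snr
    rw [hMr]
    field_simp
  have hb := rdo_beta c.m c.n hc.pos hn
  rw [← hM] at hb
  exact ⟨hMr, hM3, hsnr, hs, hN3, hb⟩

/-- the four sums of `B^* f` -/
theorem rdo_hvar_sums (c : Grid G) (hc : Whole c) (hn : 3 ≤ c.n) :
    fsq c = snr c ^ 2 / 2 ∧ ∑ v, Bst c (ftest c) v * cos1 G v = beta G.M c.m / 2 ∧
      ∑ v, Bst c (ftest c) v * Bst c (ftest c) v = 1 / (2 * (G.M : ℝ) ^ 2) ∧ ∑ v, Bst c (ftest c) v = 0 := by
  obtain ⟨hMr, hM3, hsnr, hs, hN3, hβ1, -, -⟩ := rdo_hvar_num c hc hn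
  have hN : (0 : ℝ) < c.n := by linarith
  obtain ⟨hq1, -⟩ := rdo_cos_sums (G := G) hM3
  have hT := rdo_hvar_T c hc hn
  have hf : ∀ Q, ftest c Q = snr c ^ 2 / beta G.M c.m * avg c (cos1 G) Q := fun Q => rfl
  generalize beta G.M c.m = β at *
  have hβ0 : 0 < β := by linarith
  have hfsq : fsq c = snr c ^ 2 / 2 := by
    unfold fsq
    simp only [hf, mul_pow]
    rw [← Finset.mul_sum, hT, hsnr]
    field_simp
  refine ⟨hfsq, ?_, ?_, ?_⟩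
  · rw [rdo_hvar_adj]
    simp only [hf]
    have : ∀ Q, snr c ^ 2 / β * avg c (cos1 G) Q * avg c (cos1 G) Q = snr c ^ 2 / β * avg c (cos1 G) Q ^ 2 := fun Q => by ring
    rw [Finset.sum_congr rfl (fun Q _ => this Q), ← Finset.mul_sum, hT, hsnr]
    field_simp
  · rw [rdo_hvar_adj]
    simp only [rdo_hvar_avg_bst hc]
    have : ∀ Q, ftest c Q * (ftest c Q / (c.m : ℝ) ^ 2) = ftest c Q ^ 2 / (c.m : ℝ) ^ 2 := fun Q => by ring
    rw [Finset.sum_congr rfl (fun Q _ => this Q), ← Finset.sum_div]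
    have e : ∑ Q, ftest c Q ^ 2 = fsq c := rfl
    rw [e, hfsq, hsnr, hMr]
    field_simp
  · have h1 : ∑ v, Bst c (ftest c) v = ∑ v, Bst c (ftest c) v * (fun _ => (1 : ℝ)) v := by simp
    rw [h1, rdo_hvar_adj]
    have h2 : ∀ Q, avg c (fun _ => (1 : ℝ)) Q = 1 := by
      intro Q
      show (∑ v ∈ c.sites {Q}, (1 : ℝ)) / ((c.sites {Q}).card : ℝ) = 1
      rw [Finset.sum_const, nsmul_eq_mul, mul_one, rdo_hvar_card hc]
      field_simp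
    simp only [h2, mul_one, hf]
    rw [← Finset.mul_sum, rdo_hvar_sum_avg hc, hq1]
    simp

/-- linear algebra: splitting off an eigenvector -/
theorem rdo_hvar_split {A : Matrix G.V G.V ℝ} (hA : A.PosSemidef) (q F : G.V → ℝ) (μ t : ℝ)
    (hAq : A.mulVec q = fun v => μ * q v) (hgq : ∑ v, (F v - t * q v) * q v = 0) :
    F ⬝ᵥ A.mulVec F = t ^ 2 * μ * ∑ v, q v ^ 2 + (fun v => F v - t * q v) ⬝ᵥ A.mulVec (fun v => F v - t * q v) := by
  set g : G.V → ℝ := fun v => F v - t * q v with hg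
  have hFdec : F = t • q + g := by
    funext v
    simp only [hg, Pi.add_apply, Pi.smul_apply, smul_eq_mul]
    ring
  have hqAq : q ⬝ᵥ A.mulVec q = μ * ∑ v, q v ^ 2 := by
    rw [hAq, Finset.mul_sum]
    unfold dotProduct
    exact Finset.sum_congr rfl fun v _ => by ring
  have hgAq : g ⬝ᵥ A.mulVec q = 0 := by
    rw [hAq]
    unfold dotProduct
    have : ∀ v, g v * (μ * q v) = μ * (g v * q v) := fun v => by ring
    rw [Finset.sum_congr rfl (fun v _ => this v), ← Finset.mul_sum, hgq, mul_zero]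
  have hqAg : q ⬝ᵥ A.mulVec g = 0 := by
    rw [rdo_hvar_symm hA, dotProduct_comm]
    exact hgAq
  conv_lhs => rw [hFdec]
  rw [Matrix.mulVec_add, Matrix.mulVec_smul, dotProduct_add, add_dotProduct, add_dotProduct, smul_dotProduct,
    smul_dotProduct, dotProduct_smul, dotProduct_smul, hqAq, hgAq, hqAg]
  simp only [smul_eq_mul, mul_zero, add_zero, zero_add]
  ring

theorem rdo_hvar_eig (hG : G.bc = BC.per) (hM3 : 3 ≤ G.M) :
    0 < Real.sin (Real.pi / G.M) ∧ (Apl G).mulVec (cos1 G) = fun v => (lam1 G.M)⁻¹ * cos1 G v := by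
  have hn0 : (0 : ℝ) < G.M := by positivity
  have hsin : 0 < Real.sin (Real.pi / G.M) := by
    apply Real.sin_pos_of_pos_of_lt_pi
    · have := Real.pi_pos; positivity
    · rw [div_lt_iff₀ hn0]
      have h3 : (3 : ℝ) ≤ G.M := by exact_mod_cast hM3
      nlinarith [Real.pi_pos]
  have hlam : 0 < lam1 G.M := by unfold lam1; positivity
  refine ⟨hsin, ?_⟩
  have h := rdo_term_eig hG (by omega) Fam.entry 1 (Apl G) (rdo_hvar_term G)
  funext v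
  have hv : lam1 G.M * (Apl G).mulVec (cos1 G) v = cos1 G v := by
    have := congrFun h v
    simpa only [rdo_hvar_termP, one_mul] using this
  rw [← hv, ← mul_assoc, inv_mul_cancel₀ hlam.ne', one_mul]

/-- the decomposition of the reference variance -/
theorem rdo_hvar_dec (hG : G.bc = BC.per) (c : Grid G) (hc : Whole c) (hn : 3 ≤ c.n) :
    ∃ g : G.V → ℝ, ∑ v, g v = 0 ∧ ∑ v, g v ^ 2 = (1 - beta G.M c.m ^ 2) / (2 * (G.M : ℝ) ^ 2) ∧
      hvar c = beta G.M c.m ^ 2 / (8 * (G.M : ℝ) ^ 2 * Real.sin (Real.pi / G.M) ^ 2) + g ⬝ᵥ (Apl G).mulVec g := by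
  obtain ⟨hMr, hM3, -, -, -, hβ1, -, -⟩ := rdo_hvar_num c hc hn
  obtain ⟨-, hFq, hFF, hF1⟩ := rdo_hvar_sums c hc hn
  obtain ⟨hq1, hq2⟩ := rdo_cos_sums (G := G) hM3
  obtain ⟨hsin, hAq⟩ := rdo_hvar_eig hG hM3
  have hn0 : (0 : ℝ) < G.M := by positivity
  have hhv : hvar c = Bst c (ftest c) ⬝ᵥ (Apl G).mulVec (Bst c (ftest c)) := rfl
  generalize Bst c (ftest c) = F at *
  generalize beta G.M c.m = β at *
  have hgq : ∑ v, (F v - β / (G.M : ℝ) ^ 2 * cos1 G v) * cos1 G v = 0 := by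
    have : ∀ v, (F v - β / (G.M : ℝ) ^ 2 * cos1 G v) * cos1 G v = F v * cos1 G v - β / (G.M : ℝ) ^ 2 * cos1 G v ^ 2 :=
      fun v => by ring
    rw [Finset.sum_congr rfl (fun v _ => this v), Finset.sum_sub_distrib, ← Finset.mul_sum, hFq, hq2]
    field_simp
    ring
  refine ⟨fun v => F v - β / (G.M : ℝ) ^ 2 * cos1 G v, ?_, ?_, ?_⟩
  · rw [Finset.sum_sub_distrib, ← Finset.mul_sum, hF1, hq1]
    simp
  · have : ∀ v, (F v - β / (G.M : ℝ) ^ 2 * cos1 G v) ^ 2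
        = F v * F v - 2 * (β / (G.M : ℝ) ^ 2) * (F v * cos1 G v) + (β / (G.M : ℝ) ^ 2) ^ 2 * cos1 G v ^ 2 := fun v => by ring
    rw [Finset.sum_congr rfl (fun v _ => this v), Finset.sum_add_distrib, Finset.sum_sub_distrib, ← Finset.mul_sum,
      ← Finset.mul_sum, hFq, hq2, hFF]
    field_simp
    ring
  · rw [hhv, rdo_hvar_split (rdo_hvar_term G).psd (cos1 G) F _ _ hAq hgq, hq2]
    congr 1
    unfold lam1
    field_simp
    ring

/-- `L-RDO-K4` the reference variance of the height part -/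
theorem rdo_hvar : ∃ C : ℝ, ∀ G : Geom, G.bc = BC.per → ∀ c : Grid G, Whole c → 3 ≤ c.n →
    fsq c = snr c ^ 2 / 2 ∧ 0 ≤ hvar c / beta G.M c.m ^ 2 - 1 / (8 * (G.M : ℝ) ^ 2 * Real.sin (Real.pi / G.M) ^ 2) ∧
    hvar c / beta G.M c.m ^ 2 - 1 / (8 * (G.M : ℝ) ^ 2 * Real.sin (Real.pi / G.M) ^ 2) ≤ C * snr c ^ 2 := by
  obtain ⟨CP, hCP0, hCP⟩ := rdo_poincare
  refine ⟨25 / 8 * CP, fun G hG c hc hn => ?_⟩
  obtain ⟨-, hM3, -, -, -, hβ1, hβ2, hβ3⟩ := rdo_hvar_num c hc hn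
  obtain ⟨g, hg1, hgg, hhv⟩ := rdo_hvar_dec hG c hc hn
  obtain ⟨hsin, -⟩ := rdo_hvar_eig hG hM3
  refine ⟨(rdo_hvar_sums c hc hn).1, ?_⟩
  obtain ⟨hP0, hP1⟩ := hCP G hG g hg1
  have hn0 : (0 : ℝ) < G.M := by positivity
  rw [hgg] at hP1
  generalize g ⬝ᵥ (Apl G).mulVec g = E at *
  generalize beta G.M c.m = β at *
  generalize snr c = σ at *
  have hβ0 : 0 < β := by linarith
  have hkey : hvar c / β ^ 2 - 1 / (8 * (G.M : ℝ) ^ 2 * Real.sin (Real.pi / G.M) ^ 2) = E / β ^ 2 := by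
    rw [hhv]
    field_simp
    ring
  rw [hkey]
  refine ⟨by positivity, ?_⟩
  have h1 : CP * (G.M : ℝ) ^ 2 * ((1 - β ^ 2) / (2 * (G.M : ℝ) ^ 2)) = CP * (1 - β ^ 2) / 2 := by
    field_simp
  rw [h1] at hP1
  rw [div_le_iff₀ (by positivity)]
  have h2 : 1 - β ^ 2 ≤ 4 * σ ^ 2 := by nlinarith
  have h3 : (16 : ℝ) / 25 ≤ β ^ 2 := by nlinarith
  have h4 : 0 ≤ σ ^ 2 := by positivity
  calc E ≤ CP * (1 - β ^ 2) / 2 := hP1
    _ ≤ CP * (4 * σ ^ 2) / 2 := by gcongr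
    _ = 25 / 8 * CP * σ ^ 2 * (16 / 25) := by ring
    _ ≤ 25 / 8 * CP * σ ^ 2 * β ^ 2 := by gcongr

/-- `1 - r^{64} ≤ 32 (1 - r²)` -/
theorem rdo_bern (r : ℝ) : 1 - r ^ (2 * pp) ≤ 32 * (1 - r ^ 2) := by
  have h := one_add_mul_le_pow (a := r ^ 2 - 1) (by nlinarith [sq_nonneg r]) 32
  have e : (1 + (r ^ 2 - 1)) ^ 32 = r ^ (2 * pp) := by
    rw [pow_mul]
    congr 1
    ring
  rw [e] at h
  push_cast at h
  linarith

/-- `L-RDO-K5` the multiplier `𝖯_u` on the first cosine -/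
theorem rdo_pG : ∃ C : ℝ, ∀ n u : ℕ, 1 ≤ u → 2 * u ≤ n →
    0 ≤ (Fam.entry.termP u).eval (lam1 n) ∧ (Fam.entry.termP u).eval (lam1 n) ≤ 1 ∧ 1 - (Fam.entry.termP u).eval (lam1 n) ≤ C * ((u : ℝ) / n) ^ 2 := by
  refine ⟨16, ?_⟩
  intro n u hu hn
  have hn2 : 2 ≤ n := by omega
  have hnR : (2 : ℝ) ≤ n := by exact_mod_cast hn2
  have hnpos : (0 : ℝ) < n := by linarith
  have huR : (1 : ℝ) ≤ u := by exact_mod_cast hu
  have hunR : 2 * (u : ℝ) ≤ n := by exact_mod_cast hn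
  have hpi := Real.pi_pos
  have ha0 : 0 < Real.pi / n := by positivity
  have ha1 : Real.pi / n < Real.pi := by
    rw [div_lt_iff₀ hnpos]
    nlinarith
  have hs0 : 0 < Real.sin (Real.pi / n) := Real.sin_pos_of_pos_of_lt_pi ha0 ha1
  have hs1 : Real.sin (Real.pi / n) ≤ Real.pi / n := Real.sin_le ha0.le
  have hs2 : Real.sin (Real.pi / n) ≤ 1 := Real.sin_le_one _
  have hx0 : 0 < lam1 n := by unfold lam1; positivity
  have hx8 : lam1 n ≤ 8 := by unfold lam1; nlinarith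
  have e : (Fam.entry.termP u).eval (lam1 n) = Ker.qq 64 u (lam1 n) := by
    rw [Ker.ker_termP_eval]
    simp [Fam.entry]
  rw [e]
  refine ⟨Ker.ker_qq_nonneg _ _ _, Ker.ker_qq_le_one 64 (by norm_num) u hu _ hx0.le hx8, ?_⟩
  obtain ⟨z, hz0, hz1, hcos, hsin⟩ := Ker.ker_param 64 (lam1 n) (by norm_num) hx0.le hx8
  have hsne : Real.sin (z / 2) ≠ 0 := by
    intro h
    rw [h] at hsin
    have : 0 < lam1 n / (2 * 64) := by positivity
    nlinarith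
  rw [Ker.ker_qq_eq, ← hcos, Ker.ker_Q_spec u hu z hsne]
  refine (rdo_bern _).trans ?_
  -- `y = z / 2`
  obtain ⟨y, hy⟩ : ∃ y : ℝ, y = z / 2 := ⟨_, rfl⟩
  have hy0 : 0 ≤ y := by rw [hy]; linarith
  have hy1 : y ≤ Real.pi / 2 := by rw [hy]; linarith
  have e2 : (u : ℝ) * z / 2 = u * y := by rw [hy]; ring
  rw [e2, ← hy]
  rw [← hy] at hsin hsne
  have hsy0 : 0 ≤ Real.sin y := Real.sin_nonneg_of_nonneg_of_le_pi hy0 (by linarith)
  have hsy : 0 < Real.sin y := lt_of_le_of_ne hsy0 (Ne.symm hsne)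
  have hypos : 0 < y := by
    rcases hy0.lt_or_eq with h | h
    · exact h
    · rw [← h, Real.sin_zero] at hsne
      exact absurd rfl hsne
  have hjor : 2 / Real.pi * y ≤ Real.sin y := Real.mul_le_sin hy0 hy1
  -- `y ≤ 1 / n`
  have hpi4 : Real.pi < 3.15 := Real.pi_lt_d2
  have hyn : y * n ≤ 1 := by
    have h1 : (2 / Real.pi * y) ^ 2 ≤ Real.sin y ^ 2 := pow_le_pow_left₀ (by positivity) hjor 2
    rw [hsin] at h1
    have h2 : lam1 n ≤ 4 * (Real.pi / n) ^ 2 := by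
      unfold lam1
      have := pow_le_pow_left₀ hs0.le hs1 2
      linarith
    have h3 : (2 / Real.pi * y) ^ 2 ≤ 4 * (Real.pi / n) ^ 2 / (2 * 64) := h1.trans (by gcongr)
    have h4 : (y * n) ^ 2 ≤ Real.pi ^ 4 / 128 := by
      have e3 : (2 / Real.pi * y) ^ 2 = 4 * y ^ 2 / Real.pi ^ 2 := by
        rw [mul_pow, div_pow]
        ring
      have e4 : 4 * (Real.pi / n) ^ 2 / (2 * 64) = Real.pi ^ 2 / (32 * (n : ℝ) ^ 2) := by field_simp; ring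
      rw [e3, e4, div_le_div_iff₀ (by positivity) (by positivity)] at h3
      have : (y * n) ^ 2 * 128 ≤ Real.pi ^ 4 := by nlinarith
      linarith
    have h5 : Real.pi ^ 4 ≤ 128 := by
      have h6 : Real.pi ^ 2 ≤ 3.15 ^ 2 := pow_le_pow_left₀ hpi.le hpi4.le 2
      have h7 : (Real.pi ^ 2) ^ 2 ≤ (3.15 ^ 2) ^ 2 := pow_le_pow_left₀ (by positivity) h6 2
      have e5 : Real.pi ^ 4 = (Real.pi ^ 2) ^ 2 := by ring
      rw [e5]
      refine h7.trans (by norm_num)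
    have h8 : (y * n) ^ 2 ≤ 1 := by linarith
    have h9 : 0 ≤ y * n := by positivity
    nlinarith
  obtain ⟨w, hw⟩ : ∃ w : ℝ, w = u * y := ⟨_, rfl⟩
  have hwpos : 0 < w := by rw [hw]; positivity
  have hwn : w ≤ u / n := by
    rw [hw, le_div_iff₀ hnpos]
    have : (u : ℝ) * (y * n) ≤ u * 1 := mul_le_mul_of_nonneg_left hyn (by positivity)
    linarith
  have hun : (u : ℝ) / n ≤ 1 / 2 := by
    rw [div_le_iff₀ hnpos]
    linarith
  have hw1 : w ≤ 1 := by linarith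
  have hsw : w - w ^ 3 / 4 < Real.sin w := by
    have h6 := Real.sin_gt_sub_cube hwpos
    have h7 : 0 < w ^ 3 := by positivity
    linarith
  rw [← hw]
  have hden : 0 < (u : ℝ) * Real.sin y := by positivity
  have hden2 : (u : ℝ) * Real.sin y ≤ w := by
    rw [hw]
    exact mul_le_mul_of_nonneg_left (Real.sin_le hy0) (by positivity)
  have hw21 : w ^ 2 ≤ 1 := pow_le_one₀ hwpos.le hw1
  have hr : 1 - w ^ 2 / 4 ≤ Real.sin w / (u * Real.sin y) := by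
    rw [le_div_iff₀ hden]
    have h1 : 0 ≤ 1 - w ^ 2 / 4 := by linarith
    have h2 : (1 - w ^ 2 / 4) * (u * Real.sin y) ≤ (1 - w ^ 2 / 4) * w := mul_le_mul_of_nonneg_left hden2 h1
    have e6 : (1 - w ^ 2 / 4) * w = w - w ^ 3 / 4 := by ring
    linarith
  have h1 : 0 ≤ 1 - w ^ 2 / 4 := by linarith
  have hr2 : (1 - w ^ 2 / 4) ^ 2 ≤ (Real.sin w / (u * Real.sin y)) ^ 2 := pow_le_pow_left₀ h1 hr 2
  have hw2 : w ^ 2 ≤ ((u : ℝ) / n) ^ 2 := pow_le_pow_left₀ hwpos.le hwn 2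
  have e7 : (1 - w ^ 2 / 4) ^ 2 = 1 - w ^ 2 / 2 + (w ^ 2) ^ 2 / 16 := by ring
  have h8 := sq_nonneg (w ^ 2)
  linarith

theorem rdo_sum_sq (t : ℕ) : ∑ k ∈ Finset.Ico 1 (t + 1), ((k : ℕ) : ℝ) ^ 2 = (t : ℝ) * (t + 1) * (2 * t + 1) / 6 := by
  induction t with
  | zero => simp
  | succ t ih =>
    rw [Finset.sum_Ico_succ_top (by omega), ih]
    push_cast
    ring

theorem rdo_sum_cube (t : ℕ) : ∑ k ∈ Finset.Ico 1 (t + 1), ((k : ℕ) : ℝ) ^ 3 = ((t : ℝ) * (t + 1) / 2) ^ 2 := by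
  induction t with
  | zero => simp
  | succ t ih =>
    rw [Finset.sum_Ico_succ_top (by omega), ih]
    push_cast
    ring

theorem rdo_Fej_deriv_one (u : ℕ) (hu : 1 ≤ u) : (derivative (Fej u)).eval 1 = (u : ℝ) ^ 2 * ((u : ℝ) ^ 2 - 1) / 6 := by
  obtain ⟨t, rfl⟩ : ∃ t, u = t + 1 := ⟨u - 1, by omega⟩
  unfold Fej
  simp only [derivative_add, derivative_C, zero_add, derivative_mul, derivative_sum, derivative_ofNat, zero_mul,
    Chebyshev.T_derivative_eq_U, eval_mul, eval_finsetSum, eval_C, eval_intCast, Chebyshev.U_eval_one, eval_ofNat]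
  have h : ∀ k ∈ Finset.Ico 1 (t + 1), (((t + 1 : ℕ) : ℝ) - (k : ℝ)) * ((((k : ℕ) : ℤ) : ℝ) * ((((k : ℕ) : ℤ) - 1 : ℤ) + 1 : ℝ))
      = ((t : ℝ) + 1) * (k : ℝ) ^ 2 - (k : ℝ) ^ 3 := by
    intro k _
    push_cast
    ring
  rw [Finset.sum_congr rfl h, Finset.sum_sub_distrib, ← Finset.mul_sum, rdo_sum_sq, rdo_sum_cube]
  push_cast
  ring

/-- `L-RDO-K5` **the constant mode of `C_{<u}`**, exactly.  `low0 u` = coefficient of `X` in `1 - Q_u (1 - X/64)` `= Q_u'(1)/64`; `Q_u = (u⁻² Fej u)^{32}`, `Fej u (1) = u²`, `T_k'(1) = k²`,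
`(Fej u)'(1) = 2 ∑_{k<u} (u - k) k² = u² (u² - 1)/6`. -/
theorem rdo_low0 (u : ℕ) (hu : 1 ≤ u) : low0 Fam.entry u = ((u : ℝ) ^ 2 - 1) / 12 := by
  have hu0 : (u : ℝ) ≠ 0 := by positivity
  have h1 : low0 Fam.entry u = (derivative (1 - Qs 64 u)).eval 0 := by
    unfold low0 Fam.lowP
    simp only [Fam.entry, one_mul]
    rw [← coeff_zero_eq_eval_zero, coeff_divX, ← coeff_zero_eq_eval_zero, coeff_derivative]
    simp
  rw [h1]
  unfold Qs Q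
  simp only [derivative_sub, derivative_one, zero_sub, derivative_comp, derivative_mul, derivative_C, zero_mul, zero_add,
    derivative_X, mul_one, derivative_pow, eval_neg, eval_mul, eval_C, eval_comp, eval_sub, eval_one, eval_X, mul_zero, sub_zero,
    eval_pow, Ker.ker_Fej_one, rdo_Fej_deriv_one u hu]
  rw [inv_mul_cancel₀ (pow_ne_zero 2 hu0), one_pow]
  simp only [pp]
  field_simp
  ring

/-- monotonicity of the constant mode -/
theorem rdo_low0_mono (u u' : ℕ) (hu : 1 ≤ u) (huu : u ≤ u') : low0 Fam.entry u ≤ low0 Fam.entry u' := by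
  rw [rdo_low0 u hu, rdo_low0 u' (hu.trans huu)]
  have h : (u : ℝ) ≤ u' := by exact_mod_cast huu
  have h0 : (0 : ℝ) ≤ u := by positivity
  nlinarith

theorem rdo_low0_nonneg (u : ℕ) (hu : 1 ≤ u) : 0 ≤ low0 Fam.entry u := by
  rw [rdo_low0 u hu]
  have h : (1 : ℝ) ≤ u := by exact_mod_cast hu
  nlinarith

variable (K : Cfg) (𝓡 : Reg K.s)

/-- the bounds of all multipliers at the stop `h` -/
structure MultOK (w0 : ℝ) (h : ℕ) (C c : ℝ) : Prop where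
  v0_bd : |v0 K 𝓡 h - 1 / Real.pi| ≤ C * (snr (𝓡.gs h) + 1 / ((K.s.T h).M : ℝ) ^ 2)
  kV_bd : |kV K 𝓡 h - 1 / Real.pi| ≤ C * (snr (𝓡.gs h) + 1 / ((K.s.T h).M : ℝ) ^ 2)
  kV_lo : 1 / C ≤ kV K 𝓡 h
  kP_bd : |kP K 𝓡 h - pH K h| ≤ C * snr (𝓡.gs h) ^ 2
  kM_bd : c ≤ |kM K 𝓡 w0 h| ∧ |kM K 𝓡 w0 h| ≤ C
  src : |w0 * gam (aa K) (𝓡.gs h)| ≤ 1
  gam_pos : 0 < gam (aa K) (𝓡.gs h)
  beta_pos : 0 < beta (K.s.T h).M (𝓡.gs h).m
  nV_bd : 0 ≤ nV K 𝓡 h ∧ nV K 𝓡 h ≤ C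
  nP_bd : 0 ≤ nP K 𝓡 h ∧ nP K 𝓡 h ≤ C
  nM_bd : 0 ≤ nM K 𝓡 w0 h ∧ nM K 𝓡 w0 h ≤ C

theorem rdo_mult_alpha : Step.alpha ω8 = Real.sqrt (8 * Real.pi) := by
  unfold Step.alpha ω8 k0
  have : 0 < Real.sqrt (8 * Real.pi) := Real.sqrt_pos.2 (by positivity)
  have := Real.pi_pos
  field_simp

theorem rdo_mult_aa (K : Cfg) (hω : K.p.ω = ω8) : aa K = 8 * Real.pi := by
  unfold aa
  rw [hω, rdo_mult_alpha, Real.sq_sqrt (by positivity)]

theorem rdo_mult_M (K : Cfg) (h : ℕ) : (K.s.T h).M = K.s.D0 * K.s.L ^ h ∧ (K.s.T h).bc = BC.per := ⟨rfl, rfl⟩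

/-- `exp x - 1 ≤ 3 x` on `[0, 1]` -/
theorem rdo_mult_exp {x : ℝ} (h0 : 0 ≤ x) (h1 : x ≤ 1) : Real.exp x - 1 ≤ 3 * x := by
  have h2 : 1 - x ≤ Real.exp (-x) := by have := Real.add_one_le_exp (-x); linarith
  have h3 : Real.exp x * Real.exp (-x) = 1 := by rw [← Real.exp_add]; simp
  have h4 : Real.exp x ≤ 3 := by
    calc Real.exp x ≤ Real.exp 1 := Real.exp_le_exp.2 h1
      _ ≤ 3 := by have := Real.exp_one_lt_d9; linarith
  have h5 : 0 < Real.exp x := Real.exp_pos x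
  nlinarith

/-- the reference variance in the normal form `β² V` -/
theorem rdo_mult_V : ∃ CR : ℝ, 0 < CR ∧ ∀ G : Geom, G.bc = BC.per → ∀ c : Grid G, Whole c → 3 ≤ c.n →
    ∃ V P : ℝ, P * ((G.M : ℝ) ^ 2 * Real.sin (Real.pi / G.M) ^ 2) = Real.pi ∧ 1 / Real.pi ≤ P ∧ P ≤ 1 / Real.pi + 2 / (G.M : ℝ) ^ 2 ∧
      P ≤ 8 * Real.pi * hvar c / beta G.M c.m ^ 2 ∧ 8 * Real.pi * hvar c / beta G.M c.m ^ 2 ≤ V ∧ V ≤ P + CR * snr c ^ 2 ∧
      v0raw (8 * Real.pi) c = beta G.M c.m ^ 2 * V := by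
  obtain ⟨Ch, hCh⟩ := rdo_hvar
  refine ⟨8 * Real.pi * |Ch| + 1, by positivity, fun G hG c hc hn => ?_⟩
  obtain ⟨-, hM3, -, -, -, hβ1, hβ2, -⟩ := rdo_hvar_num c hc hn
  obtain ⟨hfsq, hE0, hE1⟩ := hCh G hG c hc hn
  obtain ⟨hsin, -⟩ := rdo_hvar_eig hG hM3
  obtain ⟨hc0, hc1⟩ := rdo_cosCost G.M hM3
  have hn0 : (0 : ℝ) < G.M := by positivity
  have hv : v0raw (8 * Real.pi) c = snr c ^ 2 / 2 + 8 * Real.pi * hvar c := by unfold v0raw; rw [hfsq]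
  generalize beta G.M c.m = β at *
  generalize snr c = σ at *
  generalize hvar c = H at *
  have hβ0 : 0 < β := by linarith
  have hpi := Real.pi_pos
  have hσ : 0 ≤ σ ^ 2 := by positivity
  have e1 : 8 * Real.pi * H / β ^ 2 = Real.pi / ((G.M : ℝ) ^ 2 * Real.sin (Real.pi / G.M) ^ 2)
      + 8 * Real.pi * (H / β ^ 2 - 1 / (8 * (G.M : ℝ) ^ 2 * Real.sin (Real.pi / G.M) ^ 2)) := by
    field_simp
    ring
  have h3 : (16 : ℝ) / 25 ≤ β ^ 2 := by nlinarith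
  have h4 : σ ^ 2 / (2 * β ^ 2) ≤ σ ^ 2 := by
    rw [div_le_iff₀ (by positivity)]
    nlinarith
  have h5 : Ch * σ ^ 2 ≤ |Ch| * σ ^ 2 := by gcongr; exact le_abs_self _
  refine ⟨8 * Real.pi * H / β ^ 2 + σ ^ 2 / (2 * β ^ 2), Real.pi / ((G.M : ℝ) ^ 2 * Real.sin (Real.pi / G.M) ^ 2), ?_, ?_, ?_, ?_, ?_, ?_, ?_⟩
  · field_simp
  · linarith
  · linarith
  · rw [e1]
    have : 0 ≤ 8 * Real.pi * (H / β ^ 2 - 1 / (8 * (G.M : ℝ) ^ 2 * Real.sin (Real.pi / G.M) ^ 2)) := by positivity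
    linarith
  · have : 0 ≤ σ ^ 2 / (2 * β ^ 2) := by positivity
    linarith
  · rw [e1]
    have : 8 * Real.pi * (H / β ^ 2 - 1 / (8 * (G.M : ℝ) ^ 2 * Real.sin (Real.pi / G.M) ^ 2)) ≤ 8 * Real.pi * (|Ch| * σ ^ 2) := by
      gcongr
      linarith
    nlinarith
  · rw [hv]
    field_simp
    ring

/-- the multiplier of the gradient read-out -/
theorem rdo_mult_kV (hG : G.bc = BC.per) (hM3 : 3 ≤ G.M) :
    cos1 G ⬝ᵥ (lap G).mulVec (cos1 G) = 2 * ((G.M : ℝ) ^ 2 * Real.sin (Real.pi / G.M) ^ 2) := by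
  rw [rdo_lap_cos hG]
  unfold dotProduct
  have : ∀ v, cos1 G v * (lam1 G.M * cos1 G v) = lam1 G.M * cos1 G v ^ 2 := fun v => by ring
  rw [Finset.sum_congr rfl (fun v _ => this v), ← Finset.mul_sum, (rdo_cos_sums hM3).2]
  unfold lam1
  ring

theorem rdo_mult_term (G : Geom) (u : ℕ) (hu : 1 ≤ u) : IsTerminal G Fam.entry u (termCov G Fam.entry u) := by
  have h : ∃ Γ, IsTerminal G Fam.entry u Γ := B4.exists_terminal G Fam.entry B4.entry_adm u hu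
  unfold termCov
  rw [dif_pos h]
  exact h.choose_spec

/-- bounds of the multiplier of the phase read-out -/
theorem rdo_mult_kP : ∃ Ct : ℝ, ∀ K : Cfg, K.F = Fam.entry → K.p.ω = ω8 → 2 ≤ K.s.D0 → ∀ h,
    (K.s.D0 : ℝ) ^ 2 / 2 * Real.exp (-(4 * Real.pi * (Ct * (1 + Real.log K.s.D0)))) ≤ K.kP h ∧ K.kP h ≤ (K.s.D0 : ℝ) ^ 2 / 2 := by
  obtain ⟨Ct, hCt⟩ := B8.terminal_diag
  refine ⟨Ct, fun K hF hω hD h => ?_⟩
  have hL : 1 ≤ K.s.L ^ h := Nat.one_le_pow _ _ K.s.L_pos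
  obtain ⟨h0, h1⟩ := hCt (K.s.T h) rfl (K.s.L ^ h) hL
    (by show 2 * K.s.L ^ h ≤ K.s.D0 * K.s.L ^ h; exact Nat.mul_le_mul_right _ hD) _ (rdo_mult_term _ _ hL) (org _)
  have e : ((K.s.T h).M : ℝ) / ((K.s.L ^ h : ℕ) : ℝ) = K.s.D0 := by
    have hL' : ((K.s.L ^ h : ℕ) : ℝ) ≠ 0 := by positivity
    show ((K.s.D0 * K.s.L ^ h : ℕ) : ℝ) / _ = _
    rw [Nat.cast_mul]
    field_simp
  rw [e] at h1
  unfold Cfg.kP
  rw [hF, hω, rdo_mult_alpha, Real.sq_sqrt (by positivity)]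
  generalize termCov (K.s.T h) Fam.entry (K.s.L ^ h) (org (K.s.T h)) (org (K.s.T h)) = γ at *
  have hpi := Real.pi_pos
  constructor
  · gcongr
    nlinarith
  · have : Real.exp (-(8 * Real.pi) * γ / 2) ≤ 1 := by
      rw [Real.exp_le_one_iff]
      nlinarith
    have h2 : (0 : ℝ) ≤ (K.s.D0 : ℝ) ^ 2 / 2 := by positivity
    nlinarith

theorem rdo_mult_hm (K : Cfg) (hF : K.F = Fam.entry) (hω : K.p.ω = ω8) (h : ℕ) : 1 ≤ hm K h h 1 ∧ hm K h h 1 ≤ Real.exp 2 := by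
  have hL : 1 ≤ K.s.L ^ h := Nat.one_le_pow _ _ K.s.L_pos
  unfold hm
  rw [hF, rdo_mult_aa K hω, rdo_low0 _ hL]
  have hM : ((K.s.T h).M : ℝ) = (K.s.D0 : ℝ) * ((K.s.L ^ h : ℕ) : ℝ) := by
    show ((K.s.D0 * K.s.L ^ h : ℕ) : ℝ) = _
    rw [Nat.cast_mul]
  rw [hM]
  have hu : (1 : ℝ) ≤ ((K.s.L ^ h : ℕ) : ℝ) := by exact_mod_cast hL
  have hD : (1 : ℝ) ≤ (K.s.D0 : ℝ) := by exact_mod_cast K.s.hD
  generalize ((K.s.L ^ h : ℕ) : ℝ) = u at *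
  generalize (K.s.D0 : ℝ) = D at *
  have hpi := Real.pi_pos
  have hpi4 := Real.pi_le_four
  have hu2 : 0 ≤ u ^ 2 - 1 := by nlinarith
  have hDu : u ^ 2 ≤ (D * u) ^ 2 := by
    have : u ≤ D * u := by nlinarith
    gcongr
  constructor
  · apply Real.one_le_exp
    positivity
  · rw [Real.exp_le_exp, div_le_iff₀ (by positivity)]
    push_cast
    nlinarith

theorem rdo_mult_pG : ∃ Cg : ℝ, ∀ K : Cfg, K.F = Fam.entry → 2 ≤ K.s.D0 → ∀ j h, j ≤ h →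
    0 ≤ pG K j h ∧ pG K j h ≤ 1 ∧ 1 - pG K j h ≤ Cg * ((K.s.L : ℝ) ^ j / (K.s.T h).M) ^ 2 := by
  obtain ⟨Cg, hCg⟩ := rdo_pG
  refine ⟨Cg, fun K hF hD j h hj => ?_⟩
  have := hCg (K.s.T h).M (K.s.L ^ j) (Nat.one_le_pow _ _ K.s.L_pos)
    (by show 2 * K.s.L ^ j ≤ K.s.D0 * K.s.L ^ h; exact Nat.mul_le_mul hD (Nat.pow_le_pow_right K.s.L_pos hj))
  unfold pG
  rw [hF]
  push_cast at this
  exact this

/-- real numbers: the gradient multiplier -/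
theorem rdo_mult_n1 {P V CR σ ν : ℝ} (hP1 : 1 / Real.pi ≤ P) (hP2 : P ≤ 1 / Real.pi + 2 * ν) (hV1 : P ≤ V)
    (hV2 : V ≤ P + CR * σ ^ 2) (hCR : 0 < CR) (hσ0 : 0 ≤ σ) (hσ1 : σ ≤ 1) (hν : 0 ≤ ν) :
    P ≤ V ^ 2 / P ∧ V ^ 2 / P - 1 / Real.pi ≤ (2 + 2 * CR + 4 * CR ^ 2) * (σ + ν) := by
  have hpi := Real.pi_pos
  have hpi4 := Real.pi_le_four
  have hP0 : 0 < P := lt_of_lt_of_le (by positivity) hP1
  have hπP : 1 ≤ P * Real.pi := (div_le_iff₀ hpi).1 hP1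
  obtain ⟨R, rfl⟩ : ∃ R, V = P + R := ⟨V - P, by ring⟩
  have hR0 : 0 ≤ R := by linarith
  have hσ2 : σ ^ 2 ≤ σ := by nlinarith
  have hR1 : R ≤ CR * σ := by nlinarith
  have hR2 : R ^ 2 ≤ CR ^ 2 * σ := by
    have : R ^ 2 ≤ (CR * σ) ^ 2 := by gcongr
    nlinarith [sq_nonneg CR]
  constructor
  · rw [le_div_iff₀ hP0]
    nlinarith
  · have h1 : (P + R) ^ 2 / P ≤ P + 2 * R + Real.pi * R ^ 2 := by
      rw [div_le_iff₀ hP0]
      nlinarith [sq_nonneg R]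
    have h2 : Real.pi * R ^ 2 ≤ 4 * (CR ^ 2 * σ) := by
      have : 0 ≤ R ^ 2 := sq_nonneg R
      nlinarith
    have h3 : 0 ≤ CR * ν := by positivity
    have h4 : 0 ≤ CR ^ 2 * ν := by positivity
    nlinarith

/-- the closed forms of the multipliers -/
theorem rdo_mult_forms (K : Cfg) (𝓡 : Reg K.s) (h : ℕ) (hω : K.p.ω = ω8) (hM3 : 3 ≤ (K.s.T h).M) {V P w0 : ℝ}
    (hβ : 0 < beta (K.s.T h).M (𝓡.gs h).m) (hP0 : 0 < P)
    (hP : P * (((K.s.T h).M : ℝ) ^ 2 * Real.sin (Real.pi / (K.s.T h).M) ^ 2) = Real.pi)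
    (hraw : v0raw (8 * Real.pi) (𝓡.gs h) = beta (K.s.T h).M (𝓡.gs h).m ^ 2 * V) :
    gam (aa K) (𝓡.gs h) = 2 * beta (K.s.T h).M (𝓡.gs h).m * V / Real.sqrt (8 * Real.pi) ∧
    nV K 𝓡 h = V ^ 2 / (2 * Real.pi) ∧ kV K 𝓡 h = V ^ 2 / P ∧ K.kV h = 2 * Real.pi / P ∧
    kP K 𝓡 h = Real.exp (snr (𝓡.gs h) ^ 2) * pH K h ∧
    nM K 𝓡 w0 h = Real.exp (beta (K.s.T h).M (𝓡.gs h).m ^ 2 * V * w0 ^ 2 / 2) * (Real.exp (snr (𝓡.gs h) ^ 2) * hm K h h 1) ∧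
    Step.alpha K.p.ω * (w0 * gam (aa K) (𝓡.gs h)) = 2 * w0 * beta (K.s.T h).M (𝓡.gs h).m * V := by
  have hpi := Real.pi_pos
  have hα : 0 < Real.sqrt (8 * Real.pi) := Real.sqrt_pos.2 (by positivity)
  have hα2 : Real.sqrt (8 * Real.pi) ^ 2 = 8 * Real.pi := Real.sq_sqrt (by positivity)
  have hγ : gam (aa K) (𝓡.gs h) = 2 * beta (K.s.T h).M (𝓡.gs h).m * V / Real.sqrt (8 * Real.pi) := by
    unfold gam
    rw [rdo_mult_aa K hω, hraw]
    field_simp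
  have hnV : nV K 𝓡 h = V ^ 2 / (2 * Real.pi) := by
    unfold nV
    rw [hγ, div_pow, hα2]
    field_simp
    ring
  have hkV : K.kV h = 2 * Real.pi / P := by
    unfold Cfg.kV
    have hS : ((K.s.T h).M : ℝ) ^ 2 * Real.sin (Real.pi / (K.s.T h).M) ^ 2 = Real.pi / P :=
      eq_div_of_mul_eq hP0.ne' (by rw [mul_comm]; exact hP)
    rw [rdo_mult_kV rfl hM3, hS]
    ring
  refine ⟨hγ, hnV, ?_, hkV, ?_, ?_, ?_⟩
  · unfold kV
    rw [hnV, hkV]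
    field_simp
  · unfold kP nP pH
    ring
  · unfold nM nP
    rw [rdo_mult_aa K hω, hraw]
  · rw [hγ, hω, rdo_mult_alpha]
    field_simp

/-- real numbers: the source of the mixed diagnostic -/
theorem rdo_mult_n2 {P V CR σ β ν : ℝ} (hP1 : 1 / Real.pi ≤ P) (hP2 : P ≤ 1 / Real.pi + 2 * ν) (hν : ν ≤ 1 / 9) (hV1 : P ≤ V)
    (hV2 : V ≤ P + CR * σ ^ 2) (hCR : 0 < CR) (hσ0 : 0 ≤ σ) (hσ1 : σ ≤ 1) (hβ1 : 4 / 5 ≤ β) (hβ2 : β ≤ 1) :
    0 < V ∧ V ≤ 1 + CR ∧ 1 / (1 + CR) * V ≤ 1 ∧ 8 * (1 / (1 + CR)) / (5 * Real.pi) ≤ 2 * (1 / (1 + CR)) * β * V ∧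
      2 * (1 / (1 + CR)) * β * V ≤ 2 ∧ 0 < 8 * (1 / (1 + CR)) / (5 * Real.pi) := by
  have hpi := Real.pi_pos
  have hpi3 := Real.pi_gt_three
  have hP0 : 0 < P := lt_of_lt_of_le (by positivity) hP1
  have hV0 : 0 < V := by linarith
  have h1 : 1 / Real.pi ≤ 1 / 3 := by
    apply one_div_le_one_div_of_le <;> linarith
  have hσ2 : σ ^ 2 ≤ 1 := by nlinarith
  have hV3 : V ≤ 1 + CR := by nlinarith
  have hw : 0 < 1 / (1 + CR) := by positivity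
  have hwV : 1 / (1 + CR) * V ≤ 1 := by
    rw [div_mul_eq_mul_div, one_mul, div_le_one (by positivity)]
    exact hV3
  refine ⟨hV0, hV3, hwV, ?_, ?_, by positivity⟩
  · have e : 8 * (1 / (1 + CR)) / (5 * Real.pi) = 2 * (1 / (1 + CR)) * (4 / 5) * (1 / Real.pi) := by
      field_simp
      ring
    rw [e]
    have : 1 / Real.pi ≤ V := by linarith
    gcongr
  · have : 2 * (1 / (1 + CR)) * β * V = 2 * β * (1 / (1 + CR) * V) := by ring
    rw [this]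
    nlinarith

/-- real numbers: `v0_bd`, `kV_bd`, `kV_lo`, `nV_bd` -/
theorem rdo_mult_r1 {P V v CR σ ν C : ℝ} (hP1 : 1 / Real.pi ≤ P) (hP2 : P ≤ 1 / Real.pi + 2 * ν) (hν0 : 0 ≤ ν) (hv1 : P ≤ v)
    (hv2 : v ≤ V) (hV : V ≤ P + CR * σ ^ 2) (hV3 : V ≤ 1 + CR) (hCR : 0 < CR) (hσ0 : 0 ≤ σ) (hσ1 : σ ≤ 1)
    (hC1 : 2 + 2 * CR + 4 * CR ^ 2 ≤ C) (hC2 : 4 ≤ C) (hC5 : (1 + CR) ^ 2 ≤ C) :
    |v - 1 / Real.pi| ≤ C * (σ + ν) ∧ |V ^ 2 / P - 1 / Real.pi| ≤ C * (σ + ν) ∧ 1 / C ≤ V ^ 2 / P ∧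
      0 ≤ V ^ 2 / (2 * Real.pi) ∧ V ^ 2 / (2 * Real.pi) ≤ C := by
  have hpi := Real.pi_pos
  have hpi4 := Real.pi_le_four
  have hP0 : 0 < P := lt_of_lt_of_le (by positivity) hP1
  have hV0 : 0 < V := by linarith
  obtain ⟨hn1, hn2⟩ := rdo_mult_n1 hP1 hP2 (hv1.trans hv2) hV hCR hσ0 hσ1 hν0
  have hσ2' : σ ^ 2 ≤ σ := by nlinarith
  have hsν : 0 ≤ σ + ν := by linarith
  refine ⟨?_, ?_, ?_, by positivity, ?_⟩
  · rw [abs_of_nonneg (by linarith)]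
    have h1 : v - 1 / Real.pi ≤ (2 + 2 * CR + 4 * CR ^ 2) * (σ + ν) := by
      have h2 : 0 ≤ CR * ν := by positivity
      have h3 : 0 ≤ CR ^ 2 * (σ + ν) := by positivity
      have h4 : 0 ≤ CR * σ := by positivity
      nlinarith
    exact h1.trans (by gcongr)
  · rw [abs_of_nonneg (by linarith)]
    exact hn2.trans (by gcongr)
  · have : 1 / C ≤ 1 / Real.pi := one_div_le_one_div_of_le hpi (by linarith)
    linarith
  · rw [div_le_iff₀ (by positivity)]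
    have h1 : V ^ 2 ≤ (1 + CR) ^ 2 := by gcongr
    nlinarith [Real.pi_gt_three]

/-- real numbers: the exponential prefactors -/
theorem rdo_mult_r2 {σ x H κ hi C : ℝ} (hσ0 : 0 ≤ σ) (hσ1 : σ ≤ 1) (hx0 : 0 ≤ x) (hx1 : x ≤ 1) (hH1 : 1 ≤ H) (hH2 : H ≤ Real.exp 2)
    (hκ0 : 0 < κ) (hk2 : κ ≤ hi) (hC3 : 3 * (Real.exp 2 * hi) ≤ C) (hC6 : Real.exp 4 ≤ C) :
    |Real.exp (σ ^ 2) * (H * κ) - H * κ| ≤ C * σ ^ 2 ∧ 1 ≤ Real.exp (σ ^ 2) * H ∧ Real.exp (σ ^ 2) * H ≤ C ∧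
      1 ≤ Real.exp x * (Real.exp (σ ^ 2) * H) ∧ Real.exp x * (Real.exp (σ ^ 2) * H) ≤ Real.exp 4 := by
  have hσ2 : σ ^ 2 ≤ 1 := by nlinarith
  have hσ20 : 0 ≤ σ ^ 2 := by positivity
  have hes1 : 1 ≤ Real.exp (σ ^ 2) := Real.one_le_exp hσ20
  have hes2 : Real.exp (σ ^ 2) ≤ Real.exp 1 := Real.exp_le_exp.2 hσ2
  have hes3 := rdo_mult_exp hσ20 hσ2
  have hex1 : 1 ≤ Real.exp x := Real.one_le_exp hx0
  have hex2 : Real.exp x ≤ Real.exp 1 := Real.exp_le_exp.2 hx1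
  have he34 : Real.exp 3 ≤ Real.exp 4 := Real.exp_le_exp.2 (by norm_num)
  have hnP1 : 1 ≤ Real.exp (σ ^ 2) * H := by nlinarith
  have hnP2 : Real.exp (σ ^ 2) * H ≤ Real.exp 3 := by
    rw [show (3 : ℝ) = 1 + 2 by norm_num, Real.exp_add]
    gcongr
  refine ⟨?_, hnP1, by linarith, by nlinarith, ?_⟩
  · have e : Real.exp (σ ^ 2) * (H * κ) - H * κ = (Real.exp (σ ^ 2) - 1) * (H * κ) := by ring
    have hpH0 : 0 ≤ H * κ := by positivity
    have hpH1 : H * κ ≤ Real.exp 2 * hi := by gcongr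
    rw [e, abs_of_nonneg (mul_nonneg (by linarith) hpH0)]
    calc (Real.exp (σ ^ 2) - 1) * (H * κ) ≤ (3 * σ ^ 2) * (Real.exp 2 * hi) := by gcongr
      _ = 3 * (Real.exp 2 * hi) * σ ^ 2 := by ring
      _ ≤ C * σ ^ 2 := by gcongr
  · rw [show (4 : ℝ) = 1 + 3 by norm_num, Real.exp_add]
    gcongr

/-- real numbers: the mixed multiplier -/
theorem rdo_mult_r3 {m κ D t t0 lo hi C c : ℝ} (hm1 : 1 ≤ m) (hm2 : m ≤ Real.exp 4) (hlo : 0 < lo) (hk1 : lo ≤ κ) (hk2 : κ ≤ hi)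
    (ht00 : 0 < t0) (ht0 : t0 ≤ t) (ht2 : t ≤ 2) (hD1 : -(t ^ 2 / 4) ≤ D) (hD2 : D ≤ -(t ^ 2 / 6))
    (hC4 : Real.exp 4 * hi ≤ C) (hc : c ≤ lo * (t0 ^ 2 / 6)) : c ≤ |m * κ * D| ∧ |m * κ * D| ≤ C := by
  have hκ0 : 0 < κ := lt_of_lt_of_le hlo hk1
  have hD : D ≤ 0 := by nlinarith [sq_nonneg t]
  have hmk : 0 ≤ m * κ := by positivity
  rw [abs_mul, abs_of_nonneg hmk, abs_of_nonpos hD]
  have ht1 : t0 ^ 2 ≤ t ^ 2 := by gcongr
  have ht3 : t ^ 2 ≤ 4 := by nlinarith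
  constructor
  · calc c ≤ lo * (t0 ^ 2 / 6) := hc
      _ ≤ (m * κ) * (t0 ^ 2 / 6) := by
        gcongr
        nlinarith
      _ ≤ (m * κ) * (-D) := by
        gcongr
        linarith
  · have hhi : 0 ≤ hi := by linarith
    have h1 : m * κ ≤ Real.exp 4 * hi := by gcongr
    have h2 : -D ≤ 1 := by linarith
    have h3 : 0 ≤ -D := by linarith
    calc (m * κ) * (-D) ≤ (Real.exp 4 * hi) * 1 := mul_le_mul h1 h2 h3 (by positivity)
      _ ≤ C := by linarith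

/-- real numbers: the exponent of the mixed prefactor -/
theorem rdo_mult_r4 {β V w : ℝ} (hβ1 : 4 / 5 ≤ β) (hβ2 : β ≤ 1) (hV0 : 0 < V) (hw0 : 0 < w) (hw1 : w ≤ 1) (hwV : w * V ≤ 1) :
    0 ≤ β ^ 2 * V * w ^ 2 / 2 ∧ β ^ 2 * V * w ^ 2 / 2 ≤ 1 := by
  refine ⟨by positivity, ?_⟩
  have e : β ^ 2 * V * w ^ 2 / 2 = β ^ 2 * (w * V) * w / 2 := by ring
  rw [e]
  have h1 : β ^ 2 ≤ 1 := by nlinarith
  have h2 : 0 ≤ w * V := by positivity
  have h3 : β ^ 2 * (w * V) ≤ 1 := by nlinarith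
  have h4 : 0 ≤ β ^ 2 * (w * V) := by positivity
  nlinarith

/-- real numbers: `src`, `gam_pos` -/
theorem rdo_mult_r5 {β V w t0 : ℝ} (hβ0 : 0 < β) (hV0 : 0 < V) (ht00 : 0 < t0) (ht0 : t0 ≤ 2 * w * β * V) (ht2 : 2 * w * β * V ≤ 2) :
    |w * (2 * β * V / Real.sqrt (8 * Real.pi))| ≤ 1 ∧ 0 < 2 * β * V / Real.sqrt (8 * Real.pi) := by
  have hα : 2 ≤ Real.sqrt (8 * Real.pi) := by
    apply Real.le_sqrt_of_sq_le
    nlinarith [Real.pi_gt_three]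
  constructor
  · have e : w * (2 * β * V / Real.sqrt (8 * Real.pi)) = 2 * w * β * V / Real.sqrt (8 * Real.pi) := by ring
    rw [e, abs_of_nonneg (div_nonneg (ht00.le.trans ht0) (by linarith)), div_le_one (by linarith)]
    linarith
  · exact div_pos (by positivity) (by linarith)

/-- the numbers at one stop -/
theorem rdo_mult_prep (c : Grid G) (hW : Whole c) (hn : 3 ≤ c.n) :
    3 ≤ G.M ∧ 0 ≤ snr c ∧ snr c ≤ 1 ∧ 0 ≤ 1 / (G.M : ℝ) ^ 2 ∧ 1 / (G.M : ℝ) ^ 2 ≤ 1 / 9 ∧ 4 / 5 ≤ beta G.M c.m ∧ beta G.M c.m ≤ 1 := by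
  obtain ⟨-, hM3, hsnr, -, hN3, hβ1, hβ2, -⟩ := rdo_hvar_num c hW hn
  have hMr : (3 : ℝ) ≤ G.M := by exact_mod_cast hM3
  refine ⟨hM3, ?_, ?_, by positivity, ?_, hβ1, hβ2⟩
  · rw [hsnr]; positivity
  · rw [hsnr, div_le_one (by linarith)]
    linarith
  · apply one_div_le_one_div_of_le (by norm_num)
    nlinarith

/-- **all bounds at one stop** -/
theorem rdo_mult_ok (K : Cfg) (𝓡 : Reg K.s) (h : ℕ) (hF : K.F = Fam.entry) (hω : K.p.ω = ω8)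
    (hW : Whole (𝓡.gs h)) (hn : 3 ≤ (𝓡.gs h).n) {CR V P lo hi C c : ℝ} (hCR : 0 < CR)
    (hP : P * (((K.s.T h).M : ℝ) ^ 2 * Real.sin (Real.pi / (K.s.T h).M) ^ 2) = Real.pi) (hP1 : 1 / Real.pi ≤ P)
    (hP2 : P ≤ 1 / Real.pi + 2 * (1 / ((K.s.T h).M : ℝ) ^ 2))
    (hv1 : P ≤ 8 * Real.pi * hvar (𝓡.gs h) / beta (K.s.T h).M (𝓡.gs h).m ^ 2)
    (hv2 : 8 * Real.pi * hvar (𝓡.gs h) / beta (K.s.T h).M (𝓡.gs h).m ^ 2 ≤ V) (hV : V ≤ P + CR * snr (𝓡.gs h) ^ 2)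
    (hraw : v0raw (8 * Real.pi) (𝓡.gs h) = beta (K.s.T h).M (𝓡.gs h).m ^ 2 * V)
    (hlo : 0 < lo) (hk1 : lo ≤ K.kP h) (hk2 : K.kP h ≤ hi)
    (hC1 : 2 + 2 * CR + 4 * CR ^ 2 ≤ C) (hC2 : 4 ≤ C) (hC3 : 3 * (Real.exp 2 * hi) ≤ C) (hC4 : Real.exp 4 * hi ≤ C)
    (hC5 : (1 + CR) ^ 2 ≤ C) (hC6 : Real.exp 4 ≤ C) (hc : c ≤ lo * ((8 * (1 / (1 + CR)) / (5 * Real.pi)) ^ 2 / 6)) :
    MultOK K 𝓡 (1 / (1 + CR)) h C c := by
  obtain ⟨hM3, hσ0, hσ1, hν0, hν1, hβ1, hβ2⟩ := rdo_mult_prep (𝓡.gs h) hW hn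
  have hP0 : 0 < P := lt_of_lt_of_le (one_div_pos.2 Real.pi_pos) hP1
  have hβ0 : 0 < beta (K.s.T h).M (𝓡.gs h).m := lt_of_lt_of_le (by norm_num) hβ1
  obtain ⟨hγ, hnV, hkV, -, hkP, hnM, ht⟩ := rdo_mult_forms K 𝓡 h hω hM3 (w0 := 1 / (1 + CR)) hβ0 hP0 hP hraw
  obtain ⟨hm1, hm2⟩ := rdo_mult_hm K hF hω h
  obtain ⟨hV0, hV3, hwV, ht0, ht2, ht00⟩ := rdo_mult_n2 hP1 hP2 hν1 (hv1.trans hv2) hV hCR hσ0 hσ1 hβ1 hβ2
  have hav := rdo_aveCos (G := K.s.T h) hM3 (2 * (1 / (1 + CR)) * beta (K.s.T h).M (𝓡.gs h).m * V)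
    (by rw [abs_of_nonneg (ht00.le.trans ht0)]; exact ht2)
  have hv0 : v0 K 𝓡 h = 8 * Real.pi * hvar (𝓡.gs h) / beta (K.s.T h).M (𝓡.gs h).m ^ 2 := by
    unfold v0; rw [rdo_mult_aa K hω]
  have hkM : kM K 𝓡 (1 / (1 + CR)) h = nM K 𝓡 (1 / (1 + CR)) h * K.kP h *
      (aveCos (K.s.T h) (2 * (1 / (1 + CR)) * beta (K.s.T h).M (𝓡.gs h).m * V) - 1) := by
    unfold kM; rw [ht]
  have hpH : pH K h = hm K h h 1 * K.kP h := rfl
  have hnP : nP K 𝓡 h = Real.exp (snr (𝓡.gs h) ^ 2) * hm K h h 1 := rfl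
  have hw0 : 0 < 1 / (1 + CR) := one_div_pos.2 (by linarith)
  have hw1 : 1 / (1 + CR) ≤ 1 := by
    rw [div_le_one (by linarith)]; linarith
  obtain ⟨hx0, hx1⟩ := rdo_mult_r4 hβ1 hβ2 hV0 hw0 hw1 hwV
  obtain ⟨a1, a2, a3, a4, a5⟩ := rdo_mult_r1 hP1 hP2 hν0 hv1 hv2 hV hV3 hCR hσ0 hσ1 hC1 hC2 hC5
  obtain ⟨b1, b2, b3, b4, b5⟩ := rdo_mult_r2 hσ0 hσ1 hx0 hx1 hm1 hm2 (lt_of_lt_of_le hlo hk1) hk2 hC3 hC6
  rw [← hnM] at b4 b5
  have c1 := rdo_mult_r3 b4 b5 hlo hk1 hk2 ht00 ht0 ht2 hav.1 hav.2 hC4 hc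
  obtain ⟨d1, d2⟩ := rdo_mult_r5 hβ0 hV0 ht00 ht0 ht2
  refine ⟨?_, ?_, ?_, ?_, ?_, ?_, ?_, hβ0, ?_, ?_, ?_⟩
  · rw [hv0]; exact a1
  · rw [hkV]; exact a2
  · rw [hkV]; exact a3
  · rw [hkP, hpH]; exact b1
  · rw [hkM]; exact c1
  · rw [hγ]; exact d1
  · rw [hγ]; exact d2
  · rw [hnV]; exact ⟨a4, a5⟩
  · rw [hnP]; exact ⟨zero_le_one.trans b2, b3⟩
  · exact ⟨zero_le_one.trans b4, b5.trans hC6⟩

theorem rdo_mult_kVb (hG : G.bc = BC.per) (hM3 : 3 ≤ G.M) :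
    1 ≤ cos1 G ⬝ᵥ (lap G).mulVec (cos1 G) ∧ cos1 G ⬝ᵥ (lap G).mulVec (cos1 G) ≤ 32 := by
  rw [rdo_mult_kV hG hM3]
  obtain ⟨hc0, hc1⟩ := rdo_cosCost G.M hM3
  obtain ⟨hsin, -⟩ := rdo_hvar_eig hG hM3
  have hMr : (3 : ℝ) ≤ G.M := by exact_mod_cast hM3
  have hS : 0 < (G.M : ℝ) ^ 2 * Real.sin (Real.pi / G.M) ^ 2 := by positivity
  have hν1 : 2 / (G.M : ℝ) ^ 2 ≤ 2 / 9 := by
    apply div_le_div_of_nonneg_left (by norm_num) (by norm_num)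
    nlinarith
  generalize (G.M : ℝ) ^ 2 * Real.sin (Real.pi / G.M) ^ 2 = S at *
  have hpi := Real.pi_pos
  have hpi3 := Real.pi_gt_three
  have hpi4 := Real.pi_le_four
  have h1 : 1 / Real.pi ≤ 1 / 3 := by
    apply one_div_le_one_div_of_le <;> linarith
  have h2 : Real.pi / S ≤ 1 := by linarith
  have h3 : 1 / Real.pi ≤ Real.pi / S := by linarith
  rw [div_le_one hS] at h2
  rw [div_le_div_iff₀ hpi hS] at h3
  constructor
  · linarith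
  · nlinarith

/-- `L-RDO-K6` **MULT, exit**.  `w0` is absolute; `C, c` depend on `D₀` only. -/
theorem rdo_mult : ∃ (w0 : ℝ) (D1 : ℕ), 0 < w0 ∧ ∀ D0 ≥ D1, ∃ C c : ℝ, 1 ≤ C ∧ 0 < c ∧ ∀ K : Cfg, K.F = Fam.entry → K.p.ω = ω8 → K.s.D0 = D0 →
    (∀ h, c ≤ pH K h ∧ pH K h ≤ C) ∧ (∀ h, 1 / C ≤ K.kV h ∧ K.kV h ≤ C) ∧ (∀ h, 1 / C ≤ K.kP h ∧ K.kP h ≤ C) ∧
    (∀ j h, j ≤ h → 0 ≤ pG K j h ∧ pG K j h ≤ 1 ∧ 1 - pG K j h ≤ C * ((K.s.L : ℝ) ^ j / (K.s.T h).M) ^ 2) ∧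
    ∀ (𝓡 : Reg K.s) (h : ℕ), Whole (𝓡.gs h) → 3 ≤ (𝓡.gs h).n → MultOK K 𝓡 w0 h C c := by
  obtain ⟨CR, hCR, hV⟩ := rdo_mult_V
  obtain ⟨Ct, hCt⟩ := rdo_mult_kP
  obtain ⟨Cg, hCg⟩ := rdo_mult_pG
  refine ⟨1 / (1 + CR), 3, by positivity, fun D0 hD0 => ?_⟩
  have hD0r : (0 : ℝ) < D0 := by
    have : 0 < D0 := by omega
    exact_mod_cast this
  obtain ⟨hi, hhi⟩ : ∃ hi : ℝ, hi = (D0 : ℝ) ^ 2 / 2 := ⟨_, rfl⟩
  obtain ⟨lo, hlo⟩ : ∃ lo : ℝ, lo = (D0 : ℝ) ^ 2 / 2 * Real.exp (-(4 * Real.pi * (Ct * (1 + Real.log D0)))) := ⟨_, rfl⟩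
  obtain ⟨t0, ht0⟩ : ∃ t0 : ℝ, t0 = 8 * (1 / (1 + CR)) / (5 * Real.pi) := ⟨_, rfl⟩
  have hhi0 : 0 < hi := by rw [hhi]; positivity
  have hlo0 : 0 < lo := by rw [hlo]; positivity
  have ht00 : 0 < t0 := by
    have := Real.pi_pos
    rw [ht0]; positivity
  have p1 : 0 ≤ 2 + 2 * CR + 4 * CR ^ 2 := by positivity
  have p2 : 0 ≤ Real.exp 2 * hi := by positivity
  have p3 : 0 ≤ Real.exp 4 * hi := by positivity
  have p4 : 0 ≤ (1 + CR) ^ 2 := by positivity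
  have p5 : 0 ≤ Real.exp 4 := by positivity
  have p6 : 0 ≤ 1 / lo := by positivity
  have p7 : 0 ≤ |Cg| := abs_nonneg _
  have p8 : hi ≤ Real.exp 4 * hi := by
    have : 1 ≤ Real.exp 4 := Real.one_le_exp (by norm_num)
    nlinarith
  obtain ⟨C, hC⟩ : ∃ C : ℝ, C = 40 + (2 + 2 * CR + 4 * CR ^ 2) + 3 * (Real.exp 2 * hi) + Real.exp 4 * hi + (1 + CR) ^ 2
      + Real.exp 4 + 1 / lo + |Cg| := ⟨_, rfl⟩
  have hC0 : 0 < C := by linarith
  have hClo : 1 / C ≤ lo := by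
    rw [div_le_iff₀ hC0]
    have : 1 / lo ≤ C := by linarith
    rw [div_le_iff₀ hlo0] at this
    linarith
  have hC1' : 1 / C ≤ 1 := by
    rw [div_le_one hC0]; linarith
  refine ⟨C, min lo (lo * (t0 ^ 2 / 6)), by linarith, lt_min hlo0 (by positivity), fun K hF hω hD => ?_⟩
  have hD2 : 2 ≤ K.s.D0 := by omega
  have hkP : ∀ h, lo ≤ K.kP h ∧ K.kP h ≤ hi := by
    intro h
    have := hCt K hF hω hD2 h
    rw [hD] at this
    rw [hlo, hhi]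
    exact this
  have hM3 : ∀ h, 3 ≤ (K.s.T h).M := by
    intro h
    show 3 ≤ K.s.D0 * K.s.L ^ h
    calc 3 ≤ K.s.D0 := by omega
      _ = K.s.D0 * 1 := (mul_one _).symm
      _ ≤ K.s.D0 * K.s.L ^ h := Nat.mul_le_mul_left _ (Nat.one_le_pow _ _ K.s.L_pos)
  refine ⟨fun h => ?_, fun h => ?_, fun h => ?_, fun j h hj => ?_, fun 𝓡 h hW hn => ?_⟩
  · obtain ⟨hm1, hm2⟩ := rdo_mult_hm K hF hω h
    obtain ⟨k1, k2⟩ := hkP h
    have hpH : pH K h = hm K h h 1 * K.kP h := rfl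
    rw [hpH]
    generalize hm K h h 1 = H at *
    generalize K.kP h = κ at *
    constructor
    · refine (min_le_left _ _).trans ?_
      nlinarith
    · have : H * κ ≤ Real.exp 2 * hi := by
        have hκ : 0 ≤ κ := by linarith
        gcongr
      linarith
  · obtain ⟨k1, k2⟩ := rdo_mult_kVb (G := K.s.T h) rfl (hM3 h)
    exact ⟨hC1'.trans k1, k2.trans (by linarith)⟩
  · obtain ⟨k1, k2⟩ := hkP h
    exact ⟨hClo.trans k1, k2.trans (by linarith)⟩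
  · obtain ⟨g1, g2, g3⟩ := hCg K hF hD2 j h hj
    refine ⟨g1, g2, g3.trans ?_⟩
    gcongr
    exact (le_abs_self _).trans (by linarith)
  · obtain ⟨V, P, hP, hP1, hP2, hv1, hv2, hV', hraw⟩ := hV (K.s.T h) rfl (𝓡.gs h) hW hn
    obtain ⟨k1, k2⟩ := hkP h
    have hP2' : P ≤ 1 / Real.pi + 2 * (1 / ((K.s.T h).M : ℝ) ^ 2) := by
      have : 2 * (1 / ((K.s.T h).M : ℝ) ^ 2) = 2 / ((K.s.T h).M : ℝ) ^ 2 := by ring
      rw [this]; exact hP2
    exact rdo_mult_ok K 𝓡 h hF hω hW hn hCR hP hP1 hP2' hv1 hv2 hV' hraw hlo0 k1 k2 (by linarith) (by linarith) (by linarith)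
      (by linarith) (by linarith) (by linarith) (by rw [← ht0]; exact min_le_right _ _)

end

end Claimed.Agent.R285.Rdo
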