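import Claimed.Agent.R285.Rdo.Term
import Claimed.Agent.R285.Reg.Gauss

/-!
# ROW 285, unit READOUT, packages GAUSS, STOP, PURE                                                            (architect helper16)

* GAUSS (paper-free): semigroup of the Gaussian measures, constant modes, the phase lemma.
* STOP = **the stopped identity with a charge** ([F] l.232-245, l.700-760; [B] (10.2)-(10.4); plan (c) of `Read/B8b.lean` s.9): along ANY torus history which stays in the ball, started at ANY level `j0` with ANY entry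
  which is a copy of the plane entry, `EE j0 h q X_{j0} w = cst * EE h h q X_h w` with `cst ≠ 0` independent of the charge `q` and of the source `w`.
  Mechanism of one step: `C_{≥u'} + Γ_u = C_{≥u} + (σ/n²) 𝟙𝟙ᵀ`, `σ = low0 u' - low0 u ≥ 0` (`rdo_ker_split`); the Gaussian constant `c ~ N(0, σ/n²)` is absorbed by the uniform phase, which costs `E e^{iqαc} = e^{-q² a σ/2n²}`.
* PURE = the exact response of `exp (d ⟨φ, Aφ⟩/2)` ([F] (trj:pure-response)) WITHOUT determinants and diagonalisation: with `G = e^{dQ/2}`, `v (s) = E [G e^{s⟨q,ψ⟩}]` (entire), Cameron-Martin in the direction `q` gives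
  `u (w) = e^{dλ‖q‖²w²/2} v (dλw)` and `v (s) = e^{s² p‖q‖²/2λ} u (sp/λ)` (real `s`), hence `v (s) = e^{c(1+dp)s²} v (dp s)`, `c = p‖q‖²/2λ`; `rdo_fun_eq` gives `v''(0)`, and `u''(0) = dλ‖q‖² u(0)/(1 - dp)`.

## Leaves
* `L-RDO-G1` `rdo_gauss_add`, `rdo_gauss_const`   (characteristic functions: `charFun_multivariateGaussian`, `Measure.ext_of_charFun`; `Reg.reg_gauss_map`)        ~250 l.
* `L-RDO-G2` `rdo_phase`                          (periodic shift + Fubini + `∫ e^{iqαc} dN(0,v) = e^{-q²α²v/2}`)                                              ~200 l.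
* `L-RDO-G3` `rdo_eter_shell`                     (from G1, G2, `rdo_ker_split`)                                                                              ~300 l.
* `L-RDO-S1` `rdo_ker_split`, `rdo_term_eig`, `rdo_lap_cos`, `rdo_lap_ker` (kernel algebra: `IsTerminal`, `ker lap` = constants, polynomial calculus)               ~350 l.
* `L-RDO-S2` `rdo_int_ok`                         (finiteness of the regulator integrals at all levels, downward induction: `RegStable.main`, G1, S1)                ~300 l.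
* `L-RDO-S3` `rdo_stop_step`                      (one step: `ChainOK.exact` at real fields, G3, S2, `rdo_ZA_le`, `rdo_dict`)                                            ~300 l.
* `L-RDO-U1` `rdo_pure`                           (see above; `Hol.gauss_shift_integral`, `rdo_mgf`, `rdo_fun_eq`, `Reg.reg_gauss_comb`)                            ~400 l.
GLUE (helper16): `rdo_stop` (induction along the history), `rdo_pure_state`.
-/

set_option autoImplicit false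

namespace Claimed.Agent.R285.Rdo

open scoped BigOperators ENNReal NNReal
open MeasureTheory ProbabilityTheory Polynomial Filter Topology
open Claimed.Agent.R285 Claimed.Agent.R285.RG Claimed.Agent.R285.B8 Claimed.Agent.R285.F4a

noncomputable section

/-! ## GAUSS -/

section gauss

variable {G : Geom}

-- `Jm`, `rdo_lap_cos`, `rdo_lap_ker`, `rdo_term_eig`, `rdo_ker_split`, `rdo_ker_split_low` (`L-RDO-S1`, PROVED) are in `Rdo/Eig.lean`, below `Rdo/Term.lean`.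

/-- `L-RDO-G1` semigroup -/
theorem rdo_gauss_add (Γ₁ Γ₂ : Matrix G.V G.V ℝ) (h₁ : Γ₁.PosSemidef) (h₂ : Γ₂.PosSemidef) :
    ((gauss G Γ₁).prod (gauss G Γ₂)).map (fun p => p.1 + p.2) = gauss G (Γ₁ + Γ₂) :=
  Reg.reg_gauss_add h₁ h₂

/-- `L-RDO-G1` a Gaussian constant -/
theorem rdo_gauss_const (v : ℝ≥0) : gauss G ((v : ℝ) • Jm G) = (gaussianReal 0 v).map fun c => fun _ : G.V => c := by
  have hΓ₀ : ((v : ℝ) • (1 : Matrix Unit Unit ℝ)).PosSemidef := Matrix.PosSemidef.one.smul v.2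
  obtain ⟨B, hB⟩ : ∃ B : Matrix G.V Unit ℝ, B = Matrix.of fun _ _ => 1 := ⟨_, rfl⟩
  have h1 := Reg.reg_gauss_map hΓ₀ B
  have h2 := Reg.regg_lin_law hΓ₀ (fun _ => (1 : ℝ))
  have e1 : B * ((v : ℝ) • (1 : Matrix Unit Unit ℝ)) * B.transpose = (v : ℝ) • Jm G := by
    ext x y
    simp [hB, Jm, Matrix.mul_apply]
  have e2 : Reg.regQf ((v : ℝ) • (1 : Matrix Unit Unit ℝ)) (fun _ => (1 : ℝ)) = v := by
    simp [Reg.regQf, dotProduct, Matrix.mulVec]
  rw [e1] at h1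
  rw [e2, Real.toNNReal_coe] at h2
  show Reg.regGauss _ = _
  rw [← h1, ← h2, Measure.map_map (by fun_prop) (by fun_prop)]
  congr 1
  funext ζ x
  simp [hB, Matrix.mulVec, dotProduct]

/-- `L-RDO-G2` **the phase lemma**: a Gaussian constant is absorbed by the uniform phase -/
theorem rdo_phase (ω : ℝ) (hω : 0 < ω) (q : ℤ) (v : ℝ≥0) (H : ℝ → ℂ) (hper : ∀ θ, H (θ + ω) = H θ) (hH : Continuous H) :
    ∫ θ in (0 : ℝ)..ω, Complex.exp (-(Complex.I * q * ((2 * Real.pi / ω : ℝ) : ℂ) * θ)) * ∫ c, H (θ + c) ∂(gaussianReal 0 v)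
      = (Real.exp (-((q : ℝ) ^ 2 * (2 * Real.pi / ω) ^ 2 * v / 2)) : ℂ) *
        ∫ θ in (0 : ℝ)..ω, Complex.exp (-(Complex.I * q * ((2 * Real.pi / ω : ℝ) : ℂ) * θ)) * H θ := by
  set χ : ℝ → ℂ := fun θ => Complex.exp (-(Complex.I * q * ((2 * Real.pi / ω : ℝ) : ℂ) * θ)) with hχ
  have hχc : Continuous χ := by
    rw [hχ]; fun_prop
  have hχn : ∀ θ, ‖χ θ‖ = 1 := by
    intro θ
    have : -(Complex.I * q * ((2 * Real.pi / ω : ℝ) : ℂ) * θ) = ((-(q * (2 * Real.pi / ω) * θ) : ℝ) : ℂ) * Complex.I := by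
      push_cast; ring
    simp only [hχ]
    rw [this, Complex.norm_exp_ofReal_mul_I]
  have hχadd : ∀ θ c : ℝ, χ θ = χ (θ + c) * Complex.exp (((q * (2 * Real.pi / ω) : ℝ) : ℂ) * c * Complex.I) := by
    intro θ c
    simp only [hχ]
    rw [← Complex.exp_add]
    congr 1
    push_cast
    ring
  have hχper : Function.Periodic χ ω := by
    intro θ
    simp only [hχ]
    have : -(Complex.I * q * ((2 * Real.pi / ω : ℝ) : ℂ) * ((θ + ω : ℝ) : ℂ)) =
        -(Complex.I * q * ((2 * Real.pi / ω : ℝ) : ℂ) * θ) + ((-q : ℤ) : ℂ) * (2 * Real.pi * Complex.I) := by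
      have hω' : (ω : ℂ) ≠ 0 := by exact_mod_cast hω.ne'
      push_cast
      field_simp
      ring
    rw [this, Complex.exp_add, Complex.exp_int_mul_two_pi_mul_I, mul_one]
  obtain ⟨M, hM⟩ : ∃ M : ℝ, ∀ θ, ‖H θ‖ ≤ M := by
    have hb := Function.Periodic.isBounded_of_continuous (f := H) (c := ω) hper hω.ne' hH
    obtain ⟨M, hM⟩ := hb.exists_norm_le
    exact ⟨M, fun θ => hM _ ⟨θ, rfl⟩⟩
  have hgper : Function.Periodic (fun θ => χ θ * H θ) ω := fun θ => by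
    show χ (θ + ω) * H (θ + ω) = χ θ * H θ
    rw [hχper θ, hper θ]
  -- the inner integral
  have hinner : ∀ c : ℝ, ∫ θ in (0 : ℝ)..ω, χ θ * H (θ + c) =
      Complex.exp (((q * (2 * Real.pi / ω) : ℝ) : ℂ) * c * Complex.I) * ∫ θ in (0 : ℝ)..ω, χ θ * H θ := by
    intro c
    have h1 : ∀ θ : ℝ, χ θ * H (θ + c) = Complex.exp (((q * (2 * Real.pi / ω) : ℝ) : ℂ) * c * Complex.I) * (fun x => χ x * H x) (θ + c) := by
      intro θ
      show χ θ * H (θ + c) = _ * (χ (θ + c) * H (θ + c))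
      rw [hχadd θ c]; ring
    simp_rw [h1]
    rw [intervalIntegral.integral_const_mul, intervalIntegral.integral_comp_add_right (fun x => χ x * H x) c]
    congr 1
    have h2 := hgper.intervalIntegral_add_eq c 0
    rw [zero_add] at h2
    rw [zero_add, add_comm ω c]
    exact h2
  -- Fubini
  have hint : Integrable (Function.uncurry fun (θ c : ℝ) => χ θ * H (θ + c)) ((volume.restrict (Set.Ioc 0 ω)).prod (gaussianReal 0 v)) := by
    refine Integrable.of_bound (C := M) ?_ (Eventually.of_forall fun x => ?_)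
    · have : Continuous (Function.uncurry fun (θ c : ℝ) => χ θ * H (θ + c)) := by
        show Continuous fun x : ℝ × ℝ => χ x.1 * H (x.1 + x.2)
        exact (hχc.comp continuous_fst).mul (hH.comp (continuous_fst.add continuous_snd))
      exact this.aestronglyMeasurable
    · show ‖χ x.1 * H (x.1 + x.2)‖ ≤ M
      rw [norm_mul, hχn, one_mul]
      exact hM _
  have hswap := integral_integral_swap (μ := volume.restrict (Set.Ioc 0 ω)) (ν := gaussianReal 0 v) (f := fun (θ c : ℝ) => χ θ * H (θ + c)) hint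
  have hL : ∫ θ in (0 : ℝ)..ω, χ θ * ∫ c, H (θ + c) ∂(gaussianReal 0 v) = ∫ θ in Set.Ioc 0 ω, ∫ c, χ θ * H (θ + c) ∂(gaussianReal 0 v) := by
    rw [intervalIntegral.integral_of_le hω.le]
    refine integral_congr_ae (Eventually.of_forall fun θ => ?_)
    exact (integral_const_mul (χ θ) _).symm
  rw [hL, hswap]
  have h3 : ∀ c : ℝ, ∫ θ in Set.Ioc 0 ω, χ θ * H (θ + c) =
      Complex.exp (((q * (2 * Real.pi / ω) : ℝ) : ℂ) * c * Complex.I) * ∫ θ in (0 : ℝ)..ω, χ θ * H θ := by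
    intro c
    rw [← intervalIntegral.integral_of_le hω.le]
    exact hinner c
  simp_rw [h3]
  rw [integral_mul_const, ← charFun_apply_real, charFun_gaussianReal]
  congr 1
  rw [Complex.ofReal_exp]
  congr 1
  push_cast
  ring

/-- the envelope of `Z` over the constants -/
def rdo_env (Z : Fn G) (φ : G.V → ℝ) : ℝ≥0∞ := ⨆ θ : ℝ, ‖Z (toC fun v => φ v + θ)‖ₑ

theorem rdo_env_meas (Z : Fn G) (hc : Continuous fun φ : G.V → ℝ => Z (toC φ)) : Measurable (rdo_env Z) := by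
  apply LowerSemicontinuous.measurable
  apply lowerSemicontinuous_iSup
  intro θ
  apply Continuous.lowerSemicontinuous
  have h1 : Continuous fun φ : G.V → ℝ => (fun v => φ v + θ) := by fun_prop
  exact (hc.comp h1).enorm

theorem rdo_env_shift (Z : Fn G) (φ : G.V → ℝ) (c : ℝ) : rdo_env Z (fun v => φ v + c) = rdo_env Z φ := by
  unfold rdo_env
  refine (Equiv.addLeft c).iSup_congr ?_
  intro θ
  simp only [Equiv.coe_addLeft, add_assoc]

theorem rdo_le_env (Z : Fn G) (φ : G.V → ℝ) (θ : ℝ) : ‖Z (toC fun v => φ v + θ)‖ₑ ≤ rdo_env Z φ :=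
  le_iSup (fun θ : ℝ => ‖Z (toC fun v => φ v + θ)‖ₑ) θ

theorem rdo_Jm_psd (v : ℝ≥0) : ((v : ℝ) • Jm G).PosSemidef := by
  have h : Jm G = Matrix.vecMulVec (fun _ => (1 : ℝ)) (star fun _ => (1 : ℝ)) := by
    ext i j
    simp [Jm, Matrix.vecMulVec_apply]
  rw [h]
  exact (Matrix.posSemidef_vecMulVec_self_star _).smul v.2

/-- the two decompositions of the same Gaussian measure -/
theorem rdo_meas_split (Γ Γ' S : Matrix G.V G.V ℝ) (hΓ : Γ.PosSemidef) (hΓ' : Γ'.PosSemidef) (hS : S.PosSemidef) (v : ℝ≥0)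
    (h : Γ' + S = Γ + (v : ℝ) • Jm G) :
    ((gauss G Γ').prod (gauss G S)).map (fun p => p.1 + p.2)
      = ((gauss G Γ).prod (gaussianReal 0 v)).map (fun p => fun x => p.1 x + p.2) := by
  rw [rdo_gauss_add Γ' S hΓ' hS, h, ← rdo_gauss_add Γ _ hΓ (rdo_Jm_psd v), rdo_gauss_const]
  have h1 : (gauss G Γ).prod ((gaussianReal 0 v).map fun c => fun _ : G.V => c)
      = ((gauss G Γ).prod (gaussianReal 0 v)).map (Prod.map id fun c => fun _ : G.V => c) := by
    rw [← Measure.map_prod_map _ _ measurable_id (by fun_prop), Measure.map_id]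
  rw [h1, Measure.map_map (by fun_prop) (by fun_prop)]
  rfl
/-- `L-RDO-G3` **one shell, charge `q`**.  `Z` is only looked at on real fields: continuous, `ω`-periodic, dominated by a function `D` which is blind to constants, with finite iterated LOWER integral (`D` need not be measurable:
only `lintegral_mono` is applied to it; Tonelli/Fubini are applied to the continuous `Z`). -/
theorem rdo_eter_shell_gen (F : Fam) (u u' : ℕ) (Γ Γ' : Matrix G.V G.V ℝ) (hΓ : Γ.PosSemidef) (hΓ' : Γ'.PosSemidef)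
    (hks : Γ' + shell G F u u' = Γ + ((low0 F u' - low0 F u) / (G.M : ℝ) ^ 2) • Jm G)
    (hS : (shell G F u u').PosSemidef) (hσ : low0 F u ≤ low0 F u') (ω : ℝ) (hω : 0 < ω) (q : ℤ) (Z : Fn G)
    (hc : Continuous fun φ : G.V → ℝ => Z (toC φ)) (hper : ∀ φ : G.V → ℝ, Z (toC fun v => φ v + ω) = Z (toC φ))
    (D : (G.V → ℝ) → ℝ) (hDc : ∀ (φ : G.V → ℝ) (c : ℝ), D (fun v => φ v + c) = D φ) (hZD : ∀ φ : G.V → ℝ, ‖Z (toC φ)‖ ≤ D φ)
    (Fb : G.V → ℝ) (hint : ∫⁻ ψ, ∫⁻ ζ, ENNReal.ofReal (D (Fb + ψ + ζ)) ∂(gauss G (shell G F u u')) ∂(gauss G Γ') ≠ ⊤) :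
    Eter G Γ' ω q (conv (shell G F u u') Z) (toC Fb)
      = (Real.exp (-((q : ℝ) ^ 2 * (2 * Real.pi / ω) ^ 2 * (low0 F u' - low0 F u) / (2 * (G.M : ℝ) ^ 2))) : ℂ) * Eter G Γ ω q Z (toC Fb) := by
  have hv0 : 0 ≤ (low0 F u' - low0 F u) / (G.M : ℝ) ^ 2 := div_nonneg (sub_nonneg.2 hσ) (by positivity)
  obtain ⟨v, hv⟩ : ∃ v : ℝ≥0, (v : ℝ) = (low0 F u' - low0 F u) / (G.M : ℝ) ^ 2 := ⟨⟨_, hv0⟩, rfl⟩
  have hsplit := rdo_meas_split Γ Γ' (shell G F u u') hΓ hΓ' hS v (by rw [hv]; exact hks)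
  set S := shell G F u u' with hSdef
  have hEm := rdo_env_meas Z hc
  -- the envelope is dominated by `D`
  have hED : ∀ φ, rdo_env Z φ ≤ ENNReal.ofReal (D φ) := by
    intro φ
    refine iSup_le fun θ => ?_
    rw [← ofReal_norm]
    refine ENNReal.ofReal_le_ofReal ?_
    rw [← hDc φ θ]
    exact hZD _
  have hEtop : ∀ φ, rdo_env Z φ ≠ ⊤ := fun φ => ((hED φ).trans_lt ENNReal.ofReal_lt_top).ne
  -- the envelope is integrable for the sum
  have hm1 : Measurable fun χ : G.V → ℝ => rdo_env Z (Fb + χ) := hEm.comp (by fun_prop)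
  have hfin0 : ∫⁻ χ, rdo_env Z (Fb + χ) ∂(((gauss G Γ').prod (gauss G S)).map (fun p => p.1 + p.2)) ≠ ⊤ := by
    have hm2 : Measurable fun p : (G.V → ℝ) × (G.V → ℝ) => rdo_env Z (Fb + (p.1 + p.2)) := hEm.comp (by fun_prop)
    rw [lintegral_map hm1 (by fun_prop), lintegral_prod _ hm2.aemeasurable]
    refine ((lintegral_mono fun ψ => lintegral_mono fun ζ => ?_).trans_lt hint.lt_top).ne
    rw [← add_assoc]
    exact hED _
  have hfin : ∫⁻ χ, rdo_env Z (Fb + χ) ∂(gauss G Γ) ≠ ⊤ := by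
    have h0 := hfin0
    have hm2 : Measurable fun p : (G.V → ℝ) × ℝ => rdo_env Z (Fb + fun x => p.1 x + p.2) := hEm.comp (by fun_prop)
    rw [hsplit, lintegral_map hm1 (by fun_prop), lintegral_prod _ hm2.aemeasurable] at h0
    have e : ∀ (χ : G.V → ℝ) (c : ℝ), rdo_env Z (Fb + fun x => χ x + c) = rdo_env Z (Fb + χ) := by
      intro χ c
      rw [← rdo_env_shift Z (Fb + χ) c]
      congr 1
      ext x
      simp [add_assoc]
    simpa [e] using h0
  -- the translated functions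
  have hfc : ∀ θ : ℝ, Continuous fun χ : G.V → ℝ => Z (toC fun x => Fb x + χ x + θ) := by
    intro θ
    have h1 : Continuous fun χ : G.V → ℝ => (fun x => Fb x + χ x + θ) := by fun_prop
    exact hc.comp h1
  have hfb : ∀ (θ : ℝ) (χ : G.V → ℝ), ‖Z (toC fun x => Fb x + χ x + θ)‖ₑ ≤ rdo_env Z (Fb + χ) :=
    fun θ χ => rdo_le_env Z (Fb + χ) θ
  have hfi0 : ∀ θ : ℝ, Integrable (fun χ : G.V → ℝ => Z (toC fun x => Fb x + χ x + θ)) (((gauss G Γ').prod (gauss G S)).map (fun p => p.1 + p.2)) := by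
    intro θ
    refine ⟨(hfc θ).aestronglyMeasurable, ?_⟩
    exact ((lintegral_mono (hfb θ)).trans_lt hfin0.lt_top)
  -- the function `H`
  set H : ℝ → ℂ := fun θ => ∫ χ, Z (toC fun x => Fb x + χ x + θ) ∂(gauss G Γ) with hH
  have hHc : Continuous H := by
    refine continuous_of_dominated (bound := fun χ => (rdo_env Z (Fb + χ)).toReal) (fun θ => (hfc θ).aestronglyMeasurable) ?_
      (integrable_toReal_of_lintegral_ne_top hm1.aemeasurable hfin) ?_
    · intro θ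
      refine ae_of_all _ fun χ => ?_
      have := hfb θ χ
      rw [← ofReal_norm] at this
      exact (ENNReal.ofReal_le_iff_le_toReal (hEtop _)).1 this
    · refine ae_of_all _ fun χ => ?_
      have h1 : Continuous fun θ : ℝ => (fun x => Fb x + χ x + θ) := by fun_prop
      exact hc.comp h1
  have hHp : ∀ θ, H (θ + ω) = H θ := by
    intro θ
    simp only [hH]
    congr 1
    ext χ
    rw [← hper (fun x => Fb x + χ x + θ)]
    congr 2
    ext x
    ring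
  have hconvΓ : ∀ θ : ℝ, conv Γ Z (fun x => toC Fb x + (θ : ℂ)) = H θ := by
    intro θ
    simp only [hH, conv]
    congr 1
    ext χ
    congr 1
    ext x
    simp only [toC, Pi.add_apply]
    push_cast
    ring
  have hconv : ∀ θ : ℝ, conv Γ' (conv S Z) (fun x => toC Fb x + (θ : ℂ)) = ∫ c, H (θ + c) ∂(gaussianReal 0 v) := by
    intro θ
    have e1 : conv Γ' (conv S Z) (fun x => toC Fb x + (θ : ℂ))
        = ∫ ψ, ∫ ζ, (fun χ : G.V → ℝ => Z (toC fun x => Fb x + χ x + θ)) (ψ + ζ) ∂(gauss G S) ∂(gauss G Γ') := by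
      simp only [conv]
      congr 1
      ext ψ
      congr 1
      ext ζ
      congr 1
      ext x
      simp only [toC, Pi.add_apply]
      push_cast
      ring
    have hi1 : Integrable (fun p : (G.V → ℝ) × (G.V → ℝ) => (fun χ : G.V → ℝ => Z (toC fun x => Fb x + χ x + θ)) (p.1 + p.2)) ((gauss G Γ').prod (gauss G S)) :=
      (integrable_map_measure (hfc θ).aestronglyMeasurable (by fun_prop)).1 (hfi0 θ)
    have hi2 : Integrable (fun p : (G.V → ℝ) × ℝ => (fun χ : G.V → ℝ => Z (toC fun x => Fb x + χ x + θ)) (fun x => p.1 x + p.2)) ((gauss G Γ).prod (gaussianReal 0 v)) := by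
      have := hfi0 θ
      rw [hsplit] at this
      exact (integrable_map_measure (hfc θ).aestronglyMeasurable (by fun_prop)).1 this
    rw [e1, ← integral_prod _ hi1, ← integral_map (f := fun χ : G.V → ℝ => Z (toC fun x => Fb x + χ x + θ)) (φ := fun p : (G.V → ℝ) × (G.V → ℝ) => p.1 + p.2) (by fun_prop) (hfc θ).aestronglyMeasurable,
      hsplit, integral_map (by fun_prop) (hfc θ).aestronglyMeasurable, integral_prod_symm _ hi2]
    congr 1
    ext c
    simp only [hH]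
    congr 1
    ext χ
    congr 2
    ext x
    ring
  unfold Eter
  simp_rw [hconv, hconvΓ]
  rw [rdo_phase ω hω q v H hHp hHc, hv]
  have e : (q : ℝ) ^ 2 * (2 * Real.pi / ω) ^ 2 * ((low0 F u' - low0 F u) / (G.M : ℝ) ^ 2) / 2
      = (q : ℝ) ^ 2 * (2 * Real.pi / ω) ^ 2 * (low0 F u' - low0 F u) / (2 * (G.M : ℝ) ^ 2) := by
    have : (G.M : ℝ) ≠ 0 := by exact_mod_cast G.hM.ne'
    field_simp
  rw [e]
  ring

/-- `L-RDO-G3` on the torus (the general form `rdo_eter_shell_gen` only uses the split of the covariances: it also serves the free squares of OBS) -/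
theorem rdo_eter_shell (hG : G.bc = BC.per) (F : Fam) (u u' : ℕ) (hu : 1 ≤ u) (hu' : 1 ≤ u') (Γ Γ' : Matrix G.V G.V ℝ) (hΓ : IsTerminal G F u Γ) (hΓ' : IsTerminal G F u' Γ')
    (hS : (shell G F u u').PosSemidef) (hσ : low0 F u ≤ low0 F u') (ω : ℝ) (hω : 0 < ω) (q : ℤ) (Z : Fn G)
    (hc : Continuous fun φ : G.V → ℝ => Z (toC φ)) (hper : ∀ φ : G.V → ℝ, Z (toC fun v => φ v + ω) = Z (toC φ))
    (D : (G.V → ℝ) → ℝ) (hDc : ∀ (φ : G.V → ℝ) (c : ℝ), D (fun v => φ v + c) = D φ) (hZD : ∀ φ : G.V → ℝ, ‖Z (toC φ)‖ ≤ D φ)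
    (Fb : G.V → ℝ) (hint : ∫⁻ ψ, ∫⁻ ζ, ENNReal.ofReal (D (Fb + ψ + ζ)) ∂(gauss G (shell G F u u')) ∂(gauss G Γ') ≠ ⊤) :
    Eter G Γ' ω q (conv (shell G F u u') Z) (toC Fb)
      = (Real.exp (-((q : ℝ) ^ 2 * (2 * Real.pi / ω) ^ 2 * (low0 F u' - low0 F u) / (2 * (G.M : ℝ) ^ 2))) : ℂ) * Eter G Γ ω q Z (toC Fb) :=
  rdo_eter_shell_gen F u u' Γ Γ' hΓ.psd hΓ'.psd (rdo_ker_split hG F u u' hu hu' Γ Γ' hΓ hΓ') hS hσ ω hω q Z hc hper D hDc hZD Fb hint

end gauss

/-! ## STOP -/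

variable (K : Cfg) (𝓡 : Reg K.s)

/-- the terminal covariance of the entry family is terminal -/
theorem rdo_io_term (G : Geom) (u : ℕ) (hu : 1 ≤ u) : IsTerminal G Fam.entry u (termCov G Fam.entry u) := by
  have h : ∃ Γ, IsTerminal G Fam.entry u Γ := Ker.ker_exists_terminal G Fam.entry Ker.ker_entry_adm u hu
  unfold termCov
  rw [dif_pos h]
  exact h.choose_spec

/-- the projection on mean-zero fields -/
def rdoPm (G : Geom) : Matrix G.V G.V ℝ := 1 - ((G.M : ℝ) ^ 2)⁻¹ • Jm G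

theorem rdo_io_Pm_mulVec (G : Geom) (ψ : G.V → ℝ) :
    (rdoPm G).mulVec ψ = fun v => ψ v + -(((G.M : ℝ) ^ 2)⁻¹ * ∑ x, ψ x) := by
  funext v
  unfold rdoPm Jm
  rw [Matrix.sub_mulVec, Matrix.one_mulVec, Matrix.smul_mulVec]
  simp [Matrix.mulVec, dotProduct, sub_eq_add_neg]

theorem rdo_io_Jm_sq (G : Geom) : Jm G * Jm G = ((G.M : ℝ) ^ 2) • Jm G := by
  ext v w
  simp [Jm, Matrix.mul_apply, Fintype.card_prod, sq]

theorem rdo_io_Pm_Jm (G : Geom) : rdoPm G * Jm G = 0 := by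
  have hM : ((G.M : ℝ) ^ 2) ≠ 0 := by
    have := G.hM
    positivity
  unfold rdoPm
  rw [Matrix.sub_mul, Matrix.one_mul, Matrix.smul_mul, rdo_io_Jm_sq, smul_smul, inv_mul_cancel₀ hM, one_smul, sub_self]

theorem rdo_io_mul_Jm {G : Geom} (Γ : Matrix G.V G.V ℝ) (h : Γ.mulVec (fun _ => 1) = 0) : Γ * Jm G = 0 := by
  ext v w
  have := congrFun h v
  simpa [Jm, Matrix.mul_apply, Matrix.mulVec, dotProduct] using this

theorem rdo_io_Jm_mul {G : Geom} (Γ : Matrix G.V G.V ℝ) (hs : Γ.transpose = Γ) (h : Γ.mulVec (fun _ => 1) = 0) : Jm G * Γ = 0 := by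
  have h1 := rdo_io_mul_Jm Γ h
  have h2 : (Γ * Jm G).transpose = 0 := by rw [h1]; rfl
  rw [Matrix.transpose_mul, hs] at h2
  exact h2

theorem rdo_io_Pm_tr (G : Geom) : (rdoPm G).transpose = rdoPm G := by
  ext v w
  simp [rdoPm, Jm, Matrix.one_apply, eq_comm]

/-- conjugation by the projection kills the constant mode -/
theorem rdo_io_conj {G : Geom} (Γ : Matrix G.V G.V ℝ) (hs : Γ.transpose = Γ) (h : Γ.mulVec (fun _ => 1) = 0) (c : ℝ) :
    rdoPm G * (Γ + c • Jm G) * (rdoPm G).transpose = Γ := by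
  rw [rdo_io_Pm_tr, Matrix.mul_add, Matrix.mul_smul, rdo_io_Pm_Jm, smul_zero, add_zero]
  unfold rdoPm
  rw [Matrix.sub_mul, Matrix.one_mul, Matrix.smul_mul, rdo_io_Jm_mul Γ hs h, smul_zero, sub_zero,
    Matrix.mul_sub, Matrix.mul_one, Matrix.mul_smul, rdo_io_mul_Jm Γ h, smul_zero, sub_zero]

/-- one shell, for a function which is blind to constants (not necessarily measurable) -/
theorem rdo_io_step {G : Geom} (Γ Γ' S : Matrix G.V G.V ℝ) (c : ℝ) (hΓ : Γ.PosSemidef) (hΓ1 : Γ.mulVec (fun _ => 1) = 0)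
    (hΓ' : Γ'.PosSemidef) (hS : S.PosSemidef) (hsplit : Γ' + S = Γ + c • Jm G)
    (f : (G.V → ℝ) → ℝ≥0∞) (hf : ∀ (φ : G.V → ℝ) (t : ℝ), f (fun v => φ v + t) = f φ) :
    ∫⁻ ψ, f ψ ∂(gauss G Γ) ≤ ∫⁻ ψ, ∫⁻ ζ, f (ψ + ζ) ∂(gauss G S) ∂(gauss G Γ') := by
  have hs : Γ.transpose = Γ := by
    have := hΓ.isHermitian
    rwa [Matrix.IsHermitian, Matrix.conjTranspose_eq_transpose_of_trivial] at this
  have h1 : (gauss G (Γ' + S)).map (fun ζ => (rdoPm G).mulVec ζ) = gauss G Γ := by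
    have := Reg.reg_gauss_map (hΓ'.add hS) (rdoPm G)
    rw [hsplit, rdo_io_conj Γ hs hΓ1 c] at this
    rw [hsplit]
    exact this
  have h2 : ((gauss G Γ').prod (gauss G S)).map (fun x => x.1 + x.2) = gauss G (Γ' + S) := Reg.reg_gauss_add hΓ' hS
  calc ∫⁻ ψ, f ψ ∂(gauss G Γ) = ∫⁻ ψ, f ψ ∂((gauss G (Γ' + S)).map (fun ζ => (rdoPm G).mulVec ζ)) := by rw [h1]
    _ ≤ ∫⁻ ψ, f ((rdoPm G).mulVec ψ) ∂(gauss G (Γ' + S)) := lintegral_map_le _ _
    _ = ∫⁻ ψ, f ψ ∂(gauss G (Γ' + S)) := by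
        refine lintegral_congr fun ψ => ?_
        rw [rdo_io_Pm_mulVec, hf]
    _ = ∫⁻ ψ, f ψ ∂(((gauss G Γ').prod (gauss G S)).map (fun x => x.1 + x.2)) := by rw [h2]
    _ ≤ ∫⁻ x, f (x.1 + x.2) ∂((gauss G Γ').prod (gauss G S)) := lintegral_map_le _ _
    _ ≤ ∫⁻ ψ, ∫⁻ ζ, f (ψ + ζ) ∂(gauss G S) ∂(gauss G Γ') := lintegral_prod_le _

/-- `L-RDO-S2` the regulators are integrable at every level behind the stop (sources `|w| ≤ 1`).  Downward induction on `j` from `TermOK` (`j = h`).  THE REGULATORS NEED NOT BE MEASURABLE.  Step: `f = Wt_j (W, · + w q_n)` is blind to constants,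
`f = f ∘ π`, `π ψ = ψ - mean ψ`; `μ_j = map (π ∘ add) (μ_{j+1} × s_j)` (`rdo_ker_split`, `rdo_gauss_add`, `rdo_gauss_const`, `Reg.reg_gauss_map`: both sides are `N (0, P (Γ_{j+1} + Γ_shell) Pᵀ)`); then
`∫⁻ f ∂μ_j ≤ ∫⁻ f ∘ π ∘ add ∂(μ_{j+1} × s_j)` (`lintegral_map_le`) `≤ ∫⁻ ψ, ∫⁻ ζ, f (ψ + ζ)` (`lintegral_prod_le`) `≤ cst^{|W|} ∫⁻ ψ, Wt_{j+1} (cl W, ψ + w q_n)` (`StepOK.reg.main`). -/
theorem rdo_int_ok (hF : K.F = Fam.entry) (j0 : ℕ) (cT : ℝ≥0) (hT : K.TowerOK 𝓡 j0) (hG : TermGeo K 𝓡 j0 cT) (j h : ℕ) (hj : j0 ≤ j) (hjh : j ≤ h)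
    (W : Finset (K.s.lev h j).I) (w : ℝ) (hw : |w| ≤ 1) :
    ∫⁻ ψ, ENNReal.ofReal (Wt (K.s.lev h j) K.p.δ K.p.κ (𝓡.V h j) W fun v => ψ v + w * cos1 (K.s.T h) v) ∂(gauss (K.s.T h) (Gge K j h)) ≠ ⊤ := by
  have main : ∀ d j, j0 ≤ j → j ≤ h → h - j = d → ∀ W : Finset (K.s.lev h j).I,
      ∫⁻ ψ, ENNReal.ofReal (Wt (K.s.lev h j) K.p.δ K.p.κ (𝓡.V h j) W fun v => ψ v + w * cos1 (K.s.T h) v)
        ∂(gauss (K.s.T h) (Gge K j h)) ≠ ⊤ := by
    intro d
    induction d with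
    | zero =>
      intro j hj hjh hd W
      obtain rfl : j = h := by omega
      exact ne_top_of_le_ne_top (ENNReal.pow_ne_top ENNReal.coe_ne_top) (hG.term j hj W w hw)
    | succ d ih =>
      intro j hj hjh hd W
      have hlt : j < h := by omega
      have hst := hT.step h j hj hlt
      have hL : ∀ i, 1 ≤ K.s.L ^ i := fun i => Nat.pow_pos K.s.L_pos
      have t0 : IsTerminal (K.s.T h) K.F (K.s.L ^ j) (Gge K j h) := by
        unfold Gge
        rw [hF]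
        exact rdo_io_term _ _ (hL j)
      have t1 : IsTerminal (K.s.T h) K.F (K.s.L ^ (j + 1)) (Gge K (j + 1) h) := by
        unfold Gge
        rw [hF]
        exact rdo_io_term _ _ (hL (j + 1))
      have hsplit := rdo_ker_split hst.per K.F (K.s.L ^ j) (K.s.L ^ (j + 1)) (hL j) (hL (j + 1)) _ _ t0 t1
      have hS : (shell (K.s.T h) K.F (K.s.L ^ j) (K.s.L ^ (j + 1))).PosSemidef := hst.shell.psd
      have key := rdo_io_step _ _ _ _ t0.psd t0.const t1.psd hS hsplit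
        (fun ψ => ENNReal.ofReal (Wt (K.s.lev h j) K.p.δ K.p.κ (𝓡.V h j) W fun v => ψ v + w * cos1 (K.s.T h) v))
        (fun φ t => by
          have : (fun v => φ v + t + w * cos1 (K.s.T h) v) = fun v => (φ v + w * cos1 (K.s.T h) v) + t := by
            funext v; ring
          simp only [this]
          rw [Hol.Wt_add_const])
      refine ne_top_of_le_ne_top ?_ key
      have hmain := hst.reg.main W ((K.step 𝓡 h j hlt).P.N.cl W) subset_rfl
      have hih := ih (j + 1) (by omega) hlt (by omega) ((K.step 𝓡 h j hlt).P.N.cl W)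
      refine ne_top_of_le_ne_top (ENNReal.mul_ne_top (ENNReal.pow_ne_top (ENNReal.coe_ne_top (r := K.c.cst)) (n := W.card)) hih) ?_
      rw [← lintegral_const_mul' _ _ (ENNReal.pow_ne_top ENNReal.coe_ne_top)]
      refine lintegral_mono fun ψ => ?_
      refine le_trans (le_of_eq ?_) (hmain fun v => ψ v + w * cos1 (K.s.T h) v)
      refine lintegral_congr fun ζ => ?_
      congr 2
      funext v
      simp only [Pi.add_apply]
      ring
  exact main (h - j) j hj hjh rfl W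

/-- the state after one step on the torus `h` -/
def nextT (j h : ℕ) (hj : j < h) (X : (ℂ × ℂ) × K.To 𝓡 j h) : (ℂ × ℂ) × K.To 𝓡 (j + 1) h :=
  (((K.PhiT 𝓡 h j hj (X.1.1, X.1.2, K.toAct 𝓡 X.2)).1, (K.PhiT 𝓡 h j hj (X.1.1, X.1.2, K.toAct 𝓡 X.2)).2.1), K.Psi 𝓡 j h X)

/-- the terminal covariances of the entry family -/
theorem rdo_s3_term (hF : K.F = Fam.entry) (j h : ℕ) : IsTerminal (K.s.T h) K.F (K.s.L ^ j) (Gge K j h) := by
  have hx : ∃ Γ, IsTerminal (K.s.T h) K.F (K.s.L ^ j) Γ := by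
    rw [hF]
    exact B4.exists_terminal (K.s.T h) Fam.entry B4.entry_adm (K.s.L ^ j) (Nat.pow_pos K.s.L_pos)
  unfold Gge termCov
  rw [dif_pos hx]
  exact hx.choose_spec

/-- real fields lie in every strip -/
theorem rdo_s3_strip {G : Geom} (h0 : ℝ≥0) (hh : 0 < h0) (g : Grid G) (X : Finset g.I) (z : G.V → ℂ) (hz : ∀ v, (z v).im = 0) :
    z ∈ strip h0 g X := by
  have h1 : (fun v => (z v).im) = (0 : G.V → ℝ) := funext hz
  show tnorm g X (fun v => (z v).im) < h0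
  rw [h1, Hol.tnorm_zero]
  exact hh

/-- the constant mode of a shell is non-negative -/
theorem rdo_s3_low0_le {G : Geom} (hG : G.bc = BC.per) (F : Fam) (u u' : ℕ) (hu : 1 ≤ u) (hu' : 1 ≤ u') (Γ Γ' : Matrix G.V G.V ℝ)
    (hΓ : IsTerminal G F u Γ) (hΓ' : IsTerminal G F u' Γ') (hS : (shell G F u u').PosSemidef) : low0 F u ≤ low0 F u' := by
  have h := rdo_ker_split hG F u u' hu hu' Γ Γ' hΓ hΓ'
  have hJ : (Jm G).mulVec (fun _ => (1 : ℝ)) = fun _ => (Fintype.card G.V : ℝ) := by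
    funext v
    simp [Jm, Matrix.mulVec, dotProduct]
  have h1 := congrArg (fun A : Matrix G.V G.V ℝ => (fun _ => (1 : ℝ)) ⬝ᵥ A.mulVec (fun _ => (1 : ℝ))) h
  simp only [Matrix.add_mulVec, hΓ.const, hΓ'.const, zero_add, Matrix.smul_mulVec, hJ] at h1
  have h2 := hS.dotProduct_mulVec_nonneg (fun _ => (1 : ℝ))
  have h3 : star (fun _ : G.V => (1 : ℝ)) = fun _ => (1 : ℝ) := by
    funext v; simp
  rw [h3, h1] at h2
  have h4 : ((fun _ => (1 : ℝ)) ⬝ᵥ (((low0 F u' - low0 F u) / (G.M : ℝ) ^ 2) • fun _ : G.V => (Fintype.card G.V : ℝ)))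
      = (low0 F u' - low0 F u) * ((Fintype.card G.V : ℝ) ^ 2 / (G.M : ℝ) ^ 2) := by
    simp [dotProduct]
    ring
  rw [h4] at h2
  have hc : 0 < (Fintype.card G.V : ℝ) := by
    have : Nonempty G.V := ⟨org G⟩
    exact_mod_cast Fintype.card_pos
  have hM : 0 < (G.M : ℝ) := by exact_mod_cast G.hM
  have h5 : 0 < (Fintype.card G.V : ℝ) ^ 2 / (G.M : ℝ) ^ 2 := by positivity
  have := nonneg_of_mul_nonneg_left h2 h5
  linarith

theorem rdo_s3_ZA_apply {G : Geom} (g : Grid G) (R : ℕ) (Kc : Act g) (z : G.V → ℂ) :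
    ZA g R Kc z = ∑ W : Finset g.I, ∏ Y ∈ g.comps R W, Kc Y z := by
  simp [ZA, Finset.sum_apply, Finset.prod_apply]

/-- a crude bound of the subset sum by ONE regulator (no smallness) -/
theorem rdo_s3_ZA_bd {G : Geom} (g : Grid G) (R : ℕ) (p : Par) (V : Extra g) (hg : g.Ok) (hA : 0 < p.A) (hadm : p.Adm g)
    (hsep : max 5 V.sep < R) (E : ℝ) (hE : 0 ≤ E) : ∃ C : ℝ, 0 ≤ C ∧ ∀ (Kc : Act g) (z : G.V → ℂ) (φ : G.V → ℝ),
      (∀ Y, ‖Kc Y z‖ ≤ E * ((p.A ^ Y.card)⁻¹ * Wt g p.δ p.κ V Y φ)) → ‖ZA g R Kc z‖ ≤ C * Wt g p.δ p.κ V Finset.univ φ := by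
  have hc0 : ∀ W : Finset g.I, 0 ≤ ∏ Y ∈ g.comps R W, E * (p.A ^ Y.card)⁻¹ := fun W =>
    Finset.prod_nonneg fun Y _ => mul_nonneg hE (by positivity)
  refine ⟨∑ W : Finset g.I, ∏ Y ∈ g.comps R W, E * (p.A ^ Y.card)⁻¹, Finset.sum_nonneg fun W _ => hc0 W, fun Kc z φ hK => ?_⟩
  rw [rdo_s3_ZA_apply, Finset.sum_mul]
  refine (norm_sum_le _ _).trans (Finset.sum_le_sum fun W _ => ?_)
  rw [norm_prod]
  have hmono : Wt g p.δ p.κ V W φ ≤ Wt g p.δ p.κ V Finset.univ φ := by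
    unfold Wt
    apply Real.exp_le_exp.2
    have h1 := hadm.mono W Finset.univ (Finset.subset_univ W) φ
    have h2 := V.mono W Finset.univ φ (Finset.subset_univ W)
    have h3 := mul_le_mul_of_nonneg_left h1 hadm.κ_pos.le
    linarith
  calc ∏ Y ∈ g.comps R W, ‖Kc Y z‖ ≤ ∏ Y ∈ g.comps R W, (E * (p.A ^ Y.card)⁻¹) * Wt g p.δ p.κ V Y φ :=
        Finset.prod_le_prod (fun _ _ => norm_nonneg _) fun Y _ => (hK Y).trans (le_of_eq (by ring))
    _ = (∏ Y ∈ g.comps R W, E * (p.A ^ Y.card)⁻¹) * ∏ Y ∈ g.comps R W, Wt g p.δ p.κ V Y φ := Finset.prod_mul_distrib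
    _ ≤ (∏ Y ∈ g.comps R W, E * (p.A ^ Y.card)⁻¹) * Wt g p.δ p.κ V Finset.univ φ :=
        mul_le_mul_of_nonneg_left ((rdo_Wt_prod g R p V hg hadm.κ_pos.le hsep W φ).trans hmono) (hc0 W)

/-- `Eter` at a real background only looks at real fields -/
theorem rdo_s3_eter_congr {G : Geom} (Γ : Matrix G.V G.V ℝ) (ω : ℝ) (q : ℤ) (Z Z' : Fn G) (c : ℂ) (Fb : G.V → ℝ)
    (h : ∀ φ : G.V → ℝ, Z (toC φ) = c * Z' (toC φ)) : Eter G Γ ω q Z (toC Fb) = c * Eter G Γ ω q Z' (toC Fb) := by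
  have h1 : ∀ θ : ℝ, conv Γ Z (fun v => toC Fb v + (θ : ℂ)) = c * conv Γ Z' (fun v => toC Fb v + (θ : ℂ)) := by
    intro θ
    unfold conv
    rw [← integral_const_mul]
    refine integral_congr_ae (ae_of_all _ fun ζ => ?_)
    have e : (fun v => toC Fb v + (θ : ℂ)) + toC ζ = toC (fun v => Fb v + θ + ζ v) := by
      funext v
      simp [toC]
    simp only [e, h]
  unfold Eter
  simp only [h1]
  have h2 : ∀ θ : ℝ, Complex.exp (-(Complex.I * q * ((2 * Real.pi / ω : ℝ) : ℂ) * θ)) * (c * conv Γ Z' (fun v => toC Fb v + (θ : ℂ)))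
      = c * (Complex.exp (-(Complex.I * q * ((2 * Real.pi / ω : ℝ) : ℂ) * θ)) * conv Γ Z' (fun v => toC Fb v + (θ : ℂ))) := by
    intro θ; ring
  simp only [h2]
  rw [intervalIntegral.integral_const_mul]
  ring

/-- `L-RDO-S3` **one step of the stopped identity** -/
theorem rdo_stop_step (hF : K.F = Fam.entry) (hω : 0 < K.p.ω) (hh : 0 < K.p.h0) (hA : 1 ≤ K.p.A) (hδ : 0 < K.p.δ) (hκ : 0 < K.p.κ)
    (j0 : ℕ) (cT : ℝ≥0) (ρ d1 Ce : ℝ) (hT : K.TowerOK 𝓡 j0) (hG : TermGeo K 𝓡 j0 cT)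
    (hch : ChainOK K 𝓡 j0 ρ d1 Ce) (j h : ℕ) (hj0 : j0 ≤ j) (hj : j < h) (X : (ℂ × ℂ) × K.To 𝓡 j h) (hX : ‖X‖ < ρ) (hz : K.cosOn = false → X.1.2 = 0) :
    ∃ cst : ℂ, cst ≠ 0 ∧ ∀ (q : ℤ) (w : ℝ), |w| ≤ 1 → EE K 𝓡 j h q X w = cst * EE K 𝓡 (j + 1) h q (nextT K 𝓡 j h hj X) w := by
  obtain ⟨cst, hc0, hex⟩ := hch.exact j h hj0 hj X (by simpa [Metric.mem_ball, dist_zero_right] using hX) hz
  refine ⟨cst, hc0, fun q w hw => ?_⟩
  have hSt := hT.step h j hj0 hj
  obtain ⟨Cs, hCs1, hdict⟩ := rdo_dict K.p.δ K.p.κ K.p.h0 K.p.A (Step.alpha K.p.ω) hδ hκ hh hA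
  have hD : DictOK K 𝓡 j h Cs := hdict K rfl rfl rfl rfl hω le_rfl 𝓡 j h
  have hA0 : 0 < K.p.A := lt_of_lt_of_le one_pos hA
  obtain ⟨C, hC0, hCb⟩ := rdo_s3_ZA_bd (K.s.lev h j) K.c.R K.p (𝓡.V h j) (K.s.lev_ok h j) hA0 hSt.admf
    (hG.sep h j hj0 hj.le) (Cs * ‖X‖) (by positivity)
  -- the covariances
  have hΓ := rdo_s3_term K hF j h
  have hΓ' := rdo_s3_term K hF (j + 1) h
  have hu : 1 ≤ K.s.L ^ j := Nat.pow_pos K.s.L_pos
  have hu' : 1 ≤ K.s.L ^ (j + 1) := Nat.pow_pos K.s.L_pos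
  have hS : (shell (K.s.T h) K.F (K.s.L ^ j) (K.s.L ^ (j + 1))).PosSemidef := hSt.shell.psd
  have hσ := rdo_s3_low0_le hSt.per K.F _ _ hu hu' _ _ hΓ hΓ' hS
  -- the partition functional at real fields
  have hc : Continuous fun φ : (K.s.T h).V → ℝ => Zlev K 𝓡 j h X (toC φ) := by
    rw [Zlev_eq]
    simp only [rdo_s3_ZA_apply]
    exact continuous_finsetSum _ fun W _ => continuous_finsetProd _ fun Y _ => hD.cont X Y
  have hper : ∀ φ : (K.s.T h).V → ℝ, Zlev K 𝓡 j h X (toC fun v => φ v + K.p.ω) = Zlev K 𝓡 j h X (toC φ) := by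
    intro φ
    rw [Zlev_eq, rdo_s3_ZA_apply, rdo_s3_ZA_apply]
    simp only [hD.per]
  have hZD : ∀ φ : (K.s.T h).V → ℝ, ‖Zlev K 𝓡 j h X (toC φ)‖
      ≤ C * Wt (K.s.lev h j) K.p.δ K.p.κ (𝓡.V h j) Finset.univ φ :=
    fun φ => hCb (Kst K 𝓡 j h X) (toC φ) φ fun Y => hD.bd X Y φ
  have hint : ∫⁻ ψ, ∫⁻ ζ, ENNReal.ofReal (C * Wt (K.s.lev h j) K.p.δ K.p.κ (𝓡.V h j) Finset.univ
      ((fun v => w * cos1 (K.s.T h) v) + ψ + ζ)) ∂(gauss (K.s.T h) (shell (K.s.T h) K.F (K.s.L ^ j) (K.s.L ^ (j + 1))))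
        ∂(gauss (K.s.T h) (Gge K (j + 1) h)) ≠ ⊤ := by
    have h1 : ∀ ψ : (K.s.T h).V → ℝ, ∫⁻ ζ, ENNReal.ofReal (C * Wt (K.s.lev h j) K.p.δ K.p.κ (𝓡.V h j) Finset.univ
        ((fun v => w * cos1 (K.s.T h) v) + ψ + ζ)) ∂(gauss (K.s.T h) (shell (K.s.T h) K.F (K.s.L ^ j) (K.s.L ^ (j + 1))))
        ≤ ENNReal.ofReal C * ((K.c.cst : ℝ≥0∞) ^ (Finset.univ : Finset (K.s.lev h j).I).card *
          ENNReal.ofReal (Wt (K.s.lev h (j + 1)) K.p.δ K.p.κ (𝓡.V h (j + 1)) Finset.univ fun v => ψ v + w * cos1 (K.s.T h) v)) := by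
      intro ψ
      simp only [ENNReal.ofReal_mul hC0]
      rw [lintegral_const_mul' _ _ ENNReal.ofReal_ne_top]
      have h2 := hSt.reg.main Finset.univ Finset.univ (Finset.subset_univ _) ((fun v => w * cos1 (K.s.T h) v) + ψ)
      have e : ((fun v => w * cos1 (K.s.T h) v) + ψ) = fun v => ψ v + w * cos1 (K.s.T h) v := by
        funext v; exact add_comm _ _
      rw [e] at h2 ⊢
      exact mul_le_mul_right h2 _
    refine ne_top_of_le_ne_top ?_ (lintegral_mono h1)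
    rw [lintegral_const_mul' _ _ ENNReal.ofReal_ne_top,
      lintegral_const_mul' _ _ (ENNReal.pow_ne_top ENNReal.coe_ne_top)]
    exact ENNReal.mul_ne_top ENNReal.ofReal_ne_top (ENNReal.mul_ne_top (ENNReal.pow_ne_top ENNReal.coe_ne_top)
      (rdo_int_ok K 𝓡 hF j0 cT hT hG (j + 1) h (by omega) hj Finset.univ w hw))
  -- one shell
  have hsh := rdo_eter_shell hSt.per K.F _ _ hu hu' _ _ hΓ hΓ' hS hσ K.p.ω hω q (Zlev K 𝓡 j h X) hc hper
    (fun φ => C * Wt (K.s.lev h j) K.p.δ K.p.κ (𝓡.V h j) Finset.univ φ)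
    (fun φ c => by simp only [Hol.Wt_add_const]) hZD (fun v => w * cos1 (K.s.T h) v) hint
  -- the exact identity of the step
  have hcg := rdo_s3_eter_congr (Gge K (j + 1) h) K.p.ω q
    (conv (shell (K.s.T h) K.F (K.s.L ^ j) (K.s.L ^ (j + 1))) (Zlev K 𝓡 j h X)) (Zlev K 𝓡 (j + 1) h (nextT K 𝓡 j h hj X)) cst
    (fun v => w * cos1 (K.s.T h) v)
    (fun φ => hex (toC φ) (rdo_s3_strip K.p.h0 hh _ _ _ fun v => Complex.ofReal_im _))
  rw [hsh] at hcg
  have ebg : bg (K.s.T h) w = toC fun v => w * cos1 (K.s.T h) v := rfl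
  unfold EE
  rw [ebg, mul_left_comm cst, ← hcg, ← mul_assoc, ← Complex.ofReal_mul]
  congr 2
  unfold hm aa Step.alpha
  rw [← Real.exp_add]
  congr 1
  have hM : ((K.s.T h).M : ℝ) ≠ 0 := by
    have := (K.s.T h).hM
    positivity
  field_simp
  ring

/-! ## PURE -/

/-- the terminal integral of the pure Gaussian interaction `exp (d ∑_B e_B^0/2)` under `C_{≥L^j}` -/
def uexp (j h : ℕ) (d : ℂ) (w : ℝ) : ℂ :=
  Eter (K.s.T h) (Gge K j h) K.p.ω 0
    (fun ζ => Complex.exp (∑ B : (K.s.lev h j).I, (d / 2 * eBC (K.s.lev h j) B ζ + 0 * cBC (K.s.lev h j) (Step.alpha K.p.ω) B ζ))) (bg _ w)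

/-! ### tools of `rdo_pure` (helper294) -/

section pure

variable {G : Geom}

/-- the real Dirichlet form -/
def rdoQ (G : Geom) (φ : G.V → ℝ) : ℝ := φ ⬝ᵥ (lap G).mulVec φ

theorem rdoQ_eq (φ : G.V → ℝ) : rdoQ G φ = (1 / 2) * ∑ v, ∑ e : Fin 4, (φ (Reg.regNb G v e) - φ v) ^ 2 :=
  Obs.ov_lap_form φ

theorem rdoQ_nonneg (φ : G.V → ℝ) : 0 ≤ rdoQ G φ := by
  rw [rdoQ_eq]
  have : 0 ≤ ∑ v, ∑ e : Fin 4, (φ (Reg.regNb G v e) - φ v) ^ 2 :=
    Finset.sum_nonneg fun v _ => Finset.sum_nonneg fun e _ => sq_nonneg _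
  positivity

theorem rdoQ_continuous : Continuous (rdoQ G) := by
  have : rdoQ G = fun φ => (1 / 2) * ∑ v, ∑ e : Fin 4, (φ (Reg.regNb G v e) - φ v) ^ 2 := funext rdoQ_eq
  rw [this]
  fun_prop

/-- the sum of the singletons `e_B^0` on a real field -/
theorem rdo_pure_sum (g : Grid G) (φ : G.V → ℝ) : ∑ B : g.I, eBC g B (fun v => (φ v : ℂ)) = (rdoQ G φ : ℂ) := by
  have h1 := Reg.reg_sites_sum (g := g) Finset.univ
    (fun v => ∑ e : Fin 4, dif (dir e) (G.lift fun v => (φ v : ℂ)) (G.ι v) ^ 2)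
  have h2 : g.sites Finset.univ = Finset.univ := by
    ext v; simp [Reg.reg_mem_sites]
  rw [h2] at h1
  unfold eBC
  rw [← Finset.mul_sum, ← h1, rdoQ_eq]
  simp only [Reg.reg_dif_lift]
  push_cast
  rfl

/-- expansion of the Dirichlet form around the first cosine; constants are invisible -/
theorem rdo_pure_expand (hG : G.bc = BC.per) (w θ : ℝ) (ζ : G.V → ℝ) :
    rdoQ G (fun v => w * cos1 G v + θ + ζ v)
      = w ^ 2 * (cos1 G ⬝ᵥ (lap G).mulVec (cos1 G)) + 2 * w * lam1 G.M * (cos1 G ⬝ᵥ ζ) + rdoQ G ζ := by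
  have hq : (lap G).mulVec (cos1 G) = lam1 G.M • cos1 G := rdo_lap_cos hG
  have h1 : (lap G).mulVec (fun _ => (1 : ℝ)) = 0 := Ker.ker_lap_mulVec_one G
  have hs : ∀ a b : G.V → ℝ, a ⬝ᵥ (lap G).mulVec b = (lap G).mulVec a ⬝ᵥ b := by
    intro a b
    rw [Matrix.dotProduct_mulVec, ← Matrix.mulVec_transpose, rdo_lap_symm]
  have e : (fun v => w * cos1 G v + θ + ζ v) = w • cos1 G + θ • (fun _ => (1 : ℝ)) + ζ := by
    funext v; simp
  unfold rdoQ
  rw [e]
  simp only [Matrix.mulVec_add, Matrix.mulVec_smul, h1, smul_zero, add_zero, add_dotProduct, dotProduct_add,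
    smul_dotProduct, dotProduct_smul, smul_eq_mul]
  rw [hs (fun _ => (1 : ℝ)) (cos1 G), hs (fun _ => (1 : ℝ)) ζ, h1, hs (cos1 G) ζ, hq]
  simp only [zero_dotProduct, smul_dotProduct, dotProduct_smul, smul_eq_mul, mul_zero, add_zero]
  rw [dotProduct_comm ζ (cos1 G)]
  ring

/-- exponential integrability of the Dirichlet form under a covariance with bounded gradient -/
theorem rdo_pure_lint (C : ℝ) (m : ℕ) (Γ : Matrix G.V G.V ℝ) (hΓ : Reg.FlucOK G C m Γ) (b : G.V → ℝ) (t c : ℝ) (hc : 0 ≤ c)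
    (hs : 16 * c * C ≤ 1) :
    ∫⁻ ζ, ENNReal.ofReal (Real.exp (t * (b ⬝ᵥ ζ) + c * rdoQ G ζ)) ∂(gauss G Γ) ≠ ⊤ := by
  have hop : ∀ u : Fin 4 × G.V → ℝ, Reg.regQf Γ (∑ k, u k • (fun k : Fin 4 × G.V => Reg.regRow G ![k.1] k.2) k) ≤ (4 * C) * ∑ k, u k ^ 2 := by
    intro u
    rw [Fintype.sum_prod_type (f := fun k : Fin 4 × G.V => u k • (fun k : Fin 4 × G.V => Reg.regRow G ![k.1] k.2) k),
      Fintype.sum_prod_type (f := fun k : Fin 4 × G.V => u k ^ 2)]
    refine (Reg.reg_qf_sum_le hΓ.psd Finset.univ _).trans ?_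
    simp only [Finset.card_univ, Fintype.card_fin, Nat.cast_ofNat]
    rw [mul_assoc]
    refine mul_le_mul_of_nonneg_left ?_ (by norm_num : (0 : ℝ) ≤ 4)
    rw [Finset.mul_sum]
    refine Finset.sum_le_sum fun e _ => ?_
    rw [Reg.reg_row_qf]
    refine (hΓ.grad 1 le_rfl (by norm_num) ![e] _).trans (le_of_eq ?_)
    simp
  have key := Reg.reg_gauss_comb hΓ.psd b (fun k : Fin 4 × G.V => Reg.regRow G ![k.1] k.2) (Λ := 4 * C)
    (τ := ∑ k : Fin 4 × G.V, Reg.regQf Γ (Reg.regRow G ![k.1] k.2)) (c := c / 2) t hop le_rfl (by positivity) (by linarith)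
  have e : ∀ ζ : G.V → ℝ, c * rdoQ G ζ = c / 2 * ∑ k : Fin 4 × G.V, (Reg.regRow G ![k.1] k.2 ⬝ᵥ ζ) ^ 2 := by
    intro ζ
    rw [rdoQ_eq, Fintype.sum_prod_type (f := fun k : Fin 4 × G.V => (Reg.regRow G ![k.1] k.2 ⬝ᵥ ζ) ^ 2), Finset.sum_comm]
    simp only [Reg.reg_row_dot, Reg.reg_difs_one, Reg.reg_dif_lift]
    ring
  simp_rw [e]
  exact ne_top_of_le_ne_top ENNReal.ofReal_ne_top key

theorem rdo_pure_integrable (C : ℝ) (m : ℕ) (Γ : Matrix G.V G.V ℝ) (hΓ : Reg.FlucOK G C m Γ) (b : G.V → ℝ) (t c : ℝ) (hc : 0 ≤ c)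
    (hs : 16 * c * C ≤ 1) : Integrable (fun ζ => Real.exp (t * (b ⬝ᵥ ζ) + c * rdoQ G ζ)) (gauss G Γ) := by
  have hcont : Continuous fun ζ : G.V → ℝ => Real.exp (t * (b ⬝ᵥ ζ) + c * rdoQ G ζ) :=
    Real.continuous_exp.comp (((Hol.dot_continuous b).const_mul t |>.add (rdoQ_continuous.const_mul c)))
  refine ⟨hcont.aestronglyMeasurable, ?_⟩
  rw [hasFiniteIntegral_iff_ofReal (Eventually.of_forall fun ζ => (Real.exp_pos _).le)]
  exact lt_top_iff_ne_top.2 (rdo_pure_lint C m Γ hΓ b t c hc hs)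


/-- second derivative at `0` of `e^{b z²} v (a z)` -/
theorem rdo_pure_deriv (v : ℂ → ℂ) (hv : Differentiable ℂ v) (a b : ℂ) :
    iteratedDeriv 2 (fun z : ℂ => Complex.exp (b * z ^ 2) * v (a * z)) 0 = 2 * b * v 0 + a ^ 2 * iteratedDeriv 2 v 0 := by
  have hv' : Differentiable ℂ (deriv v) := fun z =>
    ((hv.differentiableOn (s := Set.univ)).deriv isOpen_univ).differentiableAt (isOpen_univ.mem_nhds (Set.mem_univ z))
  have dv : ∀ z, HasDerivAt v (deriv v z) z := fun z => (hv z).hasDerivAt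
  have dv' : ∀ z, HasDerivAt (deriv v) (deriv (deriv v) z) z := fun z => (hv' z).hasDerivAt
  have dl : ∀ z : ℂ, HasDerivAt (fun z : ℂ => a * z) a z := fun z => by
    simpa using (hasDerivAt_id z).const_mul a
  have dq : ∀ z : ℂ, HasDerivAt (fun z : ℂ => b * z ^ 2) (b * (2 * z)) z := fun z => by
    have := ((hasDerivAt_id z).pow 2).const_mul b
    simpa using this
  have de : ∀ z : ℂ, HasDerivAt (fun z : ℂ => Complex.exp (b * z ^ 2)) (Complex.exp (b * z ^ 2) * (b * (2 * z))) z :=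
    fun z => (dq z).cexp
  have dV : ∀ z : ℂ, HasDerivAt (fun z : ℂ => v (a * z)) (deriv v (a * z) * a) z := fun z =>
    HasDerivAt.comp z (dv (a * z)) (dl z)
  have dV' : ∀ z : ℂ, HasDerivAt (fun z : ℂ => deriv v (a * z)) (deriv (deriv v) (a * z) * a) z := fun z =>
    HasDerivAt.comp z (dv' (a * z)) (dl z)
  have d1 : ∀ z : ℂ, HasDerivAt (fun z : ℂ => Complex.exp (b * z ^ 2) * v (a * z))
      (Complex.exp (b * z ^ 2) * (b * (2 * z)) * v (a * z) + Complex.exp (b * z ^ 2) * (deriv v (a * z) * a)) z :=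
    fun z => (de z).mul (dV z)
  have e1 : deriv (fun z : ℂ => Complex.exp (b * z ^ 2) * v (a * z))
      = fun z => Complex.exp (b * z ^ 2) * (b * (2 * z)) * v (a * z) + Complex.exp (b * z ^ 2) * (deriv v (a * z) * a) :=
    funext fun z => (d1 z).deriv
  have dz : HasDerivAt (fun z : ℂ => b * (2 * z)) (b * 2) 0 := by
    simpa using ((hasDerivAt_id (0 : ℂ)).const_mul 2).const_mul b
  have d2 := (((de 0).mul dz).mul (dV 0)).add ((de 0).mul ((dV' 0).mul_const a))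
  rw [iteratedDeriv_succ, iteratedDeriv_one, e1, iteratedDeriv_succ, iteratedDeriv_one]
  refine d2.deriv.trans ?_
  simp
  ring


/-- **the exact Gaussian response**, abstract form -/
theorem rdo_pure_abs (hG : G.bc = BC.per) (hM : 2 ≤ G.M) (F : Fam) (u : ℕ) (Γ : Matrix G.V G.V ℝ) (hΓ : IsTerminal G F u Γ)
    (C : ℝ) (m : ℕ) (hfl : Reg.FlucOK G C m Γ) (p : ℝ) (hp : p = (F.termP u).eval (lam1 G.M)) (hp0 : 0 ≤ p) (hp1 : p ≤ 1)
    (kV : ℝ) (hkV : kV = cos1 G ⬝ᵥ (lap G).mulVec (cos1 G))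
    (d : ℂ) (hd : 8 * ‖d‖ * C ≤ 1) (hd1 : ‖d‖ < 1) (U : ℝ → ℂ)
    (hU : ∀ w : ℝ, U w = ∫ ζ, Complex.exp (d / 2 * ((w ^ 2 * kV + 2 * w * lam1 G.M * (cos1 G ⬝ᵥ ζ) + rdoQ G ζ : ℝ) : ℂ)) ∂(gauss G Γ)) :
    iteratedDeriv 2 U 0 * (1 - p * d) = kV * d * U 0 := by
  set q := cos1 G with hq
  set lam := lam1 G.M with hlam
  have hlam0 : 0 < lam := rdo_lam1_pos _ hM
  have hlamC : (lam : ℂ) ≠ 0 := by exact_mod_cast hlam0.ne'
  set N : ℝ := q ⬝ᵥ q with hN
  have hAq : (lap G).mulVec q = lam • q := rdo_lap_cos hG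
  have hkN : kV = lam * N := by rw [hkV, hAq, dotProduct_smul, smul_eq_mul]
  have hΓq : Γ.mulVec q = (p / lam) • q := by
    have h := rdo_term_eig hG hM F u Γ hΓ
    funext v
    have hv : lam * Γ.mulVec q v = p * q v := by rw [hp]; exact congrFun h v
    rw [Pi.smul_apply, smul_eq_mul]
    field_simp
    linarith
  set γ := gauss G Γ with hγ
  set Φ : (G.V → ℝ) → ℂ := fun ζ => Complex.exp (d / 2 * (rdoQ G ζ : ℂ)) with hΦ
  set l : (G.V → ℝ) → ℝ := fun ζ => q ⬝ᵥ ζ with hl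
  have hlc : Continuous l := Hol.dot_continuous q
  have hΦc : Continuous Φ := by
    rw [hΦ]
    exact Complex.continuous_exp.comp (continuous_const.mul (Complex.continuous_ofReal.comp rdoQ_continuous))
  have hΦn : ∀ ζ, ‖Φ ζ‖ ≤ Real.exp (‖d‖ / 2 * rdoQ G ζ) := by
    intro ζ
    simp only [hΦ]
    rw [Complex.norm_exp]
    apply Real.exp_le_exp.2
    have e : (d / 2 * (rdoQ G ζ : ℂ)).re = d.re / 2 * rdoQ G ζ := by
      rw [Complex.re_mul_ofReal]
      congr 1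
      have : d / 2 = d * ((1 / 2 : ℝ) : ℂ) := by push_cast; ring
      rw [this, Complex.re_mul_ofReal]; ring
    rw [e]
    have := Complex.re_le_norm d
    have h0 := rdoQ_nonneg (G := G) ζ
    gcongr
  have hint : ∀ ε : ℝ, Integrable (fun ζ => ‖Φ ζ‖ * Real.exp (ε * |l ζ|)) γ := by
    intro ε
    have i1 := rdo_pure_integrable C m Γ hfl q ε (‖d‖ / 2) (by positivity) (by linarith)
    have i2 := rdo_pure_integrable C m Γ hfl q (-ε) (‖d‖ / 2) (by positivity) (by linarith)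
    refine (i1.add i2).mono' ?_ (Eventually.of_forall fun ζ => ?_)
    · exact (hΦc.norm.mul (Real.continuous_exp.comp (continuous_const.mul hlc.abs))).aestronglyMeasurable
    · rw [Real.norm_of_nonneg (by positivity)]
      have h1 : Real.exp (ε * |l ζ|) ≤ Real.exp (ε * l ζ) + Real.exp (-ε * l ζ) := by
        rcases abs_choice (l ζ) with h | h
        · rw [h]; linarith [Real.exp_pos (-ε * l ζ)]
        · rw [h]
          have : ε * -l ζ = -ε * l ζ := by ring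
          rw [this]; linarith [Real.exp_pos (ε * l ζ)]
      calc ‖Φ ζ‖ * Real.exp (ε * |l ζ|) ≤ Real.exp (‖d‖ / 2 * rdoQ G ζ) * (Real.exp (ε * l ζ) + Real.exp (-ε * l ζ)) := by
            gcongr
            exact hΦn ζ
        _ = _ := by
            simp only [Pi.add_apply, Real.exp_add]
            ring
  set v : ℂ → ℂ := fun s => ∫ ζ, Φ ζ * Complex.exp (s * l ζ) ∂γ with hvdef
  have hv : Differentiable ℂ v := by
    intro z
    have h := (rdo_mgf γ Φ l (‖z‖ + 1) (by positivity) hΦc.aestronglyMeasurable hlc.aemeasurable (hint _)).1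
    exact h.differentiableAt (Metric.isOpen_ball.mem_nhds (by simp))
  -- the response in terms of `v`
  have hUv : ∀ w : ℝ, U w = Complex.exp (d * kV / 2 * (w : ℂ) ^ 2) * v (d * lam * w) := by
    intro w
    rw [hU w]
    simp only [hvdef]
    rw [← integral_const_mul]
    refine integral_congr_ae (Eventually.of_forall fun ζ => ?_)
    simp only [hΦ, hl]
    rw [← Complex.exp_add, ← Complex.exp_add]
    congr 1
    push_cast
    ring
  -- Cameron-Martin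
  have hfe : ∀ s : ℝ, v s = Complex.exp (((p * N / (2 * lam) : ℝ) : ℂ) * (1 + d * p) * (s : ℂ) ^ 2) * v (d * p * s) := by
    intro s
    have CM := Hol.gauss_shift_integral Γ hΓ.psd (s • q) Φ
    have e1 : ∀ ζ : G.V → ℝ, Φ (ζ + Γ.mulVec (s • q))
        = Complex.exp (d / 2 * (((s * p / lam) ^ 2 * kV + 2 * (s * p / lam) * lam * (q ⬝ᵥ ζ) + rdoQ G ζ : ℝ) : ℂ)) := by
      intro ζ
      have e2 : ζ + Γ.mulVec (s • q) = fun x => (s * p / lam) * cos1 G x + 0 + ζ x := by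
        funext x
        rw [Matrix.mulVec_smul, hΓq]
        simp only [Pi.add_apply, Pi.smul_apply, smul_eq_mul]
        ring
      simp only [hΦ]
      rw [e2, rdo_pure_expand hG, ← hkV]
    have e3 : ∀ ζ : G.V → ℝ, Real.exp ((s • q) ⬝ᵥ ζ - ((s • q) ⬝ᵥ Γ.mulVec (s • q)) / 2) • Φ ζ
        = Complex.exp (-((s ^ 2 * (p * N / (2 * lam)) : ℝ) : ℂ)) * (Φ ζ * Complex.exp (s * l ζ)) := by
      intro ζ
      have hA : (s • q) ⬝ᵥ ζ - ((s • q) ⬝ᵥ Γ.mulVec (s • q)) / 2 = s * l ζ + -(s ^ 2 * (p * N / (2 * lam))) := by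
        rw [Matrix.mulVec_smul, hΓq]
        simp only [smul_dotProduct, dotProduct_smul, smul_eq_mul, hl, ← hN]
        field_simp
        ring
      rw [hA, Complex.real_smul, Complex.ofReal_exp, Complex.ofReal_add, Complex.exp_add, Complex.ofReal_neg, Complex.ofReal_mul]
      ring
    simp_rw [e1, e3] at CM
    rw [← hU, hUv, integral_const_mul] at CM
    have e4 : d * lam * ((s * p / lam : ℝ) : ℂ) = d * p * s := by
      push_cast
      field_simp
    rw [e4] at CM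
    have e5 : v s = Complex.exp (((s ^ 2 * (p * N / (2 * lam)) : ℝ) : ℂ)) *
        (Complex.exp (-((s ^ 2 * (p * N / (2 * lam)) : ℝ) : ℂ)) * v s) := by
      rw [← mul_assoc, ← Complex.exp_add, add_neg_cancel, Complex.exp_zero, one_mul]
    rw [e5]
    have : (∫ ζ, Φ ζ * Complex.exp (s * l ζ) ∂γ) = v s := rfl
    rw [this] at CM
    rw [← CM, ← mul_assoc, ← Complex.exp_add]
    congr 2
    rw [hkN]
    push_cast
    field_simp
  have hκn : ‖d * p‖ < 1 := by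
    rw [norm_mul, Complex.norm_real, Real.norm_of_nonneg hp0]
    calc ‖d‖ * p ≤ ‖d‖ * 1 := by gcongr
      _ < 1 := by linarith
  have hκ1 : d * p ≠ 1 := by
    intro h
    rw [h, norm_one] at hκn
    exact lt_irrefl _ hκn
  have hκm1 : d * p ≠ -1 := by
    intro h
    rw [h, norm_neg, norm_one] at hκn
    exact lt_irrefl _ hκn
  have hκ : (d * p) ^ 2 ≠ 1 := by
    intro h
    rw [sq] at h
    rcases mul_self_eq_one_iff.1 h with h | h
    · exact hκ1 h
    · exact hκm1 h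
  obtain ⟨-, h2⟩ := rdo_fun_eq v hv _ (d * p) hκ hκ1 hfe
  have hFz : Differentiable ℂ fun z : ℂ => Complex.exp (d * kV / 2 * z ^ 2) * v (d * lam * z) := by
    have : Differentiable ℂ fun z : ℂ => v (d * lam * z) := hv.comp (by fun_prop)
    exact (by fun_prop : Differentiable ℂ fun z : ℂ => Complex.exp (d * kV / 2 * z ^ 2)).mul this
  have h3 := (rdo_real_deriv _ 1 one_pos hFz.differentiableOn).2
  have hUF : U = fun w : ℝ => Complex.exp (d * kV / 2 * (w : ℂ) ^ 2) * v (d * lam * w) := funext hUv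
  have hU0 : U 0 = v 0 := by
    rw [hUv]; simp
  rw [hU0, hUF, h3, rdo_pure_deriv v hv, h2, hkN]
  have h4 : (1 : ℂ) - d ^ 2 * (p : ℂ) ^ 2 ≠ 0 := by
    rw [← mul_pow]; exact sub_ne_zero.2 (Ne.symm hκ)
  push_cast
  field_simp
  ring

end pure

theorem rdo_pure_uexp (K : Cfg) (hω : 0 < K.p.ω) (j h : ℕ) (d : ℂ) (w : ℝ) :
    uexp K j h d w = ∫ ζ, Complex.exp (d / 2 * ((w ^ 2 * K.kV h + 2 * w * lam1 (K.s.T h).M * (cos1 (K.s.T h) ⬝ᵥ ζ) + rdoQ (K.s.T h) ζ : ℝ) : ℂ))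
      ∂(gauss (K.s.T h) (Gge K j h)) := by
  have hG : (K.s.T h).bc = BC.per := rfl
  have key : ∀ θ : ℝ, conv (Gge K j h) (fun ζ => Complex.exp (∑ B : (K.s.lev h j).I,
        (d / 2 * eBC (K.s.lev h j) B ζ + 0 * cBC (K.s.lev h j) (Step.alpha K.p.ω) B ζ))) (fun v => bg _ w v + (θ : ℂ))
      = ∫ ζ, Complex.exp (d / 2 * ((w ^ 2 * K.kV h + 2 * w * lam1 (K.s.T h).M * (cos1 (K.s.T h) ⬝ᵥ ζ) + rdoQ (K.s.T h) ζ : ℝ) : ℂ))
        ∂(gauss (K.s.T h) (Gge K j h)) := by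
    intro θ
    unfold conv
    refine integral_congr_ae (Eventually.of_forall fun ζ => ?_)
    have hx : (fun v => bg (K.s.T h) w v + (θ : ℂ)) + toC ζ = fun v => ((w * cos1 (K.s.T h) v + θ + ζ v : ℝ) : ℂ) := by
      funext v
      simp only [Pi.add_apply, bg, toC]
      push_cast
      ring
    show Complex.exp (∑ B : (K.s.lev h j).I, (d / 2 * eBC (K.s.lev h j) B ((fun v => bg (K.s.T h) w v + (θ : ℂ)) + toC ζ)
      + 0 * cBC (K.s.lev h j) (Step.alpha K.p.ω) B ((fun v => bg (K.s.T h) w v + (θ : ℂ)) + toC ζ))) = _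
    rw [hx]
    simp only [zero_mul, add_zero, ← Finset.mul_sum]
    rw [rdo_pure_sum (K.s.lev h j) (fun v => w * cos1 (K.s.T h) v + θ + ζ v), rdo_pure_expand hG]
    rfl
  unfold uexp Eter
  simp_rw [key]
  have hωC : (K.p.ω : ℂ) ≠ 0 := by exact_mod_cast hω.ne'
  simp only [Int.cast_zero, mul_zero, zero_mul, neg_zero, Complex.exp_zero, one_mul, intervalIntegral.integral_const, sub_zero,
    Complex.real_smul]
  rw [← mul_assoc]
  push_cast
  field_simp

/-- `L-RDO-U1` **the exact Gaussian response**, complex coefficient `d`, multiplicative form -/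
theorem rdo_pure : ∃ dst : ℝ, 0 < dst ∧ ∀ K : Cfg, K.F = Fam.entry → 0 < K.p.ω → 2 ≤ K.s.D0 → ∀ j h : ℕ, j ≤ h → ∀ d : ℂ, ‖d‖ < dst →
    iteratedDeriv 2 (uexp K j h d) 0 * (1 - pG K j h * d) = K.kV h * d * uexp K j h d 0 := by
  obtain ⟨C, hC⟩ := Ker.terminal_bounds 1 1 64 0
  have hC1 : (0 : ℝ) < max C 1 := lt_of_lt_of_le one_pos (le_max_right _ _)
  refine ⟨min 1 (1 / (8 * max C 1)), by positivity, ?_⟩
  intro K hF hω hD j h hjh d hd
  have hG : (K.s.T h).bc = BC.per := rfl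
  have hGM : (K.s.T h).M = K.s.D0 * K.s.L ^ h := rfl
  have hu : 1 ≤ K.s.L ^ j := Nat.one_le_pow _ _ K.s.L_pos
  have h2u : 2 * K.s.L ^ j ≤ (K.s.T h).M := by
    rw [hGM]; exact Nat.mul_le_mul hD (Nat.pow_le_pow_right K.s.L_pos hjh)
  have hM : 2 ≤ (K.s.T h).M := by omega
  have hΓ : IsTerminal (K.s.T h) Fam.entry (K.s.L ^ j) (Gge K j h) := by
    have hex := Ker.ker_exists_terminal (K.s.T h) Fam.entry Ker.ker_entry_adm (K.s.L ^ j) hu
    unfold Gge termCov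
    rw [hF, dif_pos hex]
    exact hex.choose_spec
  have hTB := hC (K.s.T h) Fam.entry Ker.ker_entry_adm (by norm_num [Fam.entry]) _ hu h2u _ hΓ
  have hfl := Reg.reg_fluc_of_term hΓ.psd hTB
  have hp : pG K j h = (Fam.entry.termP (K.s.L ^ j)).eval (lam1 (K.s.T h).M) := by unfold pG; rw [hF]
  have hl0 : 0 ≤ lam1 (K.s.T h).M := (rdo_lam1_pos _ hM).le
  have hl8 : lam1 (K.s.T h).M ≤ 8 := by
    unfold lam1
    have := Real.sin_sq_le_one (Real.pi / (K.s.T h).M)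
    linarith
  have hpq : pG K j h = Ker.qq 64 (K.s.L ^ j) (lam1 (K.s.T h).M) := by
    rw [hp, Ker.ker_termP_eval]
    simp [Fam.entry]
  have hp0 : 0 ≤ pG K j h := by rw [hpq]; exact Ker.ker_qq_nonneg _ _ _
  have hp1 : pG K j h ≤ 1 := by rw [hpq]; exact Ker.ker_qq_le_one 64 (by norm_num) _ hu _ hl0 hl8
  have hd1 : ‖d‖ < 1 := lt_of_lt_of_le hd (min_le_left _ _)
  have hd2 : 8 * ‖d‖ * max C 1 ≤ 1 := by
    have := (lt_of_lt_of_le hd (min_le_right _ _)).le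
    rw [le_div_iff₀ (by positivity)] at this
    linarith
  exact rdo_pure_abs hG hM Fam.entry _ _ hΓ (max C 1) _ hfl (pG K j h) hp hp0 hp1 (K.kV h) rfl d hd2 hd1 (uexp K j h d)
    (rdo_pure_uexp K hω j h d)

end

end Claimed.Agent.R285.Rdo
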