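import Claimed.Agent.R285.Rdo.Defs
import Claimed.Agent.R285.Ker.Ext

/-!
# ROW 285, unit READOUT, leaf `L-RDO-S1`: kernel algebra on the torus                      (helper278; statements of architect helper16, moved here VERBATIM from `Rdo/Stop.lean`)

This file sits BELOW `Rdo/Term.lean` (which needs `rdo_term_eig`); `Rdo/Stop.lean` sees it through `Rdo/Term.lean`.  No sorry.
* `rdo_lap_cos`, `rdo_lap_ker`, `rdo_term_eig` : the first cosine is an eigenvector of the Laplacian and of the terminal covariances.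
* `rdo_ker_split`, `rdo_ker_split_low` : splitting of the covariances as identities of matrices (ANY family `F`, no admissibility).
* extras: `rdo_cov_eig`, `rdo_cos_mean`, `rdo_lam1_pos`, `rdo_term_eta` (`Γ ((λ₁/p) q_n) = q_n`).
-/

set_option autoImplicit false

namespace Claimed.Agent.R285.Rdo

open scoped BigOperators ENNReal NNReal
open MeasureTheory ProbabilityTheory Polynomial Filter Topology
open Claimed.Agent.R285 Claimed.Agent.R285.RG Claimed.Agent.R285.B8 Claimed.Agent.R285.F4a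

noncomputable section

variable {G : Geom}

/-- the matrix `𝟙𝟙ᵀ` -/
def Jm (G : Geom) : Matrix G.V G.V ℝ := Matrix.of fun _ _ => 1

/-! ## the Laplacian on the first cosine -/

/-- the Laplacian as a sum over the four neighbours -/
theorem rdo_lap_mulVec (G : Geom) (u : G.V → ℝ) (v : G.V) :
    (lap G).mulVec u v = ∑ e : Fin 4, (u v - u (G.π (G.ι v + dir e))) := by
  unfold Matrix.mulVec dotProduct lap
  simp only [Finset.sum_mul, sub_mul, ite_mul, one_mul, zero_mul]
  rw [Finset.sum_comm]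
  refine Finset.sum_congr rfl fun e _ => ?_
  rw [Finset.sum_sub_distrib]
  simp

/-- the first cosine at a folded point of the torus -/
theorem rdo_cos_fold (G : Geom) (hG : G.bc = BC.per) (x : ℤ) :
    Real.cos (2 * Real.pi * ((G.fold x : ℕ) : ℝ) / G.M) = Real.cos (2 * Real.pi * (x : ℝ) / G.M) := by
  have hM : (0 : ℤ) < G.M := by exact_mod_cast G.hM
  have hM' : (G.M : ℝ) ≠ 0 := by exact_mod_cast G.hM.ne'
  have h1 : ((G.fold x : ℕ) : ℤ) = x % G.M := by
    unfold Geom.fold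
    rw [hG]
    exact Int.toNat_of_nonneg (Int.emod_nonneg x hM.ne')
  have h2 : (x : ℝ) = ((G.fold x : ℕ) : ℝ) + (G.M : ℝ) * ((x / G.M : ℤ) : ℝ) := by
    have := Int.emod_add_mul_ediv x G.M
    rw [← h1] at this
    exact_mod_cast this.symm
  have h3 : 2 * Real.pi * (x : ℝ) / G.M = 2 * Real.pi * ((G.fold x : ℕ) : ℝ) / G.M + ((x / G.M : ℤ) : ℝ) * (2 * Real.pi) := by
    rw [h2]
    field_simp
  rw [h3, Real.cos_add_int_mul_two_pi]

/-- `L-RDO-S1` the first cosine is an eigenvector of the Laplacian -/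
theorem rdo_lap_cos (hG : G.bc = BC.per) : (lap G).mulVec (cos1 G) = fun v => lam1 G.M * cos1 G v := by
  funext v
  have hM' : (G.M : ℝ) ≠ 0 := by exact_mod_cast G.hM.ne'
  rw [rdo_lap_mulVec, Fin.sum_univ_four]
  have c0 : cos1 G (G.π (G.ι v + dir 0)) = Real.cos (2 * Real.pi * (v.1 : ℕ) / G.M + 2 * (Real.pi / G.M)) := by
    show Real.cos (2 * Real.pi * ((G.fold (((v.1 : ℕ) : ℤ) + 1) : ℕ) : ℝ) / G.M) = _
    rw [rdo_cos_fold G hG]
    congr 1
    push_cast
    field_simp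
  have c1 : cos1 G (G.π (G.ι v + dir 1)) = Real.cos (2 * Real.pi * (v.1 : ℕ) / G.M - 2 * (Real.pi / G.M)) := by
    show Real.cos (2 * Real.pi * ((G.fold (((v.1 : ℕ) : ℤ) + -1) : ℕ) : ℝ) / G.M) = _
    rw [rdo_cos_fold G hG]
    congr 1
    push_cast
    field_simp
    ring
  have c2 : cos1 G (G.π (G.ι v + dir 2)) = cos1 G v := by
    show Real.cos (2 * Real.pi * ((G.fold (((v.1 : ℕ) : ℤ) + 0) : ℕ) : ℝ) / G.M) = _
    rw [rdo_cos_fold G hG]
    unfold cos1
    congr 1
  have c3 : cos1 G (G.π (G.ι v + dir 3)) = cos1 G v := by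
    show Real.cos (2 * Real.pi * ((G.fold (((v.1 : ℕ) : ℤ) + 0) : ℕ) : ℝ) / G.M) = _
    rw [rdo_cos_fold G hG]
    unfold cos1
    congr 1
  rw [c0, c1, c2, c3, Real.cos_add, Real.cos_sub, Real.cos_two_mul]
  unfold cos1 lam1
  have := Real.sin_sq_add_cos_sq (Real.pi / G.M)
  have e : Real.cos (Real.pi / G.M) ^ 2 = 1 - Real.sin (Real.pi / G.M) ^ 2 := by linarith
  rw [e]
  ring

/-- `L-RDO-S1` the kernel of the Laplacian of the torus -/
theorem rdo_lap_ker (hG : G.bc = BC.per) (f : G.V → ℝ) (hf : (lap G).mulVec f = 0) : ∀ v w, f v = f w :=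
  fun v w => Ker.ker_lap_ker G f hf v w

theorem rdo_lam1_pos (n : ℕ) (hn : 2 ≤ n) : 0 < lam1 n := by
  unfold lam1
  have hn' : (2 : ℝ) ≤ n := by exact_mod_cast hn
  have h1 : 0 < Real.pi / n := by positivity
  have h2 : Real.pi / n < Real.pi := by
    rw [div_lt_iff₀ (by linarith)]
    nlinarith [Real.pi_pos]
  have := Real.sin_pos_of_pos_of_lt_pi h1 h2
  positivity

/-! ## polynomial calculus on eigenvectors -/

theorem rdo_pow_eig (A : Matrix G.V G.V ℝ) (f : G.V → ℝ) (l : ℝ) (h : A.mulVec f = l • f) (n : ℕ) :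
    (A ^ n).mulVec f = l ^ n • f := by
  induction n with
  | zero => simp
  | succ n ih => rw [pow_succ, ← Matrix.mulVec_mulVec, h, Matrix.mulVec_smul, ih, smul_smul, pow_succ, mul_comm]

/-- a polynomial of the Laplacian on an eigenvector -/
theorem rdo_cov_eig (P : ℝ[X]) (f : G.V → ℝ) (l : ℝ) (h : (lap G).mulVec f = l • f) : (cov G P).mulVec f = P.eval l • f := by
  unfold cov
  rw [Polynomial.aeval_eq_sum_range, Polynomial.eval_eq_sum_range, Matrix.sum_mulVec, Finset.sum_smul]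
  refine Finset.sum_congr rfl fun n _ => ?_
  rw [Matrix.smul_mulVec, rdo_pow_eig _ f l h, smul_smul]

theorem rdo_lap_symm (G : Geom) : (lap G).transpose = lap G := Ker.ker_mul_symm (Ker.ker_lap_mul G)

theorem rdo_cov_symm (G : Geom) (P : ℝ[X]) : (cov G P).transpose = cov G P := Ker.ker_mul_symm (Ker.ker_cov_mul G P)

theorem rdo_cov_one (G : Geom) (P : ℝ[X]) : (cov G P).mulVec (fun _ => 1) = fun _ => P.eval 0 := by
  have h := rdo_cov_eig (G := G) P (fun _ => 1) 0 (by rw [Ker.ker_lap_mulVec_one, zero_smul])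
  rw [h]
  funext v
  simp

theorem rdo_card (G : Geom) : ∑ _v : G.V, (1 : ℝ) = (G.M : ℝ) ^ 2 := by
  simp [Fintype.card_prod, sq]

theorem rdo_M_sq_pos (G : Geom) : (0 : ℝ) < (G.M : ℝ) ^ 2 := by
  have := G.hM
  positivity

/-- the first cosine has mean zero -/
theorem rdo_cos_mean (hG : G.bc = BC.per) (hM : 2 ≤ G.M) : ∑ v, cos1 G v = 0 := by
  have h1 : (fun _ => (1 : ℝ)) ⬝ᵥ (lap G).mulVec (cos1 G) = 0 := by
    rw [Matrix.dotProduct_mulVec, ← Matrix.mulVec_transpose, rdo_lap_symm, Ker.ker_lap_mulVec_one, zero_dotProduct]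
  rw [rdo_lap_cos hG] at h1
  simp only [dotProduct, one_mul, ← Finset.mul_sum] at h1
  rcases mul_eq_zero.1 h1 with h | h
  · exact absurd h (rdo_lam1_pos _ hM).ne'
  · exact h

/-- a symmetric matrix which kills the constants and maps mean-zero fields to harmonic fields vanishes (as in `Ker.ker_terminal_unique`) -/
theorem rdo_sym_zero (E : Matrix G.V G.V ℝ) (hsym : E.transpose = E) (hone : E.mulVec (fun _ => 1) = 0)
    (hlap : ∀ f : G.V → ℝ, ∑ v, f v = 0 → (lap G).mulVec (E.mulVec f) = 0) : E = 0 := by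
  have hM := rdo_M_sq_pos G
  have hzero : ∀ f : G.V → ℝ, ∑ v, f v = 0 → E.mulVec f = 0 := by
    intro f hf
    have h2 := Ker.ker_lap_ker G _ (hlap f hf)
    have h3 : (fun _ => (1 : ℝ)) ⬝ᵥ E.mulVec f = 0 := by
      rw [Matrix.dotProduct_mulVec, ← Matrix.mulVec_transpose, hsym, hone, zero_dotProduct]
    funext v
    have h4 : (fun _ => (1 : ℝ)) ⬝ᵥ E.mulVec f = (G.M : ℝ) ^ 2 * E.mulVec f v := by
      simp only [dotProduct, one_mul]
      rw [Finset.sum_congr rfl (fun w _ => h2 w v), Finset.sum_const, nsmul_eq_mul]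
      congr 1
      simp [Fintype.card_prod, sq]
    rw [h3] at h4
    rcases mul_eq_zero.mp h4.symm with h5 | h5
    · exact absurd h5 hM.ne'
    · simpa using h5
  have hall : ∀ f : G.V → ℝ, E.mulVec f = 0 := by
    intro f
    set μ : ℝ := (∑ v, f v) / (G.M : ℝ) ^ 2 with hμ
    have h1 : f = (fun v => f v - μ) + μ • (fun _ => (1 : ℝ)) := by
      funext v
      simp
    have h2 : ∑ v, (f v - μ) = 0 := by
      rw [Finset.sum_sub_distrib, Finset.sum_const, nsmul_eq_mul]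
      have : ((Finset.univ : Finset G.V).card : ℝ) = (G.M : ℝ) ^ 2 := by
        simp [Fintype.card_prod, sq]
      rw [this, hμ, mul_div_cancel₀ _ hM.ne', sub_self]
    rw [h1, Matrix.mulVec_add, Matrix.mulVec_smul, hone, hzero _ h2]
    simp
  ext v w
  have := congrFun (hall (Pi.single w 1)) v
  simpa [Matrix.mulVec_single_one] using this

theorem rdo_term_symm {F : Fam} {u : ℕ} {Γ : Matrix G.V G.V ℝ} (h : IsTerminal G F u Γ) : Γ.transpose = Γ := by
  have := h.psd.1
  rwa [Matrix.IsHermitian, Matrix.conjTranspose_eq_transpose_of_trivial] at this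

/-! ## the terminal covariances -/

/-- `L-RDO-S1` the first cosine is an eigenvector of the terminal covariances -/
theorem rdo_term_eig (hG : G.bc = BC.per) (hM : 2 ≤ G.M) (F : Fam) (u : ℕ) (Γ : Matrix G.V G.V ℝ) (hΓ : IsTerminal G F u Γ) :
    (fun v => lam1 G.M * Γ.mulVec (cos1 G) v) = fun v => (F.termP u).eval (lam1 G.M) * cos1 G v := by
  have hl := rdo_lam1_pos _ hM
  have hmean := rdo_cos_mean hG hM
  have hMsq := rdo_M_sq_pos G
  have hlc : (lap G).mulVec (cos1 G) = lam1 G.M • cos1 G := rdo_lap_cos hG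
  have h1 : (lap G).mulVec (Γ.mulVec (cos1 G)) = (F.termP u).eval (lam1 G.M) • cos1 G := by
    rw [Matrix.mulVec_mulVec, hΓ.eqn _ hmean, rdo_cov_eig _ _ _ hlc]
  set c : ℝ := (F.termP u).eval (lam1 G.M) / lam1 G.M with hc
  have h2 : (lap G).mulVec (Γ.mulVec (cos1 G) - c • cos1 G) = 0 := by
    rw [Matrix.mulVec_sub, Matrix.mulVec_smul, h1, hlc, smul_smul, hc, div_mul_cancel₀ _ hl.ne', sub_self]
  have h3 := Ker.ker_lap_ker G _ h2
  have h4 : ∑ v, (Γ.mulVec (cos1 G) - c • cos1 G) v = 0 := by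
    have h5 : (fun _ => (1 : ℝ)) ⬝ᵥ Γ.mulVec (cos1 G) = 0 := by
      rw [Matrix.dotProduct_mulVec, ← Matrix.mulVec_transpose, rdo_term_symm hΓ, hΓ.const, zero_dotProduct]
    simp only [dotProduct, one_mul] at h5
    simp only [Pi.sub_apply, Pi.smul_apply, smul_eq_mul, Finset.sum_sub_distrib, ← Finset.mul_sum, h5, hmean, mul_zero, sub_zero]
  funext v
  have h6 : (G.M : ℝ) ^ 2 * (Γ.mulVec (cos1 G) - c • cos1 G) v = 0 := by
    rw [← h4, Finset.sum_congr rfl (fun w _ => h3 w v), Finset.sum_const, nsmul_eq_mul]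
    congr 1
    simp [Fintype.card_prod, sq]
  rcases mul_eq_zero.1 h6 with h7 | h7
  · exact absurd h7 hMsq.ne'
  · simp only [Pi.sub_apply, Pi.smul_apply, smul_eq_mul] at h7
    have h8 : Γ.mulVec (cos1 G) v = c * cos1 G v := by linarith
    rw [h8, hc]
    field_simp

/-- the Cameron-Martin covector of the first cosine: `Γ ((λ₁/p) q_n) = q_n` -/
theorem rdo_term_eta (hG : G.bc = BC.per) (hM : 2 ≤ G.M) (F : Fam) (u : ℕ) (Γ : Matrix G.V G.V ℝ) (hΓ : IsTerminal G F u Γ)
    (hp : (F.termP u).eval (lam1 G.M) ≠ 0) :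
    Γ.mulVec (fun v => lam1 G.M / (F.termP u).eval (lam1 G.M) * cos1 G v) = cos1 G := by
  have h := rdo_term_eig hG hM F u Γ hΓ
  have e : (fun v => lam1 G.M / (F.termP u).eval (lam1 G.M) * cos1 G v) = (lam1 G.M / (F.termP u).eval (lam1 G.M)) • cos1 G := rfl
  rw [e, Matrix.mulVec_smul]
  funext v
  have hv := congrFun h v
  simp only [Pi.smul_apply, smul_eq_mul]
  rw [div_mul_eq_mul_div, hv, mul_div_assoc, mul_comm, div_mul_cancel₀ _ hp]

/-! ## splitting of the covariances -/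

theorem rdo_cmat_eq (G : Geom) (c : ℝ) : (c / (G.M : ℝ) ^ 2) • Jm G = Ker.cmat G c := by
  ext v w
  simp [Jm, Ker.cmat]

/-- `λ Γ_{u,u'} (λ) = λ Γ_{≥u} (λ) - λ Γ_{≥u'} (λ)` as polynomials -/
theorem rdo_X_shellP (F : Fam) (u u' : ℕ) (hu : 1 ≤ u) (hu' : 1 ≤ u') : X * F.shellP u u' = F.termP u - F.termP u' := by
  refine Polynomial.funext fun x => ?_
  rw [eval_mul, eval_X, Ker.ker_shellP_eval F u u' hu hu', eval_sub, Ker.ker_termP_eval, Ker.ker_termP_eval]
  ring

theorem rdo_lap_cov (G : Geom) (P : ℝ[X]) : lap G * cov G P = cov G (X * P) := by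
  simp [cov, map_mul, aeval_X]

/-- `L-RDO-S1` **splitting of the covariances**, as an identity of matrices -/
theorem rdo_ker_split (hG : G.bc = BC.per) (F : Fam) (u u' : ℕ) (hu : 1 ≤ u) (hu' : 1 ≤ u') (Γ Γ' : Matrix G.V G.V ℝ) (hΓ : IsTerminal G F u Γ) (hΓ' : IsTerminal G F u' Γ') :
    Γ' + shell G F u u' = Γ + ((low0 F u' - low0 F u) / (G.M : ℝ) ^ 2) • Jm G := by
  rw [rdo_cmat_eq]
  have hc : low0 F u' - low0 F u = (F.shellP u u').eval 0 := by
    unfold low0
    rw [← Ker.ker_lowP_add_shellP F u u', eval_add]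
    ring
  rw [hc, ← sub_eq_zero]
  have hcs : (Ker.cmat G ((F.shellP u u').eval 0)).transpose = Ker.cmat G ((F.shellP u u').eval 0) := by
    ext v w
    simp [Ker.cmat]
  refine rdo_sym_zero _ ?_ ?_ ?_
  · rw [Matrix.transpose_sub, Matrix.transpose_add, Matrix.transpose_add, rdo_term_symm hΓ, rdo_term_symm hΓ', hcs]
    unfold shell
    rw [rdo_cov_symm]
  · rw [Matrix.sub_mulVec, Matrix.add_mulVec, Matrix.add_mulVec, hΓ.const, hΓ'.const, Ker.ker_cmat_mulVec]
    unfold shell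
    rw [rdo_cov_one, rdo_card]
    funext v
    have := (rdo_M_sq_pos G).ne'
    simp only [Pi.sub_apply, Pi.zero_apply, zero_add]
    rw [div_mul_cancel₀ _ this, sub_self]
  · intro f hf
    rw [Matrix.sub_mulVec, Matrix.add_mulVec, Matrix.add_mulVec, Ker.ker_cmat_mulVec, hf, Matrix.mulVec_sub, Matrix.mulVec_add,
      Matrix.mulVec_add, Matrix.mulVec_mulVec, Matrix.mulVec_mulVec, Matrix.mulVec_mulVec, hΓ.eqn f hf, hΓ'.eqn f hf]
    unfold shell
    rw [rdo_lap_cov, rdo_X_shellP F u u' hu hu']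
    have e1 : cov G (F.termP u - F.termP u') = cov G (F.termP u) - cov G (F.termP u') := by simp [cov]
    have e2 : (lap G).mulVec (fun _ => (F.shellP u u').eval 0 / (G.M : ℝ) ^ 2 * 0) = 0 := by
      simp only [mul_zero]
      exact Matrix.mulVec_zero _
    rw [e1, e2, Matrix.sub_mulVec]
    abel

theorem rdo_Qs_one (c : ℝ) : Qs c 1 = 1 := by
  simp [Qs, Q, Fej]

theorem rdo_lowP_one (F : Fam) : F.lowP 1 = 0 := by
  simp [Fam.lowP, rdo_Qs_one]

/-- `L-RDO-S1` the same for `C_{<u}`: `C_{≥u} + C_{<u} = A⁺·pref + (low0 u/n²) 𝟙𝟙ᵀ` (entry family: `pref = 1`) -/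
theorem rdo_ker_split_low (hG : G.bc = BC.per) (u : ℕ) (hu : 1 ≤ u) (Γ₁ Γ : Matrix G.V G.V ℝ) (h₁ : IsTerminal G Fam.entry 1 Γ₁) (hΓ : IsTerminal G Fam.entry u Γ) :
    Γ + low G Fam.entry u = Γ₁ + (low0 Fam.entry u / (G.M : ℝ) ^ 2) • Jm G := by
  have h := rdo_ker_split hG Fam.entry 1 u le_rfl hu Γ₁ Γ h₁ hΓ
  have e1 : shell G Fam.entry 1 u = low G Fam.entry u := by
    have h2 := Ker.ker_low_add_shell G Fam.entry 1 u
    have h3 : low G Fam.entry 1 = 0 := by simp [low, cov, rdo_lowP_one]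
    rw [h3, zero_add] at h2
    exact h2
  have e2 : low0 Fam.entry 1 = 0 := by simp [low0, rdo_lowP_one]
  rwa [e1, e2, sub_zero] at h

end

end Claimed.Agent.R285.Rdo
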