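import Claimed.Agent.R285.Rdo.Src
import Claimed.Agent.R285.Rdo.Ker
import Claimed.Agent.R285.Scal.Local

/-!
# ROW 285, unit READOUT (post BP-READOUT #12738): THE GLUE, layer A (no `Asm`)                                (architect helper16)

From the exits of the packages TERM (`rdo_gok`), STOP (`rdo_stop_step`), PURE (`rdo_pure`), SRC (`rdo_src_EE`, `rdo_ehw_deriv`) to
* `rdo_stopT`  : **the stopped identity** along any history of torus states `THist` (ANY torus `h`, inside the ball): `EE j0 h q X_{j0} w = cst EE j h q X_j w`, `cst ≠ 0`;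
* `HistOK.toT` : a plane history + the torus history driven by the plane scalars, copies at the entry, IS a `THist` (copying);
* `rdo_resp0`  : **the exact response of the pure histories**: `rV0 h X_h = k_V d/(1 - p_G d)`;
* `rdo_r0`     : `R0OK` = holomorphy, linear term + quadratic bound, parity of the three basic read-outs `rV0`, `rP0`, `rM0 w`;
* `rdo_rep`    : **the representation identities** for an abstract weight `W`: `cVW = v0 + rV X_h`, `cPW = rP X_h`, `cMW = rM X_h`.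
Layer B (`Rdo/Exit.lean`): the same in the vocabulary of `Asm.RawSys` / `Asm.concSys`.
-/

set_option autoImplicit false

namespace Claimed.Agent.R285.Rdo

open scoped BigOperators ENNReal NNReal
open MeasureTheory ProbabilityTheory Polynomial Filter Topology
open Claimed.Agent.R285 Claimed.Agent.R285.RG Claimed.Agent.R285.B8 Claimed.Agent.R285.F4a

noncomputable section

/-! ## 0. Small facts -/

theorem rdo_ZA_congr {G : Geom} (g : Grid G) (R : ℕ) (K K' : Act g) (z : G.V → ℂ) (h : ∀ Y, K Y z = K' Y z) : ZA g R K z = ZA g R K' z := by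
  simp only [ZA, Finset.sum_apply, Finset.prod_apply, h]

theorem rdo_bg_add {G : Geom} (w θ : ℝ) (ζ : G.V → ℝ) :
    ((fun v => bg G w v + (θ : ℂ)) + toC ζ) = toC (fun v => w * cos1 G v + θ + ζ v) := by
  funext v
  simp [bg, toC]

/-- `Eter` at a real source only sees the functional at real fields -/
theorem rdo_eter_congr {G : Geom} (Γ : Matrix G.V G.V ℝ) (ω : ℝ) (q : ℤ) (Z Z' : Fn G) (hZ : ∀ φ : G.V → ℝ, Z (toC φ) = Z' (toC φ)) (w : ℝ) :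
    Eter G Γ ω q Z (bg G w) = Eter G Γ ω q Z' (bg G w) := by
  unfold Eter
  simp only [conv, rdo_bg_add, hZ]

variable (K : Cfg) (𝓡 : Reg K.s)

theorem rdo_hm_zero (j h : ℕ) : hm K j h 0 = 1 := by simp [hm]

theorem rdo_hm_neg (j h : ℕ) (q : ℤ) : hm K j h (-q) = hm K j h q := by simp [hm]

theorem rdo_EE_top (h : ℕ) (q : ℤ) (X : (ℂ × ℂ) × K.To 𝓡 h h) (w : ℝ) : EE K 𝓡 h h q X w = (hm K h h q : ℂ) * gq K 𝓡 h q X w := rfl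

theorem rdo_norm_st {j h : ℕ} (x : ℂ × ℂ × K.Pl 𝓡 j) (a : K.To 𝓡 j h) {ρ : ℝ} (hx : ‖x‖ < ρ) (ha : ‖a‖ < ρ) :
    ‖(((x.1, x.2.1), a) : (ℂ × ℂ) × K.To 𝓡 j h)‖ < ρ := by
  simp only [Prod.norm_def, max_lt_iff] at hx ⊢
  exact ⟨⟨hx.1, hx.2.1⟩, ha⟩

/-! ## 1. STOP: induction along a history -/

/-- **a history of torus states** on the torus `h`, from the level `j0` to the stop (torus scalars; no plane).  Gapped towers (`cosOn = false`): `z = 0` -/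
structure THist (j0 h : ℕ) (ρ : ℝ) (X : ∀ j, (ℂ × ℂ) × K.To 𝓡 j h) : Prop where
  step : ∀ j, j0 ≤ j → ∀ hj : j < h, X (j + 1) = nextT K 𝓡 j h hj (X j)
  inside : ∀ j, j0 ≤ j → j ≤ h → ‖X j‖ < ρ
  zz : K.cosOn = false → ∀ j, j0 ≤ j → j ≤ h → (X j).1.2 = 0

/-- a plane history together with its torus history (driven by the PLANE scalars) on the torus `h` -/
structure HistOK (j0 h : ℕ) (ρ : ℝ) (x : ∀ j, ℂ × ℂ × K.Pl 𝓡 j) (a : ∀ j, K.To 𝓡 j h) : Prop where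
  xs : ∀ j, j0 ≤ j → j < h → x (j + 1) = K.Phi 𝓡 j (x j)
  as : ∀ j, j0 ≤ j → j < h → a (j + 1) = K.Psi 𝓡 j h (((x j).1, (x j).2.1), a j)
  xin : ∀ j, j0 ≤ j → j ≤ h → ‖x j‖ < ρ
  ain : ∀ j, j0 ≤ j → j ≤ h → ‖a j‖ < ρ
  zz : K.cosOn = false → ∀ j, j0 ≤ j → j ≤ h → (x j).2.1 = 0
  cp0 : IsCp K 𝓡 j0 h (a j0) (x j0).2.2

/-- the standing hypotheses on the tower -/
structure Base (j0 : ℕ) (cT : ℝ≥0) : Prop where
  hF : K.F = Fam.entry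
  hω : 0 < K.p.ω
  hh : 0 < K.p.h0
  hA : 1 ≤ K.p.A
  hδ : 0 < K.p.δ
  hκ : 0 < K.p.κ
  tower : K.TowerOK 𝓡 j0
  geo : TermGeo K 𝓡 j0 cT

variable {K 𝓡}

/-- **THE STOPPED IDENTITY** -/
theorem rdo_stopT {j0 : ℕ} {cT : ℝ≥0} {ρ d1 Ce : ℝ} (B : Base K 𝓡 j0 cT) (hch : ChainOK K 𝓡 j0 ρ d1 Ce) {h : ℕ}
    {X : ∀ j, (ℂ × ℂ) × K.To 𝓡 j h} (H : THist K 𝓡 j0 h ρ X) :
    ∀ j, j0 ≤ j → j ≤ h → ∃ cst : ℂ, cst ≠ 0 ∧ ∀ (q : ℤ) (w : ℝ), |w| ≤ 1 → EE K 𝓡 j0 h q (X j0) w = cst * EE K 𝓡 j h q (X j) w := by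
  intro j hj
  induction j, hj using Nat.le_induction with
  | base => exact fun _ => ⟨1, one_ne_zero, fun q w _ => (one_mul _).symm⟩
  | succ j hj0 ih =>
    intro hjh
    have hj : j < h := hjh
    obtain ⟨cst, hcst, hid⟩ := ih hj.le
    obtain ⟨c', hc', hstep⟩ := rdo_stop_step K 𝓡 B.hF B.hω B.hh B.hA B.hδ B.hκ j0 cT ρ d1 Ce B.tower B.geo hch j h hj0 hj
      (X j) (H.inside j hj0 hj.le) (fun hc => H.zz hc j hj0 hj.le)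
    refine ⟨cst * c', mul_ne_zero hcst hc', fun q w hw => ?_⟩
    rw [hid q w hw, hstep q w hw, H.step j hj0 hj, mul_assoc]

/-- along a history the torus remainder stays a copy of the plane remainder -/
theorem rdo_hist_cp {j0 : ℕ} {ρ d1 Ce : ℝ} (hch : ChainOK K 𝓡 j0 ρ d1 Ce) {h : ℕ}
    {x : ∀ j, ℂ × ℂ × K.Pl 𝓡 j} {a : ∀ j, K.To 𝓡 j h} (H : HistOK K 𝓡 j0 h ρ x a) :
    ∀ j, j0 ≤ j → j ≤ h → IsCp K 𝓡 j h (a j) (x j).2.2 := by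
  intro j hj
  induction j, hj using Nat.le_induction with
  | base => exact fun _ => H.cp0
  | succ j hj0 ih =>
    intro hjh
    have hj : j < h := hjh
    obtain ⟨-, -, c3⟩ := hch.cp j h hj0 hj (x j) (a j) (H.xin j hj0 hj.le) (H.ain j hj0 hj.le) (fun hc => H.zz hc j hj0 hj.le) (ih hj.le)
    rw [H.xs j hj0 hj, H.as j hj0 hj]
    exact c3

/-- **copying**: the torus history driven by the plane scalars IS the history of the torus states -/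
theorem HistOK.toT {j0 : ℕ} {ρ d1 Ce : ℝ} (hch : ChainOK K 𝓡 j0 ρ d1 Ce) {h : ℕ}
    {x : ∀ j, ℂ × ℂ × K.Pl 𝓡 j} {a : ∀ j, K.To 𝓡 j h} (H : HistOK K 𝓡 j0 h ρ x a) :
    THist K 𝓡 j0 h ρ fun j => (((x j).1, (x j).2.1), a j) where
  step := fun j hj0 hj => by
    obtain ⟨c1, c2, -⟩ := hch.cp j h hj0 hj (x j) (a j) (H.xin j hj0 hj.le) (H.ain j hj0 hj.le) (fun hc => H.zz hc j hj0 hj.le)
      (rdo_hist_cp hch H j hj0 hj.le)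
    show (((x (j + 1)).1, (x (j + 1)).2.1), a (j + 1)) = nextT K 𝓡 j h hj (((x j).1, (x j).2.1), a j)
    rw [H.xs j hj0 hj, H.as j hj0 hj]
    have e : nextT K 𝓡 j h hj (((x j).1, (x j).2.1), a j)
        = (((K.Phi 𝓡 j (x j)).1, (K.Phi 𝓡 j (x j)).2.1), K.Psi 𝓡 j h (((x j).1, (x j).2.1), a j)) := Prod.ext (Prod.ext c1 c2) rfl
    exact e.symm
  inside := fun j hj0 hj => rdo_norm_st K 𝓡 (x j) (a j) (H.xin j hj0 hj) (H.ain j hj0 hj)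
  zz := fun hc j hj0 hj => H.zz hc j hj0 hj

/-! ## 2. PURE: the states of the exponential entries -/

theorem rdo_zlev_exp {j0 : ℕ} {ρ d1 Ce : ℝ} (hh : 0 < K.p.h0) (hch : ChainOK K 𝓡 j0 ρ d1 Ce) (j h : ℕ) (d : ℂ) (hd : ‖d‖ < d1) (φ : (K.s.T h).V → ℝ) :
    Zlev K 𝓡 j h ((d, 0), K.eExpT 𝓡 j h d 0) (toC φ)
      = Complex.exp (∑ B : (K.s.lev h j).I, (d / 2 * eBC (K.s.lev h j) B (toC φ) + 0 * cBC (K.s.lev h j) (Step.alpha K.p.ω) B (toC φ))) := by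
  rw [← B8.ZA_Kexp (K.s.lev h j) K.c.R (Step.alpha K.p.ω) d 0 (toC φ)]
  refine rdo_ZA_congr _ _ _ _ _ fun Y => ?_
  have e := hch.exp_eq j h d hd Y (toC φ) (Scal.toC_mem_strip hh _ Y φ)
  show single (K.s.lev h j) (Step.alpha K.p.ω) d 0 Y (toC φ) + K.toAct 𝓡 (K.eExpT 𝓡 j h d 0) Y (toC φ) = _
  rw [e]
  simp [Cfg.Rexp]

theorem rdo_EE_exp {j0 : ℕ} {ρ d1 Ce : ℝ} (hh : 0 < K.p.h0) (hch : ChainOK K 𝓡 j0 ρ d1 Ce) (j h : ℕ) (d : ℂ) (hd : ‖d‖ < d1) (w : ℝ) :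
    EE K 𝓡 j h 0 ((d, 0), K.eExpT 𝓡 j h d 0) w = uexp K j h d w := by
  unfold EE uexp
  rw [rdo_hm_zero, Complex.ofReal_one, one_mul]
  exact rdo_eter_congr _ _ _ _ _ (fun φ => rdo_zlev_exp hh hch j h d hd φ) w

/-- two functions of the source which are proportional near `0` -/
theorem rdo_deriv2_of_eq (u g : ℝ → ℂ) (cst : ℂ) (h : ∀ w : ℝ, |w| ≤ 1 → u w = cst * g w) :
    u 0 = cst * g 0 ∧ iteratedDeriv 2 u 0 = cst * iteratedDeriv 2 g 0 := by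
  refine ⟨h 0 (by simp), ?_⟩
  have he : u =ᶠ[𝓝 0] fun w => cst * g w := by
    filter_upwards [Metric.ball_mem_nhds (0 : ℝ) one_pos] with w hw
    exact h w (by simpa [Real.norm_eq_abs] using (mem_ball_zero_iff.1 hw).le)
  rw [he.iteratedDeriv_eq 2]
  simp only [iteratedDeriv_succ, iteratedDeriv_zero]
  have h1 : deriv (fun w => cst * g w) = fun w => cst * deriv g w := by
    funext w
    exact deriv_const_mul_field cst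
  rw [h1]
  exact deriv_const_mul_field cst

/-- the conclusion of `rdo_pure` for one configuration -/
def PureAt (K : Cfg) (dst : ℝ) : Prop :=
  ∀ j h : ℕ, j ≤ h → ∀ d : ℂ, ‖d‖ < dst → iteratedDeriv 2 (uexp K j h d) 0 * (1 - pG K j h * d) = K.kV h * d * uexp K j h d 0

/-- algebra of the response -/
theorem rdo_resp_alg (u0 u2 g0 g2 cst kd pd : ℂ) (hc : cst ≠ 0) (hg : g0 ≠ 0) (hp : 1 - pd ≠ 0) (h0 : u0 = cst * g0) (h2 : u2 = cst * g2)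
    (h : u2 * (1 - pd) = kd * u0) : g2 / g0 = kd / (1 - pd) := by
  rw [h0, h2] at h
  have h' : g2 * (1 - pd) = kd * g0 := by
    apply mul_left_cancel₀ hc
    linear_combination h
  field_simp
  linear_combination h'

theorem rdo_one_sub_ne (p : ℝ) (d : ℂ) (h0 : 0 ≤ p) (h1 : p ≤ 1) (hd : ‖d‖ < 1) : (1 : ℂ) - p * d ≠ 0 := by
  intro h
  have h2 : (p : ℂ) * d = 1 := by linear_combination -h
  have h3 : ‖(p : ℂ) * d‖ = 1 := by rw [h2]; simp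
  rw [norm_mul, Complex.norm_real, Real.norm_eq_abs, abs_of_nonneg h0] at h3
  nlinarith [norm_nonneg d]

theorem rdo_g0_ne {h : ℕ} {σ : K.To 𝓡 h h →L[ℂ] K.To 𝓡 h h} {ρ C : ℝ} (G : GOK K 𝓡 h σ ρ C) {X : (ℂ × ℂ) × K.To 𝓡 h h}
    (hX : X ∈ Metric.ball (0 : (ℂ × ℂ) × K.To 𝓡 h h) ρ) : gq K 𝓡 h 0 X 0 ≠ 0 := by
  intro h0
  have := G.D_bd X hX 0 (by simp)
  rw [h0] at this
  norm_num at this

/-- **the exact response of a pure history** -/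
theorem rdo_resp0 {j0 : ℕ} {cT : ℝ≥0} {ρ d1 Ce dst ρ1 C1 : ℝ} (B : Base K 𝓡 j0 cT) (hch : ChainOK K 𝓡 j0 ρ d1 Ce) (hP : PureAt K dst) {h : ℕ} (hj : j0 ≤ h)
    {σ : K.To 𝓡 h h →L[ℂ] K.To 𝓡 h h} (G : GOK K 𝓡 h σ ρ1 C1) (hρ : ρ ≤ ρ1) (hp0 : 0 ≤ pG K j0 h) (hp1 : pG K j0 h ≤ 1)
    {X : ∀ j, (ℂ × ℂ) × K.To 𝓡 j h} (H : THist K 𝓡 j0 h ρ X) (d : ℂ) (hd1 : ‖d‖ < d1) (hd2 : ‖d‖ < dst) (hd3 : ‖d‖ < 1)
    (hX0 : X j0 = ((d, 0), K.eExpT 𝓡 j0 h d 0)) :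
    rV0 K 𝓡 h (X h) = K.kV h * d / (1 - pG K j0 h * d) := by
  obtain ⟨cst, hcst, hid⟩ := rdo_stopT B hch H h hj le_rfl
  have hXh : X h ∈ Metric.ball (0 : (ℂ × ℂ) × K.To 𝓡 h h) ρ1 := mem_ball_zero_iff.2 ((H.inside h hj le_rfl).trans_le hρ)
  have key : ∀ w : ℝ, |w| ≤ 1 → uexp K j0 h d w = cst * gq K 𝓡 h 0 (X h) w := by
    intro w hw
    have := hid 0 w hw
    rw [hX0, rdo_EE_top, rdo_hm_zero, Complex.ofReal_one, one_mul] at this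
    rw [← this]
    exact (rdo_EE_exp B.hh hch j0 h d hd1 w).symm
  obtain ⟨h0, h2⟩ := rdo_deriv2_of_eq _ _ cst key
  exact rdo_resp_alg _ _ _ _ cst _ _ hcst (rdo_g0_ne G hXh) (rdo_one_sub_ne _ d hp0 hp1 hd3) h0 h2 (hP j0 h hj d hd2)

/-! ## 3. The basic read-outs -/

section quot

variable {T : Type} [NormedAddCommGroup T] [NormedSpace ℂ T]

theorem rdo_quot (N D : (ℂ × ℂ) × T → ℂ) (ρ C : ℝ) (hN : DifferentiableOn ℂ N (Metric.ball 0 ρ)) (hD : DifferentiableOn ℂ D (Metric.ball 0 ρ))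
    (hNb : ∀ X ∈ Metric.ball (0 : (ℂ × ℂ) × T) ρ, ‖N X‖ ≤ C) (hDb : ∀ X ∈ Metric.ball (0 : (ℂ × ℂ) × T) ρ, ‖D X - 1‖ ≤ 1 / 2) :
    DifferentiableOn ℂ (fun X => N X / D X) (Metric.ball 0 ρ) ∧ ∀ X ∈ Metric.ball (0 : (ℂ × ℂ) × T) ρ, ‖N X / D X‖ ≤ 2 * C := by
  have hlow : ∀ X ∈ Metric.ball (0 : (ℂ × ℂ) × T) ρ, 1 / 2 ≤ ‖D X‖ := by
    intro X hX
    have h1 := hDb X hX
    have h2 : ‖(1 : ℂ)‖ ≤ ‖D X‖ + ‖D X - 1‖ := by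
      have := norm_sub_le (D X) (D X - 1)
      simpa using this
    rw [norm_one] at h2
    linarith
  have hne : ∀ X ∈ Metric.ball (0 : (ℂ × ℂ) × T) ρ, D X ≠ 0 := by
    intro X hX h0
    have := hlow X hX
    rw [h0, norm_zero] at this
    norm_num at this
  refine ⟨?_, fun X hX => ?_⟩
  · have h1 : DifferentiableOn ℂ (fun X => N X * (D X)⁻¹) (Metric.ball 0 ρ) := hN.fun_mul (hD.fun_inv hne)
    simpa only [div_eq_mul_inv] using h1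
  · rw [norm_div, div_le_iff₀ (by linarith [hlow X hX])]
    have h1 := hNb X hX
    have h2 := hlow X hX
    have h3 : 0 ≤ C := (norm_nonneg _).trans h1
    nlinarith

theorem rdo_quot_deriv (N D : ℂ → ℂ) (k : ℂ) (hN : HasDerivAt N k 0) (hD : DifferentiableAt ℂ D 0) (hN0 : N 0 = 0) (hD0 : D 0 = 1) :
    HasDerivAt (fun s => N s / D s) k 0 := by
  have := hN.fun_div hD.hasDerivAt (by rw [hD0]; exact one_ne_zero)
  simpa [hN0, hD0] using this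

theorem rdo_line_z (D : (ℂ × ℂ) × T → ℂ) (ρ : ℝ) (hρ : 0 < ρ) (hD : DifferentiableOn ℂ D (Metric.ball 0 ρ)) :
    DifferentiableAt ℂ (fun s : ℂ => D ((0, s), 0)) 0 := by
  have h1 : DifferentiableAt ℂ D (((0 : ℂ), (0 : ℂ)), (0 : T)) := hD.differentiableAt (Metric.ball_mem_nhds 0 hρ)
  have h2 : DifferentiableAt ℂ (fun s : ℂ => ((((0 : ℂ), s), (0 : T)) : (ℂ × ℂ) × T)) 0 := by fun_prop
  exact DifferentiableAt.comp (0 : ℂ) (g := D) (f := fun s : ℂ => ((((0 : ℂ), s), (0 : T)) : (ℂ × ℂ) × T)) h1 h2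

theorem rdo_readout (r : (ℂ × ℂ) × T → ℂ) (ρ M : ℝ) (a b : ℂ) (hρ : 0 < ρ) (hd : DifferentiableOn ℂ r (Metric.ball 0 ρ))
    (hM : ∀ X ∈ Metric.ball (0 : (ℂ × ℂ) × T) ρ, ‖r X‖ ≤ M) (h0 : r 0 = 0)
    (ht : HasDerivAt (fun s : ℂ => r ((s, 0), 0)) a 0) (hz : HasDerivAt (fun s : ℂ => r ((0, s), 0)) b 0) :
    ∀ X ∈ Metric.ball (0 : (ℂ × ℂ) × T) ρ, ‖r X - (a * X.1.1 + b * X.1.2)‖ ≤ (2 * M / ρ + 4 * M / ρ ^ 2) * (‖X.2‖ + ‖X‖ ^ 2) := by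
  intro X hX
  have h1 := rdo_schwarz r ρ M a b hρ hd hM h0 ht hz X hX
  have hM0 : 0 ≤ M := (norm_nonneg _).trans (hM 0 (Metric.mem_ball_self hρ))
  have h2 : 0 ≤ 2 * M / ρ := by positivity
  have h3 : 0 ≤ 4 * M / ρ ^ 2 := by positivity
  nlinarith [norm_nonneg X.2, sq_nonneg ‖X‖, mul_nonneg h2 (sq_nonneg ‖X‖), mul_nonneg h3 (norm_nonneg X.2)]

end quot

theorem rdo_aveCos_zero (G : Geom) : aveCos G 0 = 1 := by
  have hM : (G.M : ℝ) ≠ 0 := by exact_mod_cast G.hM.ne'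
  simp only [aveCos, zero_mul, Real.cos_zero, Finset.sum_const, Finset.card_univ, Fintype.card_prod, Fintype.card_fin, nsmul_eq_mul, mul_one]
  push_cast
  field_simp

/-- the three basic read-outs at the stop `h`; `wM` = source of the mixed read-out -/
structure R0OK (K : Cfg) (𝓡 : Reg K.s) (h : ℕ) (σ : K.To 𝓡 h h →L[ℂ] K.To 𝓡 h h) (ρ M wM : ℝ) : Prop where
  V_an : DifferentiableOn ℂ (rV0 K 𝓡 h) (Metric.ball 0 ρ)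
  P_an : DifferentiableOn ℂ (rP0 K 𝓡 h) (Metric.ball 0 ρ)
  M_an : DifferentiableOn ℂ (rM0 K 𝓡 wM h) (Metric.ball 0 ρ)
  V_bd : ∀ X ∈ Metric.ball (0 : (ℂ × ℂ) × K.To 𝓡 h h) ρ, ‖rV0 K 𝓡 h X - K.kV h * X.1.1‖ ≤ M * (‖X.2‖ + ‖X‖ ^ 2)
  P_bd : ∀ X ∈ Metric.ball (0 : (ℂ × ℂ) × K.To 𝓡 h h) ρ, ‖rP0 K 𝓡 h X - K.kP h * X.1.2‖ ≤ M * (‖X.2‖ + ‖X‖ ^ 2)
  M_bd : ∀ X ∈ Metric.ball (0 : (ℂ × ℂ) × K.To 𝓡 h h) ρ,
    ‖rM0 K 𝓡 wM h X - (K.kP h * (aveCos (K.s.T h) (Step.alpha K.p.ω * wM) - 1) : ℝ) * X.1.2‖ ≤ M * (‖X.2‖ + ‖X‖ ^ 2)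
  V_par : ∀ X, rV0 K 𝓡 h (Flow.parX σ X) = rV0 K 𝓡 h X
  P_par : ∀ X, rP0 K 𝓡 h (Flow.parX σ X) = -rP0 K 𝓡 h X
  M_par : ∀ X, rM0 K 𝓡 wM h (Flow.parX σ X) = -rM0 K 𝓡 wM h X

theorem rdo_V_par {h : ℕ} {σ : K.To 𝓡 h h →L[ℂ] K.To 𝓡 h h} {ρ C : ℝ} (G : GOK K 𝓡 h σ ρ C) (X : (ℂ × ℂ) × K.To 𝓡 h h) :
    rV0 K 𝓡 h (Flow.parX σ X) = rV0 K 𝓡 h X := by
  have e : gq K 𝓡 h 0 (Flow.parX σ X) = gq K 𝓡 h 0 X := funext (G.par0 X)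
  unfold rV0
  rw [e]

theorem rdo_P_par {h : ℕ} {σ : K.To 𝓡 h h →L[ℂ] K.To 𝓡 h h} {ρ C : ℝ} (G : GOK K 𝓡 h σ ρ C) (X : (ℂ × ℂ) × K.To 𝓡 h h) :
    rP0 K 𝓡 h (Flow.parX σ X) = -rP0 K 𝓡 h X := by
  unfold rP0
  rw [G.par0, G.parc, neg_div]

theorem rdo_M_par {h : ℕ} {σ : K.To 𝓡 h h →L[ℂ] K.To 𝓡 h h} {ρ C : ℝ} (G : GOK K 𝓡 h σ ρ C) (w : ℝ) (X : (ℂ × ℂ) × K.To 𝓡 h h) :
    rM0 K 𝓡 w h (Flow.parX σ X) = -rM0 K 𝓡 w h X := by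
  unfold rM0
  rw [G.par0, G.parc, G.parc]
  ring

/-- the response of the exponential entry AT the stop: `∂_t rV0 (0) = k_V` -/
theorem rdo_V_dt {j0 : ℕ} {ρ0 d1 Ce dst ρ C : ℝ} (hh : 0 < K.p.h0) (hch : ChainOK K 𝓡 j0 ρ0 d1 Ce) (hP : PureAt K dst) (hd1 : 0 < d1) (hdst : 0 < dst) {h : ℕ}
    {σ : K.To 𝓡 h h →L[ℂ] K.To 𝓡 h h} (G : GOK K 𝓡 h σ ρ C) (hρ : 0 < ρ) (hp0 : 0 ≤ pG K h h) (hp1 : pG K h h ≤ 1)
    (hd : DifferentiableOn ℂ (rV0 K 𝓡 h) (Metric.ball 0 ρ)) :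
    HasDerivAt (fun s : ℂ => rV0 K 𝓡 h ((s, 0), 0)) (K.kV h) 0 := by
  refine rdo_deriv_of_curve (rV0 K 𝓡 h) (hd.differentiableAt (Metric.ball_mem_nhds 0 hρ)) (fun d => K.eExpT 𝓡 h h d 0) d1 Ce hd1
    (fun d hd' => hch.exp_bd h h d hd') _ ?_
  -- the explicit response
  have hexp : HasDerivAt (fun d : ℂ => (K.kV h : ℂ) * d / (1 - pG K h h * d)) (K.kV h) 0 := by
    have h1 : HasDerivAt (fun d : ℂ => (K.kV h : ℂ) * d) (K.kV h) 0 := by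
      simpa using (hasDerivAt_id (0 : ℂ)).const_mul (K.kV h : ℂ)
    have h2 : HasDerivAt (fun d : ℂ => 1 - (pG K h h : ℂ) * d) (-(pG K h h : ℂ)) 0 := by
      simpa using ((hasDerivAt_id (0 : ℂ)).const_mul (pG K h h : ℂ)).const_sub 1
    have := h1.fun_div h2 (by simp)
    simpa using this
  refine hexp.congr_of_eventuallyEq ?_
  set r : ℝ := min (min d1 dst) (min 1 (ρ / (|Ce| + 1))) with hr
  have hr0 : 0 < r := by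
    have : 0 < ρ / (|Ce| + 1) := by positivity
    exact lt_min (lt_min hd1 hdst) (lt_min one_pos this)
  filter_upwards [Metric.ball_mem_nhds (0 : ℂ) hr0] with d hd'
  have hdr : ‖d‖ < r := mem_ball_zero_iff.1 hd'
  have e1 : ‖d‖ < d1 := hdr.trans_le ((min_le_left _ _).trans (min_le_left _ _))
  have e2 : ‖d‖ < dst := hdr.trans_le ((min_le_left _ _).trans (min_le_right _ _))
  have e3 : ‖d‖ < 1 := hdr.trans_le ((min_le_right _ _).trans (min_le_left _ _))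
  have e4 : ‖d‖ < ρ / (|Ce| + 1) := hdr.trans_le ((min_le_right _ _).trans (min_le_right _ _))
  have hCe : 0 < |Ce| + 1 := by positivity
  have e4' : ‖d‖ * (|Ce| + 1) < ρ := (lt_div_iff₀ hCe).1 e4
  have e5 : ‖d‖ < ρ := by nlinarith [norm_nonneg d, abs_nonneg Ce]
  have e6 : ‖K.eExpT 𝓡 h h d 0‖ < ρ := by
    have := hch.exp_bd h h d e1
    have h2 : Ce * ‖d‖ ^ 2 ≤ |Ce| * ‖d‖ := by
      have : Ce * ‖d‖ ^ 2 ≤ |Ce| * ‖d‖ ^ 2 := by gcongr; exact le_abs_self _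
      nlinarith [norm_nonneg d, abs_nonneg Ce, mul_nonneg (abs_nonneg Ce) (norm_nonneg d)]
    nlinarith [norm_nonneg d, abs_nonneg Ce]
  have hX : ((d, (0 : ℂ)), K.eExpT 𝓡 h h d 0) ∈ Metric.ball (0 : (ℂ × ℂ) × K.To 𝓡 h h) ρ := by
    rw [mem_ball_zero_iff]
    simp only [Prod.norm_def, max_lt_iff, norm_zero]
    exact ⟨⟨e5, hρ⟩, e6⟩
  have hg : gq K 𝓡 h 0 ((d, 0), K.eExpT 𝓡 h h d 0) = uexp K h h d := by
    funext w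
    have := rdo_EE_exp hh hch h h d e1 w
    rwa [rdo_EE_top, rdo_hm_zero, Complex.ofReal_one, one_mul] at this
  have hne := rdo_g0_ne G hX
  show rV0 K 𝓡 h ((d, 0), K.eExpT 𝓡 h h d 0) = _
  unfold rV0
  rw [hg] at hne ⊢
  exact rdo_resp_alg _ _ _ _ 1 _ _ one_ne_zero hne (rdo_one_sub_ne _ d hp0 hp1 e3) (one_mul _).symm (one_mul _).symm (hP h h le_rfl d e2)

/-- **the basic read-outs**: holomorphy, linear terms, quadratic bounds, parity -/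
theorem rdo_r0 {j0 : ℕ} {ρ0 d1 Ce dst ρ C wM : ℝ} (hh : 0 < K.p.h0) (hch : ChainOK K 𝓡 j0 ρ0 d1 Ce) (hP : PureAt K dst) (hd1 : 0 < d1) (hdst : 0 < dst) {h : ℕ}
    {σ : K.To 𝓡 h h →L[ℂ] K.To 𝓡 h h} (G : GOK K 𝓡 h σ ρ C) (hρ : 0 < ρ) (hp0 : 0 ≤ pG K h h) (hp1 : pG K h h ≤ 1) (hw : |wM| ≤ 1) :
    R0OK K 𝓡 h σ ρ (2 * (4 * C) / ρ + 4 * (4 * C) / ρ ^ 2) wM := by
  have hC : 0 ≤ C := (norm_nonneg _).trans (G.N_bd 0 (Metric.mem_ball_self hρ))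
  have h00 : |(0 : ℝ)| ≤ 1 := by simp
  have hDb : ∀ X ∈ Metric.ball (0 : (ℂ × ℂ) × K.To 𝓡 h h) ρ, ‖gq K 𝓡 h 0 X 0 - 1‖ ≤ 1 / 2 := fun X hX => G.D_bd X hX 0 h00
  obtain ⟨Van, Vbd⟩ := rdo_quot (fun X => iteratedDeriv 2 (gq K 𝓡 h 0 X) 0) (fun X => gq K 𝓡 h 0 X 0) ρ C G.N_an G.D_an G.N_bd hDb
  obtain ⟨Pan, Pbd⟩ := rdo_quot (fun X => gc K 𝓡 h X 0) (fun X => gq K 𝓡 h 0 X 0) ρ C (G.c_an 0 h00) G.D_an (G.c_bd 0 h00) hDb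
  obtain ⟨Man, Mbd⟩ := rdo_quot (fun X => gc K 𝓡 h X wM - gc K 𝓡 h X 0) (fun X => gq K 𝓡 h 0 X 0) ρ (2 * C) ((G.c_an wM hw).sub (G.c_an 0 h00)) G.D_an
    (fun X hX => (norm_sub_le _ _).trans (by linarith [G.c_bd wM hw X hX, G.c_bd 0 h00 X hX])) hDb
  have Van' : DifferentiableOn ℂ (rV0 K 𝓡 h) (Metric.ball 0 ρ) := Van
  have Pan' : DifferentiableOn ℂ (rP0 K 𝓡 h) (Metric.ball 0 ρ) := Pan
  have Man' : DifferentiableOn ℂ (rM0 K 𝓡 wM h) (Metric.ball 0 ρ) := Man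
  have hDl := rdo_line_z (fun X => gq K 𝓡 h 0 X 0) ρ hρ G.D_an
  have hpz : ∀ s : ℂ, Flow.parX σ (((0 : ℂ), s), (0 : K.To 𝓡 h h)) = ((0, -s), 0) := fun s => by
    show (((0 : ℂ), -s), σ 0) = _
    rw [ContinuousLinearMap.map_zero]
  have hpt : ∀ s : ℂ, Flow.parX σ ((s, (0 : ℂ)), (0 : K.To 𝓡 h h)) = ((s, 0), 0) := fun s => by
    show ((s, -(0 : ℂ)), σ 0) = _
    rw [ContinuousLinearMap.map_zero, neg_zero]
  refine ⟨Van', Pan', Man', fun X hX => ?_, fun X hX => ?_, fun X hX => ?_, rdo_V_par G, rdo_P_par G, rdo_M_par G wM⟩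
  · have := rdo_readout (rV0 K 𝓡 h) ρ (4 * C) (K.kV h) 0 hρ Van' (fun X hX => (Vbd X hX).trans (by linarith))
      (by unfold rV0; rw [G.N_zero, zero_div]) (rdo_V_dt hh hch hP hd1 hdst G hρ hp0 hp1 Van')
      (rdo_even_z _ ρ hρ Van' fun s _ => by rw [← hpz s, rdo_V_par G]) X hX
    simpa using this
  · have hz : HasDerivAt (fun s : ℂ => rP0 K 𝓡 h ((0, s), 0)) (K.kP h) 0 := by
      have := rdo_quot_deriv (fun s : ℂ => gc K 𝓡 h ((0, s), 0) 0) (fun s : ℂ => gq K 𝓡 h 0 ((0, s), 0) 0) _ (G.dz 0 h00) hDl (G.c_zero 0) (G.D_zero 0)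
      rw [mul_zero, rdo_aveCos_zero, mul_one] at this
      exact this
    have := rdo_readout (rP0 K 𝓡 h) ρ (4 * C) 0 (K.kP h) hρ Pan' (fun X hX => (Pbd X hX).trans (by linarith))
      (by unfold rP0; rw [G.c_zero, zero_div]) (rdo_odd_t _ ρ hρ fun s _ => by conv_lhs => rw [← hpt s, rdo_P_par G]) hz X hX
    simpa using this
  · have hz : HasDerivAt (fun s : ℂ => rM0 K 𝓡 wM h ((0, s), 0)) ((K.kP h * (aveCos (K.s.T h) (Step.alpha K.p.ω * wM) - 1) : ℝ) : ℂ) 0 := by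
      have := rdo_quot_deriv (fun s : ℂ => gc K 𝓡 h ((0, s), 0) wM - gc K 𝓡 h ((0, s), 0) 0) (fun s : ℂ => gq K 𝓡 h 0 ((0, s), 0) 0) _
        ((G.dz wM hw).sub (G.dz 0 h00)) hDl (by show gc K 𝓡 h 0 wM - gc K 𝓡 h 0 0 = 0; rw [G.c_zero, G.c_zero, sub_zero]) (G.D_zero 0)
      rw [mul_zero, rdo_aveCos_zero, mul_one] at this
      have e : ((K.kP h * (aveCos (K.s.T h) (Step.alpha K.p.ω * wM) - 1) : ℝ) : ℂ)
          = ((K.kP h * aveCos (K.s.T h) (Step.alpha K.p.ω * wM) : ℝ) : ℂ) - ((K.kP h : ℝ) : ℂ) := by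
        push_cast
        ring
      rw [e]
      exact this
    have := rdo_readout (rM0 K 𝓡 wM h) ρ (4 * C) 0 _ hρ Man' (fun X hX => (Mbd X hX).trans (by linarith))
      (by unfold rM0; rw [G.c_zero, G.c_zero, sub_zero, zero_div]) (rdo_odd_t _ ρ hρ fun s _ => by conv_lhs => rw [← hpt s, rdo_M_par G]) hz X hX
    simpa using this

/-! ## 4. The representation identities (abstract weight) -/

/-- the hypotheses of the representation at the stop `h`: a history of torus states which starts at the entry state `((0,0), a0)` of the weight `W` -/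
structure RepIn (K : Cfg) (𝓡 : Reg K.s) (j0 h : ℕ) (ρ : ℝ) (X : ∀ j, (ℂ × ℂ) × K.To 𝓡 j h) (W : ((𝓡.gs h).I → ℝ) → ℝ) : Prop where
  hj : j0 ≤ h
  h3 : 3 ≤ (𝓡.gs h).n
  hist : THist K 𝓡 j0 h ρ X
  wt : WtOK (𝓡.gs h) W
  scal : (X j0).1 = (0, 0)
  /-- the entry identity -/
  ident : ∃ cG : ℝ, 0 < cG ∧ ∀ ψ : (K.s.T h).V → ℝ, (HavW (aa K) (𝓡.gs h) (K.s.L ^ j0) W ψ : ℂ) = cG * Zlev K 𝓡 j0 h ((0, 0), (X j0).2) (toC ψ)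

/-- **the ratio identity**: charge `q`, real source `w` -/
theorem rdo_rep_core {j0 : ℕ} {cT : ℝ≥0} {ρ d1 Ce ρ1 C1 : ℝ} (B : Base K 𝓡 j0 cT) (hch : ChainOK K 𝓡 j0 ρ d1 Ce) {h : ℕ}
    {σ : K.To 𝓡 h h →L[ℂ] K.To 𝓡 h h} (G : GOK K 𝓡 h σ ρ1 C1) (hρ : ρ ≤ ρ1) {X : ∀ j, (ℂ × ℂ) × K.To 𝓡 j h} {W : ((𝓡.gs h).I → ℝ) → ℝ}
    (I : RepIn K 𝓡 j0 h ρ X W) (q : ℤ) (w : ℝ) (hw : |w * gam (aa K) (𝓡.gs h)| ≤ 1) :
    ((EhW (𝓡.gs h) W fun y => Real.cos (q * ybar (𝓡.gs h) y) * Real.exp (w * Xobs (𝓡.gs h) y) : ℝ) : ℂ)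
      = (Real.exp (v0raw (aa K) (𝓡.gs h) * w ^ 2 / 2) * Real.exp ((q : ℝ) ^ 2 * snr (𝓡.gs h) ^ 2 / 2) * hm K h h q : ℝ) *
        ((gq K 𝓡 h q (X h) (w * gam (aa K) (𝓡.gs h)) + gq K 𝓡 h (-q) (X h) (w * gam (aa K) (𝓡.gs h))) / 2) / gq K 𝓡 h 0 (X h) 0 := by
  obtain ⟨cG, hcG, hid⟩ := I.ident
  obtain ⟨cst, hcst, hst⟩ := rdo_stopT B hch I.hist h I.hj le_rfl
  have hX0 : X j0 = ((0, 0), (X j0).2) := Prod.ext I.scal rfl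
  have hXh : X h ∈ Metric.ball (0 : (ℂ × ℂ) × K.To 𝓡 h h) ρ1 := mem_ball_zero_iff.2 ((I.hist.inside h I.hj le_rfl).trans_le hρ)
  have hg0 := rdo_g0_ne G hXh
  have hsrc := rdo_src_EE K 𝓡 B.hF B.hω B.hh B.hA B.hδ B.hκ j0 cT B.tower B.geo h I.hj I.h3 W I.wt (X j0).2 cG hcG hid q w hw
  rw [← hX0, hst 0 0 (by simp), hst q _ hw, hst (-q) _ hw, rdo_EE_top, rdo_EE_top, rdo_EE_top, rdo_hm_zero, rdo_hm_neg, Complex.ofReal_one, one_mul] at hsrc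
  rw [eq_div_iff hg0]
  apply mul_left_cancel₀ hcst
  push_cast at hsrc ⊢
  linear_combination hsrc

/-- the phase expectation -/
theorem rdo_rep_cos {j0 : ℕ} {cT : ℝ≥0} {ρ d1 Ce ρ1 C1 : ℝ} (B : Base K 𝓡 j0 cT) (hch : ChainOK K 𝓡 j0 ρ d1 Ce) {h : ℕ}
    {σ : K.To 𝓡 h h →L[ℂ] K.To 𝓡 h h} (G : GOK K 𝓡 h σ ρ1 C1) (hρ : ρ ≤ ρ1) {X : ∀ j, (ℂ × ℂ) × K.To 𝓡 j h} {W : ((𝓡.gs h).I → ℝ) → ℝ}
    (I : RepIn K 𝓡 j0 h ρ X W) (w : ℝ) (hw : |w * gam (aa K) (𝓡.gs h)| ≤ 1) :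
    ((EhW (𝓡.gs h) W fun y => Real.cos (ybar (𝓡.gs h) y) * Real.exp (w * Xobs (𝓡.gs h) y) : ℝ) : ℂ)
      = (Real.exp (v0raw (aa K) (𝓡.gs h) * w ^ 2 / 2) * Real.exp (snr (𝓡.gs h) ^ 2 / 2) * hm K h h 1 : ℝ) *
        gc K 𝓡 h (X h) (w * gam (aa K) (𝓡.gs h)) / gq K 𝓡 h 0 (X h) 0 := by
  have := rdo_rep_core B hch G hρ I 1 w hw
  simp only [Int.cast_one, one_mul, one_pow] at this
  rw [this]
  rfl

/-- **representation of the phase observable** -/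
theorem rdo_repP {j0 : ℕ} {cT : ℝ≥0} {ρ d1 Ce ρ1 C1 : ℝ} (B : Base K 𝓡 j0 cT) (hch : ChainOK K 𝓡 j0 ρ d1 Ce) {h : ℕ}
    {σ : K.To 𝓡 h h →L[ℂ] K.To 𝓡 h h} (G : GOK K 𝓡 h σ ρ1 C1) (hρ : ρ ≤ ρ1) {X : ∀ j, (ℂ × ℂ) × K.To 𝓡 j h} {W : ((𝓡.gs h).I → ℝ) → ℝ}
    (I : RepIn K 𝓡 j0 h ρ X W) : (cPW (𝓡.gs h) W : ℂ) = rP K 𝓡 h (X h) := by
  have h0 := rdo_rep_cos B hch G hρ I 0 (by simp)
  simp only [zero_mul, Real.exp_zero, mul_one, ne_eq, OfNat.ofNat_ne_zero, not_false_eq_true, zero_pow, mul_zero, zero_div, one_mul] at h0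
  unfold cPW rP rP0 nP
  rw [Complex.ofReal_mul, h0]
  have e : Real.exp (snr (𝓡.gs h) ^ 2) = Real.exp (snr (𝓡.gs h) ^ 2 / 2) * Real.exp (snr (𝓡.gs h) ^ 2 / 2) := by
    rw [← Real.exp_add]; congr 1; ring
  rw [e]
  push_cast
  ring

/-- **representation of the mixed observable** -/
theorem rdo_repM {j0 : ℕ} {cT : ℝ≥0} {ρ d1 Ce ρ1 C1 : ℝ} (B : Base K 𝓡 j0 cT) (hch : ChainOK K 𝓡 j0 ρ d1 Ce) {h : ℕ}
    {σ : K.To 𝓡 h h →L[ℂ] K.To 𝓡 h h} (G : GOK K 𝓡 h σ ρ1 C1) (hρ : ρ ≤ ρ1) {X : ∀ j, (ℂ × ℂ) × K.To 𝓡 j h} {W : ((𝓡.gs h).I → ℝ) → ℝ}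
    (I : RepIn K 𝓡 j0 h ρ X W) (w0 : ℝ) (hw : |w0 * gam (aa K) (𝓡.gs h)| ≤ 1) :
    (cMW (aa K) w0 (𝓡.gs h) W : ℂ) = rM K 𝓡 w0 h (X h) := by
  have h0 := rdo_rep_cos B hch G hρ I 0 (by simp)
  have h1 := rdo_rep_cos B hch G hρ I w0 hw
  simp only [zero_mul, Real.exp_zero, mul_one, ne_eq, OfNat.ofNat_ne_zero, not_false_eq_true, zero_pow, mul_zero, zero_div, one_mul] at h0
  unfold cMW rM rM0 nM nP
  rw [Complex.ofReal_mul, Complex.ofReal_sub, Complex.ofReal_mul, h0, h1]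
  have e : Real.exp (snr (𝓡.gs h) ^ 2) = Real.exp (snr (𝓡.gs h) ^ 2 / 2) * Real.exp (snr (𝓡.gs h) ^ 2 / 2) := by
    rw [← Real.exp_add]; congr 1; ring
  rw [e]
  push_cast
  ring

/-- **representation of the variance observable** -/
theorem rdo_repV {j0 : ℕ} {cT : ℝ≥0} {ρ d1 Ce ρ1 C1 : ℝ} (B : Base K 𝓡 j0 cT) (hch : ChainOK K 𝓡 j0 ρ d1 Ce) {h : ℕ}
    {σ : K.To 𝓡 h h →L[ℂ] K.To 𝓡 h h} (G : GOK K 𝓡 h σ ρ1 C1) (hρ : ρ ≤ ρ1) {X : ∀ j, (ℂ × ℂ) × K.To 𝓡 j h} {W : ((𝓡.gs h).I → ℝ) → ℝ}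
    (I : RepIn K 𝓡 j0 h ρ X W) : (cVW (𝓡.gs h) W : ℂ) = v0 K 𝓡 h + rV K 𝓡 h (X h) := by
  have hXh : X h ∈ Metric.ball (0 : (ℂ × ℂ) × K.To 𝓡 h h) ρ1 := mem_ball_zero_iff.2 ((I.hist.inside h I.hj le_rfl).trans_le hρ)
  have hg0 : gq K 𝓡 h 0 (X h) 0 ≠ 0 := rdo_g0_ne G hXh
  obtain ⟨m1, -, m3, m4⟩ := rdo_ehw_deriv (𝓡.gs h) W I.wt
  obtain ⟨o1, o2⟩ := rdo_ofReal_deriv _ m1
  obtain ⟨s1, s2⟩ := rdo_second_deriv (gq K 𝓡 h 0 (X h)) (G.w_cd (X h) hXh) (G.w_even (X h)) (v0raw (aa K) (𝓡.gs h)) (gam (aa K) (𝓡.gs h)) (gq K 𝓡 h 0 (X h) 0)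
  have hev : (fun w : ℝ => ((EhW (𝓡.gs h) W fun y => Real.exp (w * Xobs (𝓡.gs h) y) : ℝ) : ℂ)) =ᶠ[𝓝 0]
      fun w : ℝ => (Real.exp (v0raw (aa K) (𝓡.gs h) * w ^ 2 / 2) : ℂ) * gq K 𝓡 h 0 (X h) (w * gam (aa K) (𝓡.gs h)) / gq K 𝓡 h 0 (X h) 0 := by
    have hr : (0 : ℝ) < 1 / (|gam (aa K) (𝓡.gs h)| + 1) := by positivity
    filter_upwards [Metric.ball_mem_nhds (0 : ℝ) hr] with w hw
    have hw1 : |w| < 1 / (|gam (aa K) (𝓡.gs h)| + 1) := by simpa [Real.norm_eq_abs] using mem_ball_zero_iff.1 hw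
    have hw2 : |w * gam (aa K) (𝓡.gs h)| ≤ 1 := by
      rw [abs_mul]
      have h1 : |w| * (|gam (aa K) (𝓡.gs h)| + 1) < 1 := (lt_div_iff₀ (by positivity)).1 hw1
      nlinarith [abs_nonneg w, abs_nonneg (gam (aa K) (𝓡.gs h))]
    have := rdo_rep_core B hch G hρ I 0 w hw2
    simp only [Int.cast_zero, zero_mul, Real.cos_zero, one_mul, ne_eq, OfNat.ofNat_ne_zero, not_false_eq_true, zero_pow, zero_div, Real.exp_zero, mul_one,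
      rdo_hm_zero, neg_zero] at this
    rw [this]
    congr 1
    congr 1
    ring
  have d1 : ((EhW (𝓡.gs h) W (Xobs (𝓡.gs h)) : ℝ) : ℂ) = 0 := by rw [← m3, ← o1, hev.deriv_eq, s1]
  have d2 : ((EhW (𝓡.gs h) W fun y => Xobs (𝓡.gs h) y ^ 2 : ℝ) : ℂ)
      = ((v0raw (aa K) (𝓡.gs h) : ℝ) * gq K 𝓡 h 0 (X h) 0 + ((gam (aa K) (𝓡.gs h) : ℝ) : ℂ) ^ 2 * iteratedDeriv 2 (gq K 𝓡 h 0 (X h)) 0) / gq K 𝓡 h 0 (X h) 0 := by
    rw [← m4, ← o2, hev.iteratedDeriv_eq 2, s2]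
  have d1' : EhW (𝓡.gs h) W (Xobs (𝓡.gs h)) = 0 := by exact_mod_cast d1
  unfold cVW v0 rV rV0 nV
  rw [d1']
  push_cast
  rw [d2]
  unfold v0raw
  push_cast
  field_simp
  ring

end

end Claimed.Agent.R285.Rdo
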