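import Claimed.Agent.R285.Hol.An
import Claimed.Agent.R285.Sp.Hol

/-!
# ROW 285, unit READOUT: abstract analysis (Mathlib + `Hol/An`, `Sp/Hol` only; paper-free)                      (architect helper16)

* `rdo_hol_integral` : holomorphy of a locally dominated parameter integral, the parameter in an ARBITRARY complex normed space (no measurability of the operator valued derivative is needed:
  uniform second order Taylor bound `sp_taylor_le`).
* `rdo_schwarz`      : **the read-out lemma**: a bounded holomorphic function `r` of `(t, z, R)` with `r 0 = 0`, `∂_t r (0) = a`, `∂_z r (0) = b` satisfies `|r X - a t - b z| ≤ (2M/ρ) ‖R‖ + (4M/ρ²) ‖X‖²`.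
* `rdo_even_z`, `rdo_odd_t` : parity kills one of the two scalar derivatives.
* `rdo_deriv_of_curve` : `∂_t r (0)` can be read on any curve `d ↦ (d, 0, O(d²))`.
* `rdo_fun_eq` : an entire function with `v (s) = e^{c s²} v (κ s)` on the real line has `v''(0) = 2 c v(0)/(1 - κ²)`, `v'(0) = 0`.
* `rdo_mgf` : derivatives of `z ↦ ∫ Φ e^{z ℓ}`.
-/

set_option autoImplicit false

namespace Claimed.Agent.R285.Rdo

open MeasureTheory Metric Filter Topology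
open Claimed.Agent.R285.RG Claimed.Agent.R285.Hol

noncomputable section

/-- holomorphy of a parameter integral: locally dominated, parameter in any complex normed space -/
theorem rdo_hol_integral {E Ω : Type} [NormedAddCommGroup E] [NormedSpace ℂ E] [MeasurableSpace Ω] (μ : Measure Ω)
    (U : Set E) (hU : IsOpen U) (F : E → Ω → ℂ) (hF : ∀ ω, DifferentiableOn ℂ (fun z => F z ω) U)
    (hm : ∀ z ∈ U, AEStronglyMeasurable (F z) μ)
    (hb : ∀ z ∈ U, ∃ ε > 0, ∃ b : Ω → ℝ, Integrable b μ ∧ ∀ z' ∈ Metric.ball z ε, ∀ ω, ‖F z' ω‖ ≤ b ω) :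
    DifferentiableOn ℂ (fun z => ∫ ω, F z ω ∂μ) U := by
  intro z₀ hz₀
  obtain ⟨ε, hε, b, hbi, hbb⟩ := hb z₀ hz₀
  obtain ⟨δ, hδ, hball⟩ := Metric.isOpen_iff.1 hU z₀ hz₀
  set r := min ε δ with hr
  have hr0 : 0 < r := lt_min hε hδ
  have hrU : ball z₀ r ⊆ U := (ball_subset_ball (min_le_right _ _)).trans hball
  have hrε : ball z₀ r ⊆ ball z₀ ε := ball_subset_ball (min_le_left _ _)
  have hd : ∀ ω, DifferentiableOn ℂ (fun z => F z ω) (ball z₀ r) := fun ω => (hF ω).mono hrU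
  have hM : ∀ ω, ∀ z ∈ ball z₀ r, ‖F z ω‖ ≤ b ω := fun ω z hz => hbb z (hrε hz) ω
  have hint : ∀ z ∈ ball z₀ r, Integrable (F z) μ := fun z hz =>
    hbi.mono' (hm z (hrU hz)) (Eventually.of_forall fun ω => hM ω z hz)
  -- the candidate derivative
  set D : Ω → E →L[ℂ] ℂ := fun ω => fderiv ℂ (fun z => F z ω) z₀ with hD
  have hDn : ∀ ω, ‖D ω‖ ≤ 2 * b ω / r := fun ω => sp_norm_fderiv_le hr0 (hd ω) (hM ω)
  have hDm : ∀ v, AEStronglyMeasurable (fun ω => D ω v) μ := fun v =>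
    aestronglyMeasurable_fderiv_apply hU hF hm hz₀ v
  have hDi : ∀ v, Integrable (fun ω => D ω v) μ := fun v => by
    refine ((hbi.const_mul (2 / r * ‖v‖))).mono' (hDm v) (Eventually.of_forall fun ω => ?_)
    calc ‖D ω v‖ ≤ ‖D ω‖ * ‖v‖ := (D ω).le_opNorm v
      _ ≤ 2 * b ω / r * ‖v‖ := by gcongr; exact hDn ω
      _ = 2 / r * ‖v‖ * b ω := by ring
  have hb0 : 0 ≤ ∫ ω, b ω ∂μ := integral_nonneg fun ω => (norm_nonneg _).trans (hM ω z₀ (mem_ball_self hr0))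
  let L0 : E →ₗ[ℂ] ℂ :=
    { toFun := fun v => ∫ ω, D ω v ∂μ
      map_add' := fun v w => by
        simp only [map_add]
        exact integral_add (hDi v) (hDi w)
      map_smul' := fun c v => by
        simp only [map_smul, smul_eq_mul, RingHom.id_apply]
        exact integral_const_mul c _ }
  let L : E →L[ℂ] ℂ := L0.mkContinuous (2 / r * ∫ ω, b ω ∂μ) fun v => by
    show ‖∫ ω, D ω v ∂μ‖ ≤ _
    calc ‖∫ ω, D ω v ∂μ‖ ≤ ∫ ω, 2 / r * ‖v‖ * b ω ∂μ := by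
          refine norm_integral_le_of_norm_le (hbi.const_mul _) (Eventually.of_forall fun ω => ?_)
          calc ‖D ω v‖ ≤ ‖D ω‖ * ‖v‖ := (D ω).le_opNorm v
            _ ≤ 2 * b ω / r * ‖v‖ := by gcongr; exact hDn ω
            _ = 2 / r * ‖v‖ * b ω := by ring
      _ = 2 / r * (∫ ω, b ω ∂μ) * ‖v‖ := by rw [integral_const_mul]; ring
  have hLv : ∀ v, L v = ∫ ω, D ω v ∂μ := fun v => rfl
  have key : HasFDerivAt (fun z => ∫ ω, F z ω ∂μ) L z₀ := by
    refine sp_hasFDerivAt_of_taylor (r := r) (C := 4 * (∫ ω, b ω ∂μ) / r ^ 2) hr0 fun z hz => ?_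
    have e1 : (∫ ω, F z ω ∂μ) - (∫ ω, F z₀ ω ∂μ) - L (z - z₀) = ∫ ω, (F z ω - F z₀ ω - D ω (z - z₀)) ∂μ := by
      have i1 : Integrable (fun ω => F z ω - F z₀ ω) μ := (hint z hz).sub (hint z₀ (mem_ball_self hr0))
      rw [hLv, integral_sub i1 (hDi _), integral_sub (hint z hz) (hint z₀ (mem_ball_self hr0))]
    rw [e1]
    calc ‖∫ ω, (F z ω - F z₀ ω - D ω (z - z₀)) ∂μ‖ ≤ ∫ ω, 4 * (‖z - z₀‖ / r) ^ 2 * b ω ∂μ := by
          refine norm_integral_le_of_norm_le (hbi.const_mul _) (Eventually.of_forall fun ω => ?_)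
          have := sp_taylor_le (hd ω) (hM ω) hz
          calc ‖F z ω - F z₀ ω - D ω (z - z₀)‖ ≤ 4 * b ω * (‖z - z₀‖ / r) ^ 2 := this
            _ = 4 * (‖z - z₀‖ / r) ^ 2 * b ω := by ring
      _ = 4 * (∫ ω, b ω ∂μ) / r ^ 2 * ‖z - z₀‖ ^ 2 := by rw [integral_const_mul]; field_simp
  exact key.differentiableAt.differentiableWithinAt

section readout

variable {T : Type} [NormedAddCommGroup T] [NormedSpace ℂ T]

/-- **the read-out lemma** -/
theorem rdo_schwarz (r : (ℂ × ℂ) × T → ℂ) (ρ M : ℝ) (a b : ℂ) (hρ : 0 < ρ) (hd : DifferentiableOn ℂ r (ball 0 ρ))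
    (hM : ∀ X ∈ ball (0 : (ℂ × ℂ) × T) ρ, ‖r X‖ ≤ M) (h0 : r 0 = 0)
    (ht : HasDerivAt (fun s : ℂ => r ((s, 0), 0)) a 0) (hz : HasDerivAt (fun s : ℂ => r ((0, s), 0)) b 0) :
    ∀ X ∈ ball (0 : (ℂ × ℂ) × T) ρ, ‖r X - (a * X.1.1 + b * X.1.2)‖ ≤ 2 * M / ρ * ‖X.2‖ + 4 * M / ρ ^ 2 * ‖X‖ ^ 2 := by
  intro X hX
  set L := fderiv ℂ r 0 with hL
  have hr0 : HasFDerivAt r L 0 := (hd.differentiableAt (ball_mem_nhds 0 hρ)).hasFDerivAt
  have hLn : ‖L‖ ≤ 2 * M / ρ := sp_norm_fderiv_le hρ hd hM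
  have htay := sp_taylor_le hd hM hX
  rw [h0, sub_zero, sub_zero] at htay
  -- the two scalar derivatives
  have h1 : L ((1, 0), 0) = a := by
    have hc : HasDerivAt (fun s : ℂ => (((s, (0 : ℂ)), (0 : T)) : (ℂ × ℂ) × T)) ((1, 0), 0) 0 :=
      ((hasDerivAt_id (0 : ℂ)).prodMk (hasDerivAt_const _ _)).prodMk (hasDerivAt_const _ _)
    have h2 : HasDerivAt (fun s : ℂ => r ((s, 0), 0)) (L ((1, 0), 0)) 0 :=
      HasFDerivAt.comp_hasDerivAt (x := (0 : ℂ)) (f := fun s : ℂ => (((s, (0 : ℂ)), (0 : T)) : (ℂ × ℂ) × T)) (l := r)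
        (show HasFDerivAt r L (((0 : ℂ), (0 : ℂ)), (0 : T)) from hr0) hc
    exact h2.unique ht
  have h2 : L ((0, 1), 0) = b := by
    have hc : HasDerivAt (fun s : ℂ => ((((0 : ℂ), s), (0 : T)) : (ℂ × ℂ) × T)) ((0, 1), 0) 0 :=
      ((hasDerivAt_const _ _).prodMk (hasDerivAt_id (0 : ℂ))).prodMk (hasDerivAt_const _ _)
    have h2 : HasDerivAt (fun s : ℂ => r ((0, s), 0)) (L ((0, 1), 0)) 0 :=
      HasFDerivAt.comp_hasDerivAt (x := (0 : ℂ)) (f := fun s : ℂ => ((((0 : ℂ), s), (0 : T)) : (ℂ × ℂ) × T)) (l := r)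
        (show HasFDerivAt r L (((0 : ℂ), (0 : ℂ)), (0 : T)) from hr0) hc
    exact h2.unique hz
  have hdec : X = X.1.1 • (((1 : ℂ), (0 : ℂ)), (0 : T)) + X.1.2 • (((0 : ℂ), (1 : ℂ)), (0 : T)) + (((0 : ℂ), (0 : ℂ)), X.2) := by
    ext <;> simp
  have hLX : L X = a * X.1.1 + b * X.1.2 + L ((0, 0), X.2) := by
    conv_lhs => rw [hdec]
    rw [map_add, map_add, map_smul, map_smul, h1, h2]
    simp only [smul_eq_mul]
    ring
  have h3 : ‖L ((0, 0), X.2)‖ ≤ 2 * M / ρ * ‖X.2‖ := by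
    calc ‖L ((0, 0), X.2)‖ ≤ ‖L‖ * ‖(((0 : ℂ), (0 : ℂ)), X.2)‖ := L.le_opNorm _
      _ ≤ 2 * M / ρ * ‖X.2‖ := by
          have : ‖(((0 : ℂ), (0 : ℂ)), X.2)‖ = ‖X.2‖ := by simp [Prod.norm_def]
          rw [this]; gcongr
  calc ‖r X - (a * X.1.1 + b * X.1.2)‖ = ‖(r X - L X) + L ((0, 0), X.2)‖ := by rw [hLX]; congr 1; ring
    _ ≤ ‖r X - L X‖ + ‖L ((0, 0), X.2)‖ := norm_add_le _ _
    _ ≤ 4 * M * (‖X‖ / ρ) ^ 2 + 2 * M / ρ * ‖X.2‖ := add_le_add htay h3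
    _ = 2 * M / ρ * ‖X.2‖ + 4 * M / ρ ^ 2 * ‖X‖ ^ 2 := by field_simp; ring

/-- an even read-out has no linear `z` term -/
theorem rdo_even_z (r : (ℂ × ℂ) × T → ℂ) (ρ : ℝ) (hρ : 0 < ρ) (hd : DifferentiableOn ℂ r (ball 0 ρ))
    (hpar : ∀ s : ℂ, ‖s‖ < ρ → r ((0, -s), 0) = r ((0, s), 0)) : HasDerivAt (fun s : ℂ => r ((0, s), 0)) 0 0 := by
  have hr0 : HasFDerivAt r (fderiv ℂ r 0) 0 := (hd.differentiableAt (ball_mem_nhds 0 hρ)).hasFDerivAt
  have hc : HasDerivAt (fun s : ℂ => ((((0 : ℂ), s), (0 : T)) : (ℂ × ℂ) × T)) ((0, 1), 0) 0 :=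
    ((hasDerivAt_const _ _).prodMk (hasDerivAt_id (0 : ℂ))).prodMk (hasDerivAt_const _ _)
  have h2 : HasDerivAt (fun s : ℂ => r ((0, s), 0)) (fderiv ℂ r 0 ((0, 1), 0)) 0 :=
    HasFDerivAt.comp_hasDerivAt (x := (0 : ℂ)) (f := fun s : ℂ => ((((0 : ℂ), s), (0 : T)) : (ℂ × ℂ) × T)) (l := r)
      (show HasFDerivAt r (fderiv ℂ r 0) (((0 : ℂ), (0 : ℂ)), (0 : T)) from hr0) hc
  have h3 : HasDerivAt (fun s : ℂ => r ((0, -s), 0)) (fderiv ℂ r 0 ((0, 1), 0) * (-1)) 0 := by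
    have h4 : HasDerivAt (fun s : ℂ => r ((0, s), 0)) (fderiv ℂ r 0 ((0, 1), 0)) (-(0 : ℂ)) := by simpa using h2
    exact HasDerivAt.comp (x := (0 : ℂ)) (h₂ := fun s : ℂ => r ((0, s), 0)) (h := fun s : ℂ => -s) h4 (hasDerivAt_neg 0)
  have h5 : (fun s : ℂ => r ((0, -s), 0)) =ᶠ[𝓝 0] fun s : ℂ => r ((0, s), 0) := by
    filter_upwards [ball_mem_nhds (0 : ℂ) hρ] with s hs
    exact hpar s (by simpa using hs)
  have h6 := (h2.congr_of_eventuallyEq h5).unique h3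
  have h7 : fderiv ℂ r 0 ((0, 1), 0) = 0 := by
    have : (2 : ℂ) * fderiv ℂ r 0 ((0, 1), 0) = 0 := by linear_combination h6
    simpa using this
  rwa [h7] at h2

/-- an odd read-out has no linear `t` term -/
theorem rdo_odd_t (r : (ℂ × ℂ) × T → ℂ) (ρ : ℝ) (hρ : 0 < ρ)
    (hpar : ∀ s : ℂ, ‖s‖ < ρ → r ((s, 0), 0) = -r ((s, 0), 0)) : HasDerivAt (fun s : ℂ => r ((s, 0), 0)) 0 0 := by
  have h5 : (fun s : ℂ => r ((s, 0), 0)) =ᶠ[𝓝 0] fun _ : ℂ => (0 : ℂ) := by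
    filter_upwards [ball_mem_nhds (0 : ℂ) hρ] with s hs
    have h1 := hpar s (by simpa using hs)
    have : (2 : ℂ) * r ((s, 0), 0) = 0 := by linear_combination h1
    simpa using this
  exact (hasDerivAt_const (0 : ℂ) (0 : ℂ)).congr_of_eventuallyEq h5

/-- `∂_t r (0)` can be read on any curve `d ↦ (d, 0, O(d²))` -/
theorem rdo_deriv_of_curve (r : (ℂ × ℂ) × T → ℂ) (hd : DifferentiableAt ℂ r 0) (e : ℂ → T) (d1 C : ℝ) (hd1 : 0 < d1)
    (he : ∀ d : ℂ, ‖d‖ < d1 → ‖e d‖ ≤ C * ‖d‖ ^ 2) (k : ℂ) (hk : HasDerivAt (fun d : ℂ => r ((d, 0), e d)) k 0) :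
    HasDerivAt (fun s : ℂ => r ((s, 0), 0)) k 0 := by
  have hr0 : HasFDerivAt r (fderiv ℂ r 0) 0 := hd.hasFDerivAt
  have he0 : e 0 = 0 := by
    have := he 0 (by simpa using hd1)
    simpa using this
  have hde : HasDerivAt e 0 0 := by
    have h1 : HasFDerivAt e (0 : ℂ →L[ℂ] T) 0 := by
      refine sp_hasFDerivAt_of_taylor (r := d1) (C := C) hd1 fun z hz => ?_
      have := he z (by simpa using hz)
      simpa [he0] using this
    have h2 := h1.hasDerivAt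
    simpa using h2
  have hc : HasDerivAt (fun s : ℂ => (((s, (0 : ℂ)), (0 : T)) : (ℂ × ℂ) × T)) ((1, 0), 0) 0 :=
    ((hasDerivAt_id (0 : ℂ)).prodMk (hasDerivAt_const _ _)).prodMk (hasDerivAt_const _ _)
  have hc' : HasDerivAt (fun s : ℂ => (((s, (0 : ℂ)), e s) : (ℂ × ℂ) × T)) ((1, 0), 0) 0 :=
    ((hasDerivAt_id (0 : ℂ)).prodMk (hasDerivAt_const _ _)).prodMk hde
  have h2 : HasDerivAt (fun s : ℂ => r ((s, 0), 0)) (fderiv ℂ r 0 ((1, 0), 0)) 0 :=
    HasFDerivAt.comp_hasDerivAt (x := (0 : ℂ)) (f := fun s : ℂ => (((s, (0 : ℂ)), (0 : T)) : (ℂ × ℂ) × T)) (l := r)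
      (show HasFDerivAt r (fderiv ℂ r 0) (((0 : ℂ), (0 : ℂ)), (0 : T)) from hr0) hc
  have h3 : HasDerivAt (fun s : ℂ => r ((s, 0), e s)) (fderiv ℂ r 0 ((1, 0), 0)) 0 :=
    HasFDerivAt.comp_hasDerivAt (x := (0 : ℂ)) (f := fun s : ℂ => (((s, (0 : ℂ)), e s) : (ℂ × ℂ) × T)) (l := r)
      (show HasFDerivAt r (fderiv ℂ r 0) (((0 : ℂ), (0 : ℂ)), e 0) by rw [he0]; exact hr0) hc'
  rw [hk.unique h3]
  exact h2

end readout

/-- (`rdo_real_deriv`, stated before its first use) -/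
theorem rdo_real_deriv_aux (F : ℂ → ℂ) (r : ℝ) (hr : 0 < r) (hF : DifferentiableOn ℂ F (ball 0 r)) :
    deriv (fun w : ℝ => F w) 0 = deriv F 0 ∧ iteratedDeriv 2 (fun w : ℝ => F w) 0 = iteratedDeriv 2 F 0 := by
  have hd : ∀ z ∈ ball (0 : ℂ) r, HasDerivAt F (deriv F z) z := fun z hz =>
    (hF.differentiableAt (isOpen_ball.mem_nhds hz)).hasDerivAt
  have hre : ∀ w : ℝ, |w| < r → HasDerivAt (fun w : ℝ => F w) (deriv F w) w := fun w hw =>
    (hd w (by simpa using hw)).comp_ofReal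
  have h0 : |(0 : ℝ)| < r := by simpa using hr
  have hF' : DifferentiableOn ℂ (deriv F) (ball 0 r) := hF.deriv isOpen_ball
  have hd' : HasDerivAt (deriv F) (deriv (deriv F) 0) 0 :=
    (hF'.differentiableAt (ball_mem_nhds 0 hr)).hasDerivAt
  refine ⟨by simpa using (hre 0 h0).deriv, ?_⟩
  have hev : deriv (fun w : ℝ => F w) =ᶠ[𝓝 0] fun w : ℝ => deriv F w := by
    have : ∀ᶠ w : ℝ in 𝓝 0, |w| < r := by
      have := (continuous_abs.tendsto (0 : ℝ)).eventually (gt_mem_nhds (show |(0 : ℝ)| < r from h0))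
      exact this
    filter_upwards [this] with w hw
    exact (hre w hw).deriv
  rw [iteratedDeriv_succ, iteratedDeriv_one, iteratedDeriv_succ, iteratedDeriv_one, hev.deriv_eq]
  have h2 : HasDerivAt (fun w : ℝ => deriv F w) (deriv (deriv F) 0) 0 := by
    have : HasDerivAt (deriv F) (deriv (deriv F) 0) ((0 : ℝ) : ℂ) := by simpa using hd'
    exact this.comp_ofReal
  exact h2.deriv

/-- the functional equation of the exact Gaussian response -/
theorem rdo_fun_eq (v : ℂ → ℂ) (hv : Differentiable ℂ v) (c κ : ℂ) (hκ : κ ^ 2 ≠ 1) (hκ1 : κ ≠ 1)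
    (h : ∀ s : ℝ, v s = Complex.exp (c * (s : ℂ) ^ 2) * v (κ * s)) :
    deriv v 0 = 0 ∧ iteratedDeriv 2 v 0 = 2 * c * v 0 / (1 - κ ^ 2) := by
  have hv' : Differentiable ℂ (deriv v) := fun z =>
    ((hv.differentiableOn (s := Set.univ)).deriv isOpen_univ).differentiableAt (isOpen_univ.mem_nhds (Set.mem_univ z))
  have dv : ∀ z, HasDerivAt v (deriv v z) z := fun z => (hv z).hasDerivAt
  have dv' : ∀ z, HasDerivAt (deriv v) (deriv (deriv v) z) z := fun z => (hv' z).hasDerivAt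
  -- the pieces
  have dq : ∀ z : ℂ, HasDerivAt (fun z : ℂ => c * z ^ 2) (c * (2 * z)) z := fun z => by
    have := ((hasDerivAt_id z).pow 2).const_mul c
    simpa using this
  have de : ∀ z : ℂ, HasDerivAt (fun z : ℂ => Complex.exp (c * z ^ 2)) (Complex.exp (c * z ^ 2) * (c * (2 * z))) z :=
    fun z => (dq z).cexp
  have dk : ∀ z : ℂ, HasDerivAt (fun z : ℂ => κ * z) κ z := fun z => by
    simpa using (hasDerivAt_id z).const_mul κ
  have dvk : ∀ z : ℂ, HasDerivAt (fun z : ℂ => v (κ * z)) (deriv v (κ * z) * κ) z := fun z =>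
    (dv (κ * z)).comp z (dk z)
  have dvk' : ∀ z : ℂ, HasDerivAt (fun z : ℂ => deriv v (κ * z)) (deriv (deriv v) (κ * z) * κ) z := fun z =>
    (dv' (κ * z)).comp z (dk z)
  set G : ℂ → ℂ := fun z => v z - Complex.exp (c * z ^ 2) * v (κ * z) with hG
  set G1 : ℂ → ℂ := fun z => deriv v z -
    (Complex.exp (c * z ^ 2) * (c * (2 * z)) * v (κ * z) + Complex.exp (c * z ^ 2) * (deriv v (κ * z) * κ)) with hG1
  have dG : ∀ z, HasDerivAt G (G1 z) z := fun z => (dv z).sub ((de z).mul (dvk z))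
  have hGd : Differentiable ℂ G := fun z => (dG z).differentiableAt
  have hderivG : deriv G = G1 := funext fun z => (dG z).deriv
  have dlin : ∀ z : ℂ, HasDerivAt (fun z : ℂ => c * (2 * z)) (c * 2) z := fun z => by
    simpa using ((hasDerivAt_id z).const_mul (2 : ℂ)).const_mul c
  have dG1 : HasDerivAt G1 (deriv (deriv v) 0 -
      (((Complex.exp (c * (0:ℂ) ^ 2) * (c * (2 * 0))) * (c * (2 * 0)) + Complex.exp (c * (0:ℂ) ^ 2) * (c * 2)) * v (κ * 0)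
          + Complex.exp (c * (0:ℂ) ^ 2) * (c * (2 * 0)) * (deriv v (κ * 0) * κ)
        + ((Complex.exp (c * (0:ℂ) ^ 2) * (c * (2 * 0))) * (deriv v (κ * 0) * κ)
          + Complex.exp (c * (0:ℂ) ^ 2) * (deriv (deriv v) (κ * 0) * κ * κ)))) 0 :=
    (dv' 0).sub ((((de 0).mul (dlin 0)).mul (dvk 0)).add ((de 0).mul ((dvk' 0).mul_const κ)))
  obtain ⟨r1, r2⟩ := rdo_real_deriv_aux G 1 one_pos hGd.differentiableOn
  have hzero : (fun w : ℝ => G w) = fun _ => 0 := by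
    funext w
    simp only [hG]
    rw [h w, sub_self]
  rw [hzero] at r1 r2
  have e1 : deriv G 0 = 0 := by
    rw [← r1]
    simp
  have e2 : iteratedDeriv 2 G 0 = 0 := by
    rw [← r2]
    simp
  rw [hderivG] at e1
  rw [iteratedDeriv_succ, iteratedDeriv_one, hderivG, dG1.deriv] at e2
  simp only [hG1, mul_zero, ne_eq, OfNat.ofNat_ne_zero, not_false_eq_true, zero_pow, Complex.exp_zero, zero_mul,
    one_mul, zero_add, add_zero] at e1 e2
  have hk1 : (1 : ℂ) - κ ≠ 0 := sub_ne_zero.2 (Ne.symm hκ1)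
  have hk2 : (1 : ℂ) - κ ^ 2 ≠ 0 := sub_ne_zero.2 (Ne.symm hκ)
  have hd0 : deriv v 0 = 0 := by
    have : (1 - κ) * deriv v 0 = 0 := by linear_combination e1
    exact (mul_eq_zero.1 this).resolve_left hk1
  refine ⟨hd0, ?_⟩
  rw [iteratedDeriv_succ, iteratedDeriv_one, eq_div_iff hk2]
  linear_combination e2

/-- the restriction to the real line of a holomorphic function: first two derivatives at `0` -/
theorem rdo_real_deriv (F : ℂ → ℂ) (r : ℝ) (hr : 0 < r) (hF : DifferentiableOn ℂ F (ball 0 r)) :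
    deriv (fun w : ℝ => F w) 0 = deriv F 0 ∧ iteratedDeriv 2 (fun w : ℝ => F w) 0 = iteratedDeriv 2 F 0 := by
  exact rdo_real_deriv_aux F r hr hF

/-- `t^n e^{r t} ≤ n!/δ^n e^{(r+δ) t}` -/
theorem rdo_pow_exp_le (n : ℕ) (r δ t : ℝ) (hδ : 0 < δ) (ht : 0 ≤ t) :
    t ^ n * Real.exp (r * t) ≤ (n.factorial : ℝ) / δ ^ n * Real.exp ((r + δ) * t) := by
  have h1 := Real.pow_div_factorial_le_exp (δ * t) (by positivity) n
  have hf : (0 : ℝ) < (n.factorial : ℝ) := by exact_mod_cast n.factorial_pos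
  have h2 : t ^ n ≤ (n.factorial : ℝ) / δ ^ n * Real.exp (δ * t) := by
    rw [div_le_iff₀ hf, mul_pow] at h1
    rw [div_mul_eq_mul_div, le_div_iff₀ (by positivity)]
    nlinarith
  calc t ^ n * Real.exp (r * t) ≤ ((n.factorial : ℝ) / δ ^ n * Real.exp (δ * t)) * Real.exp (r * t) :=
        mul_le_mul_of_nonneg_right h2 (Real.exp_pos _).le
    _ = (n.factorial : ℝ) / δ ^ n * Real.exp ((r + δ) * t) := by
        rw [mul_assoc, ← Real.exp_add]
        congr 2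
        ring

theorem rdo_mgf_bound (Φ : ℂ) (l ε r : ℝ) (hr : r < ε) (n : ℕ) (z : ℂ) (hz : ‖z‖ ≤ r) :
    ‖Φ * (l : ℂ) ^ n * Complex.exp (z * l)‖ ≤ (n.factorial : ℝ) / (ε - r) ^ n * (‖Φ‖ * Real.exp (ε * |l|)) := by
  have h1 : ‖Complex.exp (z * l)‖ ≤ Real.exp (r * |l|) := by
    rw [Complex.norm_exp]
    apply Real.exp_le_exp.2
    calc (z * (l : ℂ)).re ≤ ‖z * (l : ℂ)‖ := Complex.re_le_norm _
      _ = ‖z‖ * |l| := by rw [norm_mul, Complex.norm_real, Real.norm_eq_abs]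
      _ ≤ r * |l| := mul_le_mul_of_nonneg_right hz (abs_nonneg _)
  have h2 := rdo_pow_exp_le n r (ε - r) |l| (by linarith) (abs_nonneg l)
  have e : r + (ε - r) = ε := by ring
  rw [e] at h2
  calc ‖Φ * (l : ℂ) ^ n * Complex.exp (z * l)‖ = ‖Φ‖ * (|l| ^ n * ‖Complex.exp (z * l)‖) := by
        rw [norm_mul, norm_mul, norm_pow, Complex.norm_real, Real.norm_eq_abs, mul_assoc]
    _ ≤ ‖Φ‖ * (|l| ^ n * Real.exp (r * |l|)) := by gcongr
    _ ≤ ‖Φ‖ * ((n.factorial : ℝ) / (ε - r) ^ n * Real.exp (ε * |l|)) := by gcongr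
    _ = _ := by ring

theorem rdo_mgf_aux {Ω : Type} [MeasurableSpace Ω] (μ : Measure Ω) (Φ : Ω → ℂ) (l : Ω → ℝ) (ε : ℝ)
    (hΦ : AEStronglyMeasurable Φ μ) (hl : AEMeasurable l μ) (hint : Integrable (fun ω => ‖Φ ω‖ * Real.exp (ε * |l ω|)) μ)
    (k : ℕ) (z₀ : ℂ) (hz₀ : ‖z₀‖ < ε) :
    HasDerivAt (fun z : ℂ => ∫ ω, Φ ω * (l ω : ℂ) ^ k * Complex.exp (z * l ω) ∂μ)
      (∫ ω, Φ ω * (l ω : ℂ) ^ (k + 1) * Complex.exp (z₀ * l ω) ∂μ) z₀ := by
  obtain ⟨r, hr⟩ : ∃ r, r = (‖z₀‖ + ε) / 2 := ⟨_, rfl⟩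
  have hr1 : ‖z₀‖ < r := by rw [hr]; linarith
  have hr2 : r < ε := by rw [hr]; linarith
  have hlc : AEStronglyMeasurable (fun ω => (l ω : ℂ)) μ :=
    (Complex.measurable_ofReal.comp_aemeasurable hl).aestronglyMeasurable
  have hmeas : ∀ (n : ℕ) (z : ℂ), AEStronglyMeasurable (fun ω => Φ ω * (l ω : ℂ) ^ n * Complex.exp (z * l ω)) μ := by
    intro n z
    refine (hΦ.mul (hlc.pow n)).mul ?_
    exact Complex.continuous_exp.comp_aestronglyMeasurable (hlc.const_mul z)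
  have hs : ball (0 : ℂ) r ∈ 𝓝 z₀ := isOpen_ball.mem_nhds (by simpa using hr1)
  refine (hasDerivAt_integral_of_dominated_loc_of_deriv_le (μ := μ)
    (F := fun z ω => Φ ω * (l ω : ℂ) ^ k * Complex.exp (z * l ω))
    (F' := fun z ω => Φ ω * (l ω : ℂ) ^ (k + 1) * Complex.exp (z * l ω))
    (bound := fun ω => ((k + 1).factorial : ℝ) / (ε - r) ^ (k + 1) * (‖Φ ω‖ * Real.exp (ε * |l ω|)))
    hs (Eventually.of_forall fun z => hmeas k z) ?_ (hmeas (k + 1) z₀) ?_ (hint.const_mul _) ?_).2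
  · refine (hint.const_mul ((k.factorial : ℝ) / (ε - r) ^ k)).mono' (hmeas k z₀) (Eventually.of_forall fun ω => ?_)
    exact rdo_mgf_bound (Φ ω) (l ω) ε r hr2 k z₀ hr1.le
  · refine Eventually.of_forall fun ω z hz => ?_
    exact rdo_mgf_bound (Φ ω) (l ω) ε r hr2 (k + 1) z (by simpa using (mem_ball.1 hz).le)
  · refine Eventually.of_forall fun ω z _ => ?_
    have h1 : HasDerivAt (fun z : ℂ => Complex.exp (z * l ω)) (Complex.exp (z * l ω) * (1 * (l ω : ℂ))) z :=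
      ((hasDerivAt_id z).mul_const (l ω : ℂ)).cexp
    have h2 := h1.const_mul (Φ ω * (l ω : ℂ) ^ k)
    have e : Φ ω * (l ω : ℂ) ^ (k + 1) * Complex.exp (z * l ω)
        = Φ ω * (l ω : ℂ) ^ k * (Complex.exp (z * l ω) * (1 * (l ω : ℂ))) := by ring
    rw [e]
    exact h2

/-- a `C²` germ: derivative near the point, second derivative at the point -/
theorem rdo_c2_germ (g : ℝ → ℂ) (hg : ContDiffAt ℝ 2 g 0) :
    (∀ᶠ x in 𝓝 (0 : ℝ), HasDerivAt g (deriv g x) x) ∧ HasDerivAt (deriv g) (iteratedDeriv 2 g 0) 0 := by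
  constructor
  · filter_upwards [hg.eventually (by simp)] with x hx
    exact (hx.differentiableAt (by simp)).hasDerivAt
  · have h1 : ContDiffAt ℝ 1 (fderiv ℝ g) 0 := hg.fderiv_right (m := 1) (by norm_num)
    have h2 : DifferentiableAt ℝ (fderiv ℝ g) 0 := h1.differentiableAt (by simp)
    have h3 : DifferentiableAt ℝ (deriv g) 0 := by
      have : deriv g = fun x => fderiv ℝ g x 1 := by
        funext x
        rfl
      rw [this]
      exact h2.clm_apply (differentiableAt_const _)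
    rw [iteratedDeriv_succ, iteratedDeriv_one]
    exact h3.hasDerivAt

/-- `L-RDO-A4` the first two derivatives at `0` of `w ↦ e^{v w²/2} g (w γ)/c` for an even `g` -/
theorem rdo_second_deriv (g : ℝ → ℂ) (hg : ContDiffAt ℝ 2 g 0) (heven : ∀ w, g (-w) = g w) (v γ : ℝ) (c : ℂ) :
    deriv (fun w : ℝ => (Real.exp (v * w ^ 2 / 2) : ℂ) * g (w * γ) / c) 0 = 0 ∧
    iteratedDeriv 2 (fun w : ℝ => (Real.exp (v * w ^ 2 / 2) : ℂ) * g (w * γ) / c) 0 = (v * g 0 + (γ : ℂ) ^ 2 * iteratedDeriv 2 g 0) / c := by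
  obtain ⟨h1, h2⟩ := rdo_c2_germ g hg
  -- the derivative of an even function vanishes at `0`
  have hg0 : deriv g 0 = 0 := by
    have a1 : HasDerivAt g (deriv g 0) 0 := h1.self_of_nhds
    have a2 : HasDerivAt (fun w : ℝ => g (-w)) (-deriv g 0) 0 := by
      have a3 : HasDerivAt g (deriv g 0) (-(0 : ℝ)) := by simpa using a1
      have := HasDerivAt.scomp (0 : ℝ) a3 (hasDerivAt_neg (0 : ℝ))
      have e : (-1 : ℝ) • deriv g 0 = -deriv g 0 := by simp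
      rw [e] at this
      exact this
    have a4 : (fun w : ℝ => g (-w)) = g := funext heven
    rw [a4] at a2
    have a5 := a1.unique a2
    have : (2 : ℂ) * deriv g 0 = 0 := by linear_combination a5
    simpa using this
  -- the pieces
  have de : ∀ w : ℝ, HasDerivAt (fun w : ℝ => ((Real.exp (v * w ^ 2 / 2) : ℝ) : ℂ))
      ((Real.exp (v * w ^ 2 / 2) * (v * w) : ℝ) : ℂ) w := fun w => by
    have b1 : HasDerivAt (fun w : ℝ => v * w ^ 2 / 2) (v * w) w := by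
      have b0 : HasDerivAt (fun w : ℝ => w ^ 2) (2 * w) w := by
        simpa using hasDerivAt_pow 2 w
      have b2 := (b0.const_mul v).div_const 2
      have e : v * (2 * w) / 2 = v * w := by ring
      rw [e] at b2
      exact b2
    exact b1.exp.ofReal_comp
  have dl : ∀ w : ℝ, HasDerivAt (fun w : ℝ => w * γ) γ w := fun w => by
    simpa using (hasDerivAt_id w).mul_const γ
  have hev : ∀ᶠ w in 𝓝 (0 : ℝ), HasDerivAt g (deriv g (w * γ)) (w * γ) := by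
    have ht : Tendsto (fun w : ℝ => w * γ) (𝓝 0) (𝓝 0) := by
      have := (dl 0).continuousAt.tendsto
      simpa using this
    exact ht.eventually h1
  set F1 : ℝ → ℂ := fun w => (((Real.exp (v * w ^ 2 / 2) * (v * w) : ℝ) : ℂ) * g (w * γ)
    + ((Real.exp (v * w ^ 2 / 2) : ℝ) : ℂ) * ((γ : ℂ) * deriv g (w * γ))) / c with hF1
  have dF : ∀ᶠ w in 𝓝 (0 : ℝ), HasDerivAt (fun w : ℝ => (Real.exp (v * w ^ 2 / 2) : ℂ) * g (w * γ) / c) (F1 w) w := by
    filter_upwards [hev] with w hw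
    have c1 : HasDerivAt (fun w : ℝ => g (w * γ)) ((γ : ℂ) * deriv g (w * γ)) w := by
      have := HasDerivAt.scomp w hw (dl w)
      have e : γ • deriv g (w * γ) = (γ : ℂ) * deriv g (w * γ) := by simp
      rw [e] at this
      exact this
    exact ((de w).mul c1).div_const c
  refine ⟨?_, ?_⟩
  · rw [dF.self_of_nhds.deriv]
    simp [hF1, hg0]
  · have hd : deriv (fun w : ℝ => (Real.exp (v * w ^ 2 / 2) : ℂ) * g (w * γ) / c) =ᶠ[𝓝 0] F1 := by
      filter_upwards [dF] with w hw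
      exact hw.deriv
    rw [iteratedDeriv_succ, iteratedDeriv_one, hd.deriv_eq]
    -- the derivative of `F1` at `0`
    have c0 : HasDerivAt (fun w : ℝ => g (w * γ)) ((γ : ℂ) * deriv g (0 * γ)) 0 := by
      have := HasDerivAt.scomp (0 : ℝ) hev.self_of_nhds (dl 0)
      have e : γ • deriv g (0 * γ) = (γ : ℂ) * deriv g (0 * γ) := by simp
      rw [e] at this
      exact this
    have c2 : HasDerivAt (fun w : ℝ => deriv g (w * γ)) ((γ : ℂ) * iteratedDeriv 2 g 0) 0 := by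
      have h2' : HasDerivAt (deriv g) (iteratedDeriv 2 g 0) ((0 : ℝ) * γ) := by simpa using h2
      have := HasDerivAt.scomp (0 : ℝ) h2' (dl 0)
      have e : γ • iteratedDeriv 2 g 0 = (γ : ℂ) * iteratedDeriv 2 g 0 := by simp
      rw [e] at this
      exact this
    have c3 : HasDerivAt (fun w : ℝ => ((Real.exp (v * w ^ 2 / 2) * (v * w) : ℝ) : ℂ))
        ((Real.exp (v * (0 : ℝ) ^ 2 / 2) * (v * 0) * (v * 0) + Real.exp (v * (0 : ℝ) ^ 2 / 2) * v : ℝ) : ℂ) 0 := by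
      have b1 : HasDerivAt (fun w : ℝ => v * w ^ 2 / 2) (v * 0) 0 := by
        have b0 : HasDerivAt (fun w : ℝ => w ^ 2) (2 * 0) (0 : ℝ) := by
          simpa using hasDerivAt_pow 2 (0 : ℝ)
        have b2 := (b0.const_mul v).div_const 2
        have e : v * (2 * 0) / 2 = v * 0 := by ring
        rw [e] at b2
        exact b2
      have b3 : HasDerivAt (fun w : ℝ => v * w) v 0 := by
        simpa using (hasDerivAt_id (0 : ℝ)).const_mul v
      exact (b1.exp.mul b3).ofReal_comp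
    have c4 := (((c3.mul c0).add ((de 0).mul (c2.const_mul (γ : ℂ)))).div_const c)
    have c5 : HasDerivAt F1 _ 0 := c4
    rw [c5.deriv]
    simp [hg0]
    ring

/-- `L-RDO-A4` derivatives of a real function, seen in `ℂ` -/
theorem rdo_ofReal_deriv (m : ℝ → ℝ) (hm : ContDiff ℝ 2 m) :
    deriv (fun w : ℝ => (m w : ℂ)) 0 = (deriv m 0 : ℝ) ∧ iteratedDeriv 2 (fun w : ℝ => (m w : ℂ)) 0 = (iteratedDeriv 2 m 0 : ℝ) := by
  have h1 : ∀ w, HasDerivAt m (deriv m w) w := fun w => (hm.differentiable (by simp) w).hasDerivAt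
  have h2 : ∀ w, HasDerivAt (fun w : ℝ => (m w : ℂ)) (deriv m w : ℝ) w := fun w => (h1 w).ofReal_comp
  have h3 : ContDiff ℝ 1 (deriv m) := ((contDiff_succ_iff_deriv (n := 1)).1 hm).2.2
  have h4 : HasDerivAt (deriv m) (deriv (deriv m) 0) 0 := (h3.differentiable (by simp) 0).hasDerivAt
  refine ⟨(h2 0).deriv, ?_⟩
  have e : deriv (fun w : ℝ => (m w : ℂ)) = fun w => ((deriv m w : ℝ) : ℂ) := funext fun w => (h2 w).deriv
  rw [iteratedDeriv_succ, iteratedDeriv_one, iteratedDeriv_succ, iteratedDeriv_one, e]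
  exact h4.ofReal_comp.deriv

/-- derivatives of `z ↦ ∫ Φ e^{z ℓ}`, `Φ` complex, `ℓ` real, `∫ |Φ| e^{ε |ℓ|} < ∞` -/
theorem rdo_mgf {Ω : Type} [MeasurableSpace Ω] (μ : Measure Ω) (Φ : Ω → ℂ) (l : Ω → ℝ) (ε : ℝ) (hε : 0 < ε)
    (hΦ : AEStronglyMeasurable Φ μ) (hl : AEMeasurable l μ) (hint : Integrable (fun ω => ‖Φ ω‖ * Real.exp (ε * |l ω|)) μ) :
    DifferentiableOn ℂ (fun z : ℂ => ∫ ω, Φ ω * Complex.exp (z * l ω) ∂μ) (ball 0 ε) ∧
    deriv (fun z : ℂ => ∫ ω, Φ ω * Complex.exp (z * l ω) ∂μ) 0 = ∫ ω, Φ ω * l ω ∂μ ∧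
    iteratedDeriv 2 (fun z : ℂ => ∫ ω, Φ ω * Complex.exp (z * l ω) ∂μ) 0 = ∫ ω, Φ ω * (l ω : ℂ) ^ 2 ∂μ := by
  have h0 : ∀ z₀ : ℂ, ‖z₀‖ < ε → HasDerivAt (fun z : ℂ => ∫ ω, Φ ω * Complex.exp (z * l ω) ∂μ)
      (∫ ω, Φ ω * (l ω : ℂ) ^ 1 * Complex.exp (z₀ * l ω) ∂μ) z₀ := by
    intro z₀ hz₀
    have := rdo_mgf_aux μ Φ l ε hΦ hl hint 0 z₀ hz₀
    simpa only [pow_zero, mul_one, zero_add] using this
  have h1 := rdo_mgf_aux μ Φ l ε hΦ hl hint 1 0 (by simpa using hε)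
  refine ⟨fun z hz => (h0 z (by simpa using hz)).differentiableAt.differentiableWithinAt, ?_, ?_⟩
  · rw [(h0 0 (by simpa using hε)).deriv]
    simp
  · rw [iteratedDeriv_succ, iteratedDeriv_one]
    have hev : deriv (fun z : ℂ => ∫ ω, Φ ω * Complex.exp (z * l ω) ∂μ)
        =ᶠ[𝓝 0] fun z : ℂ => ∫ ω, Φ ω * (l ω : ℂ) ^ 1 * Complex.exp (z * l ω) ∂μ := by
      filter_upwards [ball_mem_nhds (0 : ℂ) hε] with z hz
      exact (h0 z (by simpa using hz)).deriv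
    rw [hev.deriv_eq, h1.deriv]
    simp

end

end Claimed.Agent.R285.Rdo
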