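import Claimed.Agent.R285.Rdo.Ker
import Claimed.Agent.R285.F4a.Unfold
import Claimed.Agent.R285.F4a.EnC
import Claimed.Agent.R285.F4a.Loss

/-!
# ROW 285, unit READOUT, package SRC: completion of the source before the entry averaging                       (architect helper16)

[F] `trajectory.tex` l.690-783, [E] `entry.tex` l.655-690.  The physical weight is ABSTRACT: `W : (c.I → ℝ) → ℝ` with `WtOK c W` (`W = \hat Z_b`: `rdo_wt_zhat`; [C] s5: the strengthened law, helper75); `a = α²` is free.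
EXIT: `rdo_src_EE`: for a charge `q` and a real source `w`,
  `E_W [cos (q \bar y) e^{w X}] · EE j0 h 0 X₀ 0 = e^{v⁰ w²/2} e^{q² (s/n)²/2} (EE j0 h q X₀ (wγ) + EE j0 h (-q) X₀ (wγ))/2`,   `X₀ = ((0,0), T0)` the entry state, `HavW W = c_G Zlev X₀`.
ROUTE.  (0) `rdo_ref`: the reference law of the observations `y = Y + αθ𝟙`, `Y ~ N (0, Σ⁰)`, `Σ⁰ = 1 + a B A⁺ Bᵀ`, `θ` uniform, weighted by `e^{E_{full}(y)/2}`, is a multiple of the Lebesgue measure of the quotient
(this is `F4a.noisy_reference_test`, which does not see the weight at all).  (1) apply it to `Φ = F W` and `Φ = W`, `F = cos (q \bar y) e^{wX}`.  (2) push to the CELL level: `Y = αBψ + e ~ N (0, 1 + a B Γ Bᵀ)` (P1).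
(3) cell-level Gaussian identity P3 (Cameron-Martin + constant modes; `Σ⁰ 𝟙 = 𝟙`, `f ⟂ 𝟙`).  (4) `Σ⁰ f = α γ B q_n` (P2): a shift of the observations by `w Σ⁰ f` IS a shift of the field by `w γ q_n`.
(5) `C_{≥m} + C_{<m} = A⁺ + (low0 m/n²) 𝟙𝟙ᵀ` (`rdo_ker_split_low`), so that the right side is the outer integral of `HavW`.

## Leaves
* `L-RDO-P0a` `rdo_en_formula` (`E_{full} (y) = ⟨y, Σ⁰⁻¹ y⟩ - N \bar y²`: `F4a.En_attained`, `enc_dirichlet`, normal equations; `IsTerminal`)                                     ~350 l.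
* `L-RDO-P0b` `rdo_gauss_density` (density of a non-degenerate Gaussian; Mathlib only)                                                                            ~300 l.
* `L-RDO-P0c` `rdo_ref`      (P0a + P0b + unfolding `F4a.unf_tile`)                                                                                              ~300 l.
* `L-RDO-P1` `rdo_push`      (linear images and sums of Gaussians: `Reg.reg_gauss_map`, `Reg.reg_gauss_add`, `Reg.regg_gauss_one`)                                  ~200 l.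
* `L-RDO-P2` `rdo_sig_f`     (translation invariance of `A⁺` by uniqueness; `(M u)(Q) = ∑_P M(0,P) u(Q+P)`, addition theorem, `M(0,P) = M(0,-P)`; `∑_Q cos² = N_c/2`)       ~400 l.
* `L-RDO-P3` `rdo_cell`      (abstract finite index set; see the computation in the docstring)                                                                  ~400 l.
* `L-RDO-P4` `rdo_wt_zhat`   (`F4a.Zhat_measurable`, `Zhat_per`, `lintegral_fund_Zobs`, `lintegral_gauss_tilt`; `0 ≤ χ ≤ 1`)                                        ~300 l.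
* `L-RDO-P5` `rdo_ehw_deriv` (Mathlib `mgf` calculus for the measure `W dy` on `fund`)                                                                           ~200 l.
* `L-RDO-P6` `rdo_src`       (assembly of (0)-(5))                                                                                                              ~400 l.
* `L-RDO-P7` `rdo_src_EE`    (conversion: `HavW = c_G Zlev`, `cos = (e^{i·} + e^{-i·})/2`, `Eter`)                                                                 ~250 l.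
-/

set_option autoImplicit false

namespace Claimed.Agent.R285.Rdo

open scoped BigOperators ENNReal NNReal
open MeasureTheory ProbabilityTheory Polynomial Filter Topology
open Claimed.Agent.R285 Claimed.Agent.R285.RG Claimed.Agent.R285.B8 Claimed.Agent.R285.F4a

noncomputable section

variable {G : Geom}

/-- the matrix of the cell averages `B_s` -/
def Bm (c : Grid G) : Matrix c.I G.V ℝ := Matrix.of fun Q v => if c.blk v = Q then ((c.sites {Q}).card : ℝ)⁻¹ else 0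

/-- `Σ = 1 + a B Γ Bᵀ` -/
def Sig (a : ℝ) (c : Grid G) (Γ : Matrix G.V G.V ℝ) : Matrix c.I c.I ℝ := 1 + a • (Bm c * Γ * (Bm c).transpose)

theorem rdo_en_Apl (G : Geom) : IsTerminal G Fam.entry 1 (Apl G) := by
  have h : ∃ Γ, IsTerminal G Fam.entry 1 Γ := Ker.ker_exists_terminal G Fam.entry Ker.ker_entry_adm 1 le_rfl
  unfold Apl termCov
  rw [dif_pos h]
  exact h.choose_spec

theorem rdo_en_cov_one (G : Geom) : cov G (Fam.entry.termP 1) = 1 := by
  simp [Fam.termP, Fam.entry, Qs, Q, Fej, cov]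

theorem rdo_en_Bm_mulVec (c : Grid G) (u : G.V → ℝ) (i : c.I) : (Bm c).mulVec u i = avg c u i := by
  classical
  unfold Bm avg cellAvg Grid.sites
  simp only [Matrix.mulVec, dotProduct, Matrix.of_apply, ite_mul, zero_mul, Finset.mem_singleton]
  rw [← Finset.sum_filter, div_eq_inv_mul, Finset.mul_sum]

/-- summation by parts -/
theorem rdo_en_bilin (ζ u : G.V → ℝ) :
    ζ ⬝ᵥ (lap G).mulVec u = ∑ e : G.V × Bool, (ζ (stp e.1 e.2) - ζ e.1) * (u (stp e.1 e.2) - u e.1) := by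
  have h := enc_sum_four (G := G) (fun v w => ζ v * (u v - u w)) (fun v => by simp)
  simp only [dotProduct, enc_lap_mulVec, Finset.mul_sum]
  rw [h]
  refine Finset.sum_congr rfl fun e _ => ?_
  ring

theorem rdo_en_full_edge (hG : G.bc = BC.per) (c : Grid G) (e : G.V × Bool) :
    (Top.full c).IsEdge e ↔ stp e.1 e.2 ≠ e.1 := by
  classical
  unfold Top.IsEdge Top.full
  simp only [Finset.mem_univ, Finset.mem_filter, IsFace, hG, true_or, or_true, and_true]

theorem rdo_en_quad (hG : G.bc = BC.per) (a : ℝ) (c : Grid G) (y : c.I → ℝ) (u : G.V → ℝ) :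
    (Top.full c).quad a (fun f => 2 * Real.pi * (((0 : Face c → ℤ) f : ℤ) : ℝ)) y u
      = a⁻¹ * (u ⬝ᵥ (lap G).mulVec u) + ∑ i, ((Bm c).mulVec u i - y i) ^ 2 := by
  classical
  unfold Top.quad
  have h1 : ∑ e : (Top.full c).graph.E, (u (stp e.1.1 e.1.2) - u e.1.1
        + (Top.full c).econn (fun f => 2 * Real.pi * (((0 : Face c → ℤ) f : ℤ) : ℝ)) e) ^ 2
      = ∑ e ∈ Finset.univ.filter (Top.full c).IsEdge, (u (stp e.1 e.2) - u e.1) ^ 2 := by
    rw [Finset.sum_subtype (p := (Top.full c).IsEdge) (Finset.univ.filter (Top.full c).IsEdge)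
      (fun x => by simp) (fun e : G.V × Bool => (u (stp e.1 e.2) - u e.1) ^ 2)]
    refine Finset.sum_congr rfl fun e _ => ?_
    rw [enc_econn_zero, add_zero]
  have h2 : ∑ e ∈ Finset.univ.filter (Top.full c).IsEdge, (u (stp e.1 e.2) - u e.1) ^ 2 = u ⬝ᵥ (lap G).mulVec u := by
    rw [enc_dirichlet, Finset.sum_filter]
    refine Finset.sum_congr rfl fun e _ => ?_
    rw [rdo_en_full_edge hG]
    by_cases h : stp e.1 e.2 = e.1
    · simp [h]
    · simp [h]
  rw [h1, h2]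
  congr 1
  have h3 : (Top.full c).cells = Finset.univ := rfl
  rw [h3]
  refine Finset.sum_congr rfl fun i _ => ?_
  rw [rdo_en_Bm_mulVec]

theorem rdo_en_lap_one (G : Geom) (t : ℝ) : (lap G).mulVec (fun _ => t) = 0 := by
  funext v
  rw [enc_lap_mulVec]
  simp

theorem rdo_en_Bm_one {c : Grid G} (hc : Whole c) (t : ℝ) : (Bm c).mulVec (fun _ => t) = fun _ => t := by
  funext i
  rw [rdo_en_Bm_mulVec]
  have h := enb_avg_blk hc (fun _ => t) i
  exact h

theorem rdo_en_BmT_one {c : Grid G} (hc : Whole c) :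
    (Bm c).transpose.mulVec (fun _ => 1) = fun _ => ((c.m : ℝ) ^ 2)⁻¹ := by
  classical
  funext v
  simp only [Matrix.mulVec, dotProduct, Matrix.transpose_apply, Bm, Matrix.of_apply, mul_one, Finset.sum_ite_eq,
    Finset.mem_univ, if_true]
  rw [whole_sites_card hc]
  push_cast
  rfl

theorem rdo_en_Sig_one {c : Grid G} (hc : Whole c) (a : ℝ) {Γ : Matrix G.V G.V ℝ} (hΓ : Γ.mulVec (fun _ => 1) = 0) :
    (Sig a c Γ).mulVec (fun _ => 1) = fun _ => 1 := by
  unfold Sig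
  rw [Matrix.add_mulVec, Matrix.one_mulVec, Matrix.smul_mulVec, ← Matrix.mulVec_mulVec, ← Matrix.mulVec_mulVec,
    rdo_en_BmT_one hc]
  have h : (fun _ : G.V => ((c.m : ℝ) ^ 2)⁻¹) = ((c.m : ℝ) ^ 2)⁻¹ • (fun _ : G.V => (1 : ℝ)) := by
    funext v
    simp
  rw [h, Matrix.mulVec_smul, hΓ]
  simp

theorem rdo_en_Sig_posDef (a : ℝ) (ha : 0 ≤ a) (c : Grid G) {Γ : Matrix G.V G.V ℝ} (hΓ : Γ.PosSemidef) :
    (Sig a c Γ).PosDef :=
  Matrix.PosDef.one.add_posSemidef ((Reg.regg_psd_conj hΓ (Bm c)).smul ha)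

/-- `L-RDO-P0a` **the observation energy of the full torus**.  `inf_u [a⁻¹ ⟨u, A u⟩ + ‖B u - y‖²]`, `u = u₀ + t 𝟙`: the minimum over mean-zero `u₀` is `⟨y - t𝟙, Σ⁰⁻¹ (y - t𝟙)⟩`, and `Σ⁰ 𝟙 = 𝟙`.
(Verify with the minimiser: `u = a A⁺ Bᵀ Σ⁰⁻¹ (y - \bar y 𝟙) + \bar y 𝟙` solves the normal equations; `F4a.lsq_of_normal`.) -/
theorem rdo_en_formula (hG : G.bc = BC.per) (a : ℝ) (ha : 0 < a) (c : Grid G) (hc : Whole c) (h3 : 3 ≤ c.n) :
    (Sig a c (Apl G)).PosDef ∧ ∀ y : c.I → ℝ,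
      (Top.full c).Eobs a 0 y = y ⬝ᵥ (Sig a c (Apl G))⁻¹.mulVec y - (Fintype.card c.I : ℝ) * ybar c y ^ 2 := by
  have hT := rdo_en_Apl G
  have hPD := rdo_en_Sig_posDef a ha.le c hT.psd
  refine ⟨hPD, fun y => ?_⟩
  obtain ⟨S, hSdef⟩ : ∃ S, S = Sig a c (Apl G) := ⟨_, rfl⟩
  obtain ⟨B, hBdef⟩ : ∃ B, B = Bm c := ⟨_, rfl⟩
  obtain ⟨P, hPdef⟩ : ∃ P, P = Apl G := ⟨_, rfl⟩
  obtain ⟨A, hAdef⟩ : ∃ A, A = lap G := ⟨_, rfl⟩
  rw [← hSdef] at hPD ⊢
  have hSu : IsUnit S.det := isUnit_iff_ne_zero.2 hPD.det_pos.ne'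
  have hS1 : S.mulVec (fun _ => 1) = fun _ => 1 := by
    rw [hSdef]
    exact rdo_en_Sig_one hc a hT.const
  have hSi1 : S⁻¹.mulVec (fun _ => 1) = fun _ => 1 := by
    conv_lhs => rw [← hS1]
    rw [Matrix.mulVec_mulVec, Matrix.nonsing_inv_mul _ hSu, Matrix.one_mulVec]
  have hSt : S.transpose = S := by
    have := hPD.isHermitian
    rwa [Matrix.IsHermitian, Matrix.conjTranspose_eq_transpose_of_trivial] at this
  have hSit : (S⁻¹).transpose = S⁻¹ := by rw [Matrix.transpose_nonsing_inv, hSt]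
  have hN : (0 : ℝ) < (Fintype.card c.I : ℝ) := by
    have : 0 < Fintype.card c.I := by
      rw [Fintype.card_prod, Fintype.card_fin]
      have := hc.two
      positivity
    exact_mod_cast this
  obtain ⟨m, hm⟩ : ∃ m, m = ybar c y := ⟨_, rfl⟩
  have hsum : ∑ i, y i = (Fintype.card c.I : ℝ) * m := by
    rw [hm]
    unfold ybar
    field_simp
  -- the dual variable
  obtain ⟨z, hz⟩ : ∃ z : c.I → ℝ, z = S⁻¹.mulVec y - fun _ => m := ⟨_, rfl⟩
  have hone : ∀ w : c.I → ℝ, (fun _ => (1 : ℝ)) ⬝ᵥ w = ∑ i, w i := fun w => by simp [dotProduct]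
  have hz0 : ∑ i, z i = 0 := by
    rw [← hone, hz, dotProduct_sub, Matrix.dotProduct_mulVec, ← Matrix.mulVec_transpose, hSit, hSi1, hone, hone, hsum]
    simp
  have hSz : S.mulVec z = y - fun _ => m := by
    rw [hz, Matrix.mulVec_sub, Matrix.mulVec_mulVec, Matrix.mul_nonsing_inv _ hSu, Matrix.one_mulVec]
    congr 1
    have h : (fun _ : c.I => m) = m • (fun _ : c.I => (1 : ℝ)) := by
      funext v
      simp
    rw [h, Matrix.mulVec_smul, hS1]
  have hBz0 : ∑ v, B.transpose.mulVec z v = 0 := by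
    have h1 : ∑ v, B.transpose.mulVec z v = (fun _ => (1 : ℝ)) ⬝ᵥ B.transpose.mulVec z := by simp [dotProduct]
    rw [h1, Matrix.dotProduct_mulVec, Matrix.vecMul_transpose, hBdef, rdo_en_Bm_one hc, hone, hz0]
  -- the minimiser
  obtain ⟨u0, hu0⟩ : ∃ u0 : G.V → ℝ, u0 = a • P.mulVec (B.transpose.mulVec z) + fun _ => m := ⟨_, rfl⟩
  have hAu : A.mulVec u0 = a • B.transpose.mulVec z := by
    rw [hu0, Matrix.mulVec_add, Matrix.mulVec_smul, Matrix.mulVec_mulVec, hAdef, rdo_en_lap_one, add_zero, hPdef,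
      hT.eqn _ hBz0, rdo_en_cov_one, Matrix.one_mulVec]
  have hBu : B.mulVec u0 = y - z := by
    have h1 : S.mulVec z = z + a • B.mulVec (P.mulVec (B.transpose.mulVec z)) := by
      rw [hSdef, Sig, Matrix.add_mulVec, Matrix.one_mulVec, Matrix.smul_mulVec, ← Matrix.mulVec_mulVec,
        ← Matrix.mulVec_mulVec, hBdef, hPdef]
    rw [hu0, Matrix.mulVec_add, Matrix.mulVec_smul]
    have h2 : B.mulVec (fun _ => m) = fun _ => m := by rw [hBdef, rdo_en_Bm_one hc]
    rw [h2]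
    have h3 : a • B.mulVec (P.mulVec (B.transpose.mulVec z)) = y - (fun _ => m) - z := by
      rw [← hSz, h1]
      abel
    rw [h3]
    abel
  have hsymm : ∀ ζ u : G.V → ℝ, ζ ⬝ᵥ A.mulVec u = u ⬝ᵥ A.mulVec ζ := by
    intro ζ u
    rw [hAdef, rdo_en_bilin, rdo_en_bilin]
    exact Finset.sum_congr rfl fun e _ => mul_comm _ _
  obtain ⟨q, hq⟩ : ∃ q : (G.V → ℝ) → ℝ, q = fun u => a⁻¹ * (u ⬝ᵥ A.mulVec u) + ∑ i, (B.mulVec u i - y i) ^ 2 := ⟨_, rfl⟩
  have hq0 : q u0 = y ⬝ᵥ z := by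
    rw [hq]
    simp only
    rw [hAu, hBu, dotProduct_smul, smul_eq_mul, ← mul_assoc, inv_mul_cancel₀ ha.ne', one_mul, Matrix.dotProduct_mulVec,
      Matrix.vecMul_transpose, hBu]
    simp only [dotProduct, Pi.sub_apply, ← Finset.sum_add_distrib]
    refine Finset.sum_congr rfl fun i _ => ?_
    ring
  have hqle : ∀ u, q u0 ≤ q u := by
    intro u
    obtain ⟨ζ, hζ⟩ : ∃ ζ, ζ = u - u0 := ⟨_, rfl⟩
    have hu : u = u0 + ζ := by rw [hζ]; abel
    have h1 : q u = q u0 + (a⁻¹ * (ζ ⬝ᵥ A.mulVec ζ) + ∑ i, (B.mulVec ζ i) ^ 2) := by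
      have h2 : ζ ⬝ᵥ A.mulVec u0 = a * ∑ i, B.mulVec ζ i * z i := by
        rw [hAu, dotProduct_smul, smul_eq_mul, Matrix.dotProduct_mulVec, Matrix.vecMul_transpose]
        rfl
      rw [hq]
      simp only
      rw [hu, Matrix.mulVec_add, Matrix.mulVec_add, add_dotProduct, dotProduct_add, dotProduct_add, hsymm u0 ζ, h2, hBu]
      have h3 : ∑ i, ((y - z + B.mulVec ζ) i - y i) ^ 2
          = ∑ i, ((y - z) i - y i) ^ 2 + ∑ i, (B.mulVec ζ i) ^ 2 - 2 * ∑ i, B.mulVec ζ i * z i := by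
        rw [Finset.mul_sum, ← Finset.sum_add_distrib, ← Finset.sum_sub_distrib]
        refine Finset.sum_congr rfl fun i _ => ?_
        simp only [Pi.add_apply, Pi.sub_apply]
        ring
      rw [h3]
      field_simp
      ring
    rw [h1]
    have h4 : 0 ≤ ζ ⬝ᵥ A.mulVec ζ := by
      rw [hAdef, enc_dirichlet]
      exact Finset.sum_nonneg fun _ _ => sq_nonneg _
    have h5 : 0 ≤ ∑ i, (B.mulVec ζ i) ^ 2 := Finset.sum_nonneg fun _ _ => sq_nonneg _
    have h6 : 0 ≤ a⁻¹ * (ζ ⬝ᵥ A.mulVec ζ) := mul_nonneg (inv_nonneg.2 ha.le) h4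
    linarith
  have hE : (Top.full c).Eobs a 0 y = q u0 := by
    unfold Top.Eobs Top.En
    have h1 : ∀ u, (Top.full c).quad a (fun f => 2 * Real.pi * (((0 : Face c → ℤ) f : ℤ) : ℝ)) y u = q u := by
      intro u
      rw [rdo_en_quad hG, hq, hAdef, hBdef]
    simp only [h1]
    refine le_antisymm (ciInf_le ⟨q u0, ?_⟩ u0) (le_ciInf hqle)
    rintro _ ⟨u, rfl⟩
    exact hqle u
  rw [hE, hq0, hz, dotProduct_sub]
  congr 1
  have h7 : (y ⬝ᵥ fun _ => m) = (∑ i, y i) * m := by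
    simp [dotProduct, Finset.sum_mul]
  rw [h7, hsum, ← hm]
  ring

theorem rdo_gd_lmarginal_prod {ι : Type*} [Fintype ι] [DecidableEq ι] {X : ι → Type*}
    [∀ i, MeasurableSpace (X i)] (μ : ∀ i, Measure (X i)) [∀ i, SigmaFinite (μ i)]
    (f : ∀ i, X i → ℝ≥0∞) (hf : ∀ i, Measurable (f i)) (s : Finset ι) (x : ∀ i, X i) :
    (∫⋯∫⁻_s, (fun x => ∏ i, f i (x i)) ∂μ) x
      = (∏ i ∈ s, ∫⁻ y, f i y ∂μ i) * ∏ i ∈ Finset.univ \ s, f i (x i) := by
  have hF : Measurable fun x : ∀ i, X i => ∏ i, f i (x i) :=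
    Finset.measurable_prod _ fun i _ => (hf i).comp (measurable_pi_apply i)
  induction s using Finset.induction_on generalizing x with
  | empty => simp
  | insert i s hi ih =>
    rw [lmarginal_insert _ hF hi]
    simp_rw [ih]
    have hsplit : Finset.univ \ s = insert i (Finset.univ \ insert i s) := by
      ext j
      simp only [Finset.mem_sdiff, Finset.mem_univ, true_and, Finset.mem_insert, not_or]
      by_cases hj : j = i
      · subst hj; simp [hi]
      · simp [hj]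
    have hnot : i ∉ Finset.univ \ insert i s := by simp
    have e : ∀ y : X i, ∏ j ∈ Finset.univ \ s, f j (Function.update x i y j)
        = f i y * ∏ j ∈ Finset.univ \ insert i s, f j (x j) := by
      intro y
      rw [hsplit, Finset.prod_insert hnot, Function.update_self]
      congr 1
      refine Finset.prod_congr rfl fun j hj => ?_
      have : j ≠ i := by
        rintro rfl
        exact hnot hj
      rw [Function.update_of_ne this]
    simp_rw [e]
    rw [lintegral_const_mul _ ((hf i).mul_const _), lintegral_mul_const _ (hf i),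
      Finset.prod_insert hi]
    ring

theorem rdo_gd_lintegral_prod {ι : Type*} [Fintype ι] {X : ι → Type*}
    [∀ i, MeasurableSpace (X i)] (μ : ∀ i, Measure (X i)) [∀ i, SigmaFinite (μ i)]
    (f : ∀ i, X i → ℝ≥0∞) (hf : ∀ i, Measurable (f i)) :
    ∫⁻ x, ∏ i, f i (x i) ∂(Measure.pi μ) = ∏ i, ∫⁻ y, f i y ∂μ i := by
  classical
  rcases isEmpty_or_nonempty (∀ i, X i) with hE | ⟨⟨x⟩⟩
  · obtain ⟨i, hi⟩ := isEmpty_pi.mp hE
    rw [lintegral_of_isEmpty]
    symm
    apply Finset.prod_eq_zero (Finset.mem_univ i)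
    rw [lintegral_of_isEmpty]
  · rw [lintegral_eq_lmarginal_univ x, rdo_gd_lmarginal_prod μ f hf]
    simp

theorem rdo_gd_pi_withDensity {ι : Type*} [Fintype ι] {X : ι → Type*}
    [∀ i, MeasurableSpace (X i)] (μ : ∀ i, Measure (X i)) [∀ i, SigmaFinite (μ i)]
    (f : ∀ i, X i → ℝ≥0∞) (hf : ∀ i, Measurable (f i))
    [∀ i, SigmaFinite ((μ i).withDensity (f i))] :
    Measure.pi (fun i => (μ i).withDensity (f i))
      = (Measure.pi μ).withDensity (fun x => ∏ i, f i (x i)) := by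
  apply Measure.pi_eq
  intro s hs
  rw [withDensity_apply _ (MeasurableSet.univ_pi hs), ← lintegral_indicator (MeasurableSet.univ_pi hs)]
  have e : (Set.pi Set.univ s).indicator (fun x : ∀ i, X i => ∏ i, f i (x i))
      = fun x => ∏ i, (s i).indicator (f i) (x i) := by
    funext x
    by_cases hx : x ∈ Set.pi Set.univ s
    · rw [Set.indicator_of_mem hx]
      refine Finset.prod_congr rfl fun i _ => ?_
      rw [Set.indicator_of_mem (hx i (Set.mem_univ i))]
    · rw [Set.indicator_of_notMem hx]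
      simp only [Set.mem_pi, Set.mem_univ, true_imp_iff, not_forall] at hx
      obtain ⟨i, hi⟩ := hx
      symm
      apply Finset.prod_eq_zero (Finset.mem_univ i)
      rw [Set.indicator_of_notMem hi]
  rw [e, rdo_gd_lintegral_prod μ _ fun i => (hf i).indicator (hs i)]
  refine Finset.prod_congr rfl fun i _ => ?_
  rw [withDensity_apply _ (hs i), lintegral_indicator (hs i)]


theorem rdo_gd_std (I : Type) [Fintype I] :
    (Measure.pi fun _ : I => gaussianReal 0 1)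
      = (volume : Measure (I → ℝ)).withDensity fun e => ∏ i, gaussianPDF 0 1 (e i) := by
  have h1 : (fun _ : I => gaussianReal 0 1) = fun _ : I => (volume : Measure ℝ).withDensity (gaussianPDF 0 1) := by
    funext _
    exact gaussianReal_of_var_ne_zero 0 one_ne_zero
  have hs : SigmaFinite ((volume : Measure ℝ).withDensity (gaussianPDF 0 1)) := by
    rw [← gaussianReal_of_var_ne_zero 0 one_ne_zero]
    infer_instance
  rw [h1, rdo_gd_pi_withDensity (fun _ : I => (volume : Measure ℝ)) (fun _ => gaussianPDF 0 1)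
    fun _ => measurable_gaussianPDF 0 1]
  rfl

theorem rdo_gd_pdf_prod {I : Type} [Fintype I] (e : I → ℝ) :
    ∏ i, gaussianPDF 0 1 (e i)
      = ENNReal.ofReal (((Real.sqrt (2 * Real.pi))⁻¹) ^ Fintype.card I * Real.exp (-(e ⬝ᵥ e) / 2)) := by
  have h1 : ∀ x : ℝ, gaussianPDF 0 1 x = ENNReal.ofReal ((Real.sqrt (2 * Real.pi))⁻¹ * Real.exp (-(x * x) / 2)) := by
    intro x
    unfold gaussianPDF gaussianPDFReal
    congr 1
    simp [sq]
  simp only [h1]
  rw [← ENNReal.ofReal_prod_of_nonneg (fun i _ => by positivity)]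
  congr 1
  rw [Finset.prod_mul_distrib, ← Real.exp_sum, Finset.prod_const, Finset.card_univ]
  congr 2
  rw [← Finset.sum_div, Finset.sum_neg_distrib]
  rfl

/-- `L-RDO-P0b` the density of a non-degenerate Gaussian (`S = T Tᵀ`, `Reg.regg_factor`, `regg_gauss_one`, `gaussianReal` has a density, linear change of variables
`MeasureTheory.Measure.map_linearMap_addHaar_eq_smul_addHaar`;  OR: `e^{⟨y, S⁻¹ y⟩/2} dN(0,S)` is translation invariant by Cameron-Martin `Hol.mv_shift` and locally finite, hence a Haar measure) -/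
theorem rdo_gauss_density {ι : Type} [Fintype ι] [DecidableEq ι] (S : Matrix ι ι ℝ) (hS : S.PosDef) : ∃ κ : ℝ, 0 < κ ∧
    ∀ Φ : (ι → ℝ) → ℝ≥0∞, Measurable Φ →
      ∫⁻ Y, Φ Y ∂(Reg.regGauss S) = ENNReal.ofReal κ * ∫⁻ y, ENNReal.ofReal (Real.exp (-(y ⬝ᵥ S⁻¹.mulVec y) / 2)) * Φ y := by
  obtain ⟨C, d, hC, -, -, -, -⟩ := Reg.regg_factor hS.posSemidef
  rw [Matrix.mul_one] at hC
  have hdetS : S.det ≠ 0 := (hS.det_pos).ne'
  have hdetC : C.det ≠ 0 := by
    intro h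
    apply hdetS
    rw [← hC, Matrix.det_mul, h, zero_mul]
  have hCu : IsUnit C.det := isUnit_iff_ne_zero.2 hdetC
  have hmC : Measurable (fun ζ : ι → ℝ => C.mulVec ζ) := by
    have hc : Continuous (fun ζ : ι → ℝ => C.mulVec ζ) := by fun_prop
    exact hc.measurable
  have hmCi : Measurable (fun ζ : ι → ℝ => C⁻¹.mulVec ζ) := by
    have hc : Continuous (fun ζ : ι → ℝ => C⁻¹.mulVec ζ) := by fun_prop
    exact hc.measurable
  have hlaw : Reg.regGauss S = (Measure.pi fun _ : ι => gaussianReal 0 1).map (fun ζ => C.mulVec ζ) := by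
    rw [← Reg.regg_gauss_one, Reg.reg_gauss_map Matrix.PosSemidef.one C, Matrix.mul_one, hC]
  have hSinv : S⁻¹ = (C⁻¹).transpose * C⁻¹ := by
    rw [← hC, Matrix.mul_inv_rev, Matrix.transpose_nonsing_inv]
  have hq : ∀ y : ι → ℝ, C⁻¹.mulVec y ⬝ᵥ C⁻¹.mulVec y = y ⬝ᵥ S⁻¹.mulVec y := by
    intro y
    rw [hSinv, ← Matrix.mulVec_mulVec, Matrix.dotProduct_mulVec y, Matrix.vecMul_transpose]
  refine ⟨|C.det⁻¹| * ((Real.sqrt (2 * Real.pi))⁻¹) ^ Fintype.card ι, by positivity, fun Φ hΦ => ?_⟩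
  have hd : Measurable fun e : ι → ℝ => ∏ i, gaussianPDF 0 1 (e i) :=
    Finset.measurable_prod _ fun i _ => (measurable_gaussianPDF 0 1).comp (measurable_pi_apply i)
  have hΦC : Measurable fun x : ι → ℝ => Φ (C.mulVec x) := hΦ.comp hmC
  rw [hlaw, lintegral_map hΦ hmC, rdo_gd_std, lintegral_withDensity_eq_lintegral_mul _ hd hΦC]
  -- change of variables
  have hg : Measurable fun y : ι → ℝ => (∏ i, gaussianPDF 0 1 (C⁻¹.mulVec y i)) * Φ y :=
    (hd.comp hmCi).mul hΦ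
  have hcv := Real.map_matrix_volume_pi_eq_smul_volume_pi hdetC
  have h1 : ∫⁻ x : ι → ℝ, ((fun e : ι → ℝ => ∏ i, gaussianPDF 0 1 (e i)) * fun x => Φ (C.mulVec x)) x
      = ∫⁻ y, (∏ i, gaussianPDF 0 1 (C⁻¹.mulVec y i)) * Φ y ∂(Measure.map (Matrix.toLin' C) volume) := by
    have hmL : Measurable (Matrix.toLin' C) := hmC
    rw [lintegral_map hg hmL]
    refine lintegral_congr fun x => ?_
    simp only [Pi.mul_apply, Matrix.toLin'_apply]
    rw [Matrix.mulVec_mulVec, Matrix.nonsing_inv_mul _ hCu, Matrix.one_mulVec]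
  have hm2 : Measurable fun y : ι → ℝ => ENNReal.ofReal (Real.exp (-(y ⬝ᵥ S⁻¹.mulVec y) / 2)) * Φ y := by
    have hc : Continuous fun y : ι → ℝ => Real.exp (-(y ⬝ᵥ S⁻¹.mulVec y) / 2) := by fun_prop
    exact hc.measurable.ennreal_ofReal.mul hΦ
  rw [h1, hcv, lintegral_smul_measure, smul_eq_mul, ENNReal.ofReal_mul (abs_nonneg _), mul_assoc,
    ← lintegral_const_mul _ hm2]
  congr 1
  refine lintegral_congr fun y => ?_
  rw [rdo_gd_pdf_prod, hq, ENNReal.ofReal_mul (by positivity), mul_assoc]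

/-! ### tools of `L-RDO-P0c` (helper250) -/

/-- tiling of the line by the intervals `(kT, (k+1)T]` -/
theorem rdo_tile1 (T : ℝ) (hT : 0 < T) (e : ℝ → ℝ≥0∞) (he : Measurable e) :
    ∑' k : ℤ, ∫⁻ θ in Set.Ioc 0 T, e (θ + k * T) = ∫⁻ θ, e θ := by
  have h1 : ∀ k : ℤ, ∫⁻ θ in Set.Ioc 0 T, e (θ + k * T) = ∫⁻ θ in Set.Ioc (0 + k • T) (0 + (k + 1) • T), e θ := by
    intro k
    have h2 := (measurePreserving_add_right (volume : Measure ℝ) ((k : ℝ) * T)).setLIntegral_comp_preimage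
      (s := Set.Ioc (0 + k • T) (0 + (k + 1) • T)) measurableSet_Ioc he
    rw [← h2, Set.preimage_add_const_Ioc]
    congr 2
    · congr 1
      · simp
      · simp only [zsmul_eq_mul, Int.cast_add, Int.cast_one]
        ring
  simp only [h1]
  rw [← lintegral_iUnion (fun _ => measurableSet_Ioc) (Set.pairwise_disjoint_Ioc_add_zsmul 0 T), iUnion_Ioc_add_zsmul hT 0,
    Measure.restrict_univ]

/-- the total mass of a shifted and dilated Gaussian -/
theorem rdo_gauss_mass (b β : ℝ) (hb : 0 < b) (hβ : 0 < β) (s : ℝ) :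
    ∫⁻ θ : ℝ, ENNReal.ofReal (Real.exp (-(b * (s - β * θ) ^ 2))) = ENNReal.ofReal (Real.sqrt (Real.pi / (b * β ^ 2))) := by
  have h1 : ∀ θ : ℝ, ENNReal.ofReal (Real.exp (-(b * (s - β * θ) ^ 2)))
      = (fun θ : ℝ => ENNReal.ofReal (Real.exp (-(b * β ^ 2) * θ ^ 2))) (θ - s / β) := by
    intro θ
    simp only
    congr 2
    field_simp
    ring
  simp only [h1]
  rw [lintegral_sub_right_eq_self (fun θ : ℝ => ENNReal.ofReal (Real.exp (-(b * β ^ 2) * θ ^ 2))) (s / β),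
    ← ofReal_integral_eq_lintegral_ofReal (integrable_exp_neg_mul_sq (by positivity))
      (Eventually.of_forall fun θ => (Real.exp_pos _).le), integral_gaussian]

section alg

variable {ι : Type} [Fintype ι] [DecidableEq ι]

theorem rdo_inv_one (S : Matrix ι ι ℝ) (hS : S.PosDef) (h1 : S.mulVec (fun _ => 1) = fun _ => 1) :
    S⁻¹.mulVec (fun _ => 1) = fun _ => 1 := by
  have hu : IsUnit S.det := hS.det_pos.ne'.isUnit
  have h2 : S⁻¹.mulVec (S.mulVec (fun _ => 1)) = fun _ => 1 := by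
    rw [Matrix.mulVec_mulVec, Matrix.nonsing_inv_mul S hu, Matrix.one_mulVec]
  rwa [h1] at h2

theorem rdo_one_dot_inv (S : Matrix ι ι ℝ) (hS : S.PosDef) (h1 : S.mulVec (fun _ => 1) = fun _ => 1) (Y : ι → ℝ) :
    (fun _ => (1 : ℝ)) ⬝ᵥ S⁻¹.mulVec Y = ∑ i, Y i := by
  have hT : S.transpose = S := by
    have := hS.isHermitian
    rwa [Matrix.IsHermitian, Matrix.conjTranspose_eq_transpose_of_trivial] at this
  have hT' : (S⁻¹).transpose = S⁻¹ := by rw [Matrix.transpose_nonsing_inv, hT]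
  rw [Matrix.dotProduct_mulVec, ← Matrix.mulVec_transpose, hT', rdo_inv_one S hS h1]
  simp [dotProduct]

/-- the energy `⟨y, S⁻¹ y⟩ - N \bar y²` does not see constants -/
theorem rdo_en_shift [Nonempty ι] (S : Matrix ι ι ℝ) (hS : S.PosDef) (h1 : S.mulVec (fun _ => 1) = fun _ => 1) (Y : ι → ℝ) (t : ℝ) :
    (fun i => Y i + t) ⬝ᵥ S⁻¹.mulVec (fun i => Y i + t) - (Fintype.card ι : ℝ) * ((∑ i, (Y i + t)) / (Fintype.card ι : ℝ)) ^ 2
      = Y ⬝ᵥ S⁻¹.mulVec Y - (∑ i, Y i) ^ 2 / (Fintype.card ι : ℝ) := by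
  have hc : (0 : ℝ) < (Fintype.card ι : ℝ) := by exact_mod_cast Fintype.card_pos
  have e0 : (fun i => Y i + t) = Y + t • (fun _ : ι => (1 : ℝ)) := by
    funext i
    simp
  have e1 : S⁻¹.mulVec (fun i => Y i + t) = S⁻¹.mulVec Y + t • (fun _ : ι => (1 : ℝ)) := by
    rw [e0, Matrix.mulVec_add, Matrix.mulVec_smul, rdo_inv_one S hS h1]
  have e2 : (fun i => Y i + t) ⬝ᵥ S⁻¹.mulVec (fun i => Y i + t)
      = Y ⬝ᵥ S⁻¹.mulVec Y + 2 * t * ∑ i, Y i + t ^ 2 * (Fintype.card ι : ℝ) := by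
    rw [e1, e0, add_dotProduct, dotProduct_add, dotProduct_add, smul_dotProduct, smul_dotProduct, dotProduct_smul,
      dotProduct_smul, rdo_one_dot_inv S hS h1]
    simp only [dotProduct, mul_one, smul_eq_mul, Finset.sum_const, Finset.card_univ, nsmul_eq_mul]
    ring
  rw [e2, Finset.sum_add_distrib]
  simp only [Finset.sum_const, Finset.card_univ, nsmul_eq_mul]
  field_simp
  ring

omit [DecidableEq ι] in
theorem rdo_quad_continuous (A : Matrix ι ι ℝ) : Continuous fun y : ι → ℝ => y ⬝ᵥ A.mulVec y := by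
  unfold dotProduct Matrix.mulVec dotProduct
  fun_prop

end alg

section refabs

variable {ι : Type} [Fintype ι] [DecidableEq ι] [Nonempty ι]

/-- **the reference law is the Lebesgue measure of the quotient**, abstract form: `μS` has the density `κ e^{-⟨y, S⁻¹ y⟩/2}`, `Fd` tiles. -/
theorem rdo_ref_abs (S : Matrix ι ι ℝ) (hS : S.PosDef) (h1 : S.mulVec (fun _ => 1) = fun _ => 1) (μS : Measure (ι → ℝ)) (κ : ℝ) (hκ : 0 < κ)
    (hdens : ∀ Φ : (ι → ℝ) → ℝ≥0∞, Measurable Φ →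
      ∫⁻ Y, Φ Y ∂μS = ENNReal.ofReal κ * ∫⁻ y, ENNReal.ofReal (Real.exp (-(y ⬝ᵥ S⁻¹.mulVec y) / 2)) * Φ y)
    (Fd : Set (ι → ℝ))
    (htile : ∀ g Φ : (ι → ℝ) → ℝ≥0∞, Measurable g → Measurable Φ → (∀ y, g (fun i => y i + 2 * Real.pi) = g y) →
      ∑' k : ℤ, ∫⁻ y in Fd, g y * Φ (fun i => y i - 2 * Real.pi * k) = ∫⁻ y, g y * Φ y)
    (En : (ι → ℝ) → ℝ)
    (hEn : ∀ y, En y = y ⬝ᵥ S⁻¹.mulVec y - (Fintype.card ι : ℝ) * ((∑ i, y i) / (Fintype.card ι : ℝ)) ^ 2)
    (α : ℝ) (hα : 0 < α) :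
    ∃ N : ℝ, 0 < N ∧ ∀ Φ : (ι → ℝ) → ℝ≥0∞, Measurable Φ → (∀ y, Φ (fun i => y i + 2 * Real.pi) = Φ y) →
      ∫⁻ θ in Set.Ioc 0 (2 * Real.pi / α), ∫⁻ Y, ENNReal.ofReal (Real.exp (En (fun i => Y i + α * θ) / 2)) * Φ (fun i => Y i + α * θ) ∂μS
        = ENNReal.ofReal N * ∫⁻ y in Fd, Φ y := by
  set n : ℝ := (Fintype.card ι : ℝ) with hn
  have hn0 : 0 < n := by
    rw [hn]
    exact_mod_cast Fintype.card_pos
  have hpi := Real.pi_pos
  set T : ℝ := 2 * Real.pi / α with hT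
  have hT0 : 0 < T := by positivity
  have hαT : α * T = 2 * Real.pi := by
    rw [hT]
    field_simp
  set C0 : ℝ := Real.sqrt (Real.pi / (1 / (2 * n) * (n * α) ^ 2)) with hC0
  have hC0pos : 0 < C0 := Real.sqrt_pos.2 (by positivity)
  refine ⟨κ * C0, by positivity, fun Φ hΦ hper => ?_⟩
  -- the one dimensional Gaussian weight
  set e0 : ℝ → ℝ≥0∞ := fun s => ENNReal.ofReal (Real.exp (-(1 / (2 * n) * s ^ 2))) with he0
  have he0m : Measurable e0 := by
    rw [he0]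
    fun_prop
  have hEnm : Measurable En := by
    have : En = fun y => y ⬝ᵥ S⁻¹.mulVec y - n * ((∑ i, y i) / n) ^ 2 := funext hEn
    rw [this]
    exact ((rdo_quad_continuous S⁻¹).measurable).sub (by fun_prop)
  have hsh : ∀ t : ℝ, Measurable fun Y : ι → ℝ => fun i => Y i + t := fun t =>
    measurable_pi_lambda _ fun i => (measurable_pi_apply i).add_const _
  -- Step 1
  have s1 : ∀ θ : ℝ, ∫⁻ Y, ENNReal.ofReal (Real.exp (En (fun i => Y i + α * θ) / 2)) * Φ (fun i => Y i + α * θ) ∂μS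
      = ENNReal.ofReal κ * ∫⁻ y, e0 (∑ i, y i - n * α * θ) * Φ y := by
    intro θ
    have hm1 : Measurable fun Y : ι → ℝ => ENNReal.ofReal (Real.exp (En (fun i => Y i + α * θ) / 2)) * Φ (fun i => Y i + α * θ) :=
      ((hEnm.comp (hsh _)).div_const 2).exp.ennreal_ofReal.mul (hΦ.comp (hsh _))
    rw [hdens _ hm1]
    congr 1
    rw [← lintegral_add_right_eq_self (fun y : ι → ℝ => e0 (∑ i, y i - n * α * θ) * Φ y) (fun _ : ι => α * θ)]
    refine lintegral_congr fun Y => ?_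
    have e1 : (Y + fun _ : ι => α * θ) = fun i => Y i + α * θ := rfl
    rw [e1, ← mul_assoc, ← ENNReal.ofReal_mul (Real.exp_pos _).le, ← Real.exp_add]
    congr 3
    rw [hEn, rdo_en_shift S hS h1, Finset.sum_add_distrib]
    simp only [Finset.sum_const, Finset.card_univ, nsmul_eq_mul]
    rw [← hn]
    field_simp
    ring
  simp only [s1]
  rw [lintegral_const_mul' _ _ ENNReal.ofReal_ne_top]
  -- Step 2: Tonelli
  set GG : ℝ → ℝ≥0∞ := fun s => ∫⁻ θ in Set.Ioc 0 T, e0 (s - n * α * θ) with hGG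
  have hGGm : Measurable GG := by
    rw [hGG]
    have : Measurable fun p : ℝ × ℝ => e0 (p.1 - n * α * p.2) := he0m.comp (by fun_prop)
    exact this.lintegral_prod_right'
  have hsum : Measurable fun y : ι → ℝ => ∑ i, y i := by fun_prop
  have s2 : ∫⁻ θ in Set.Ioc 0 T, ∫⁻ y : ι → ℝ, e0 (∑ i, y i - n * α * θ) * Φ y = ∫⁻ y : ι → ℝ, Φ y * GG (∑ i, y i) := by
    rw [lintegral_lintegral_swap]
    · refine lintegral_congr fun y => ?_
      have hm2 : Measurable fun x : ℝ => e0 (∑ i, y i - n * α * x) := he0m.comp (by fun_prop)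
      rw [lintegral_mul_const _ hm2, mul_comm]
    · refine Measurable.aemeasurable ?_
      have m1 : Measurable fun p : ℝ × (ι → ℝ) => e0 (∑ i, p.2 i - n * α * p.1) := he0m.comp (by fun_prop)
      exact m1.mul (hΦ.comp measurable_snd)
  rw [s2, ← htile Φ (fun y => GG (∑ i, y i)) hΦ (hGGm.comp hsum) hper]
  -- Step 4
  have s5 : ∀ s : ℝ, ∑' k : ℤ, GG (s - n * (2 * Real.pi * k)) = ENNReal.ofReal C0 := by
    intro s
    have h2 : ∀ k : ℤ, GG (s - n * (2 * Real.pi * k)) = ∫⁻ θ in Set.Ioc 0 T, (fun θ => e0 (s - n * α * θ)) (θ + k * T) := by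
      intro k
      simp only [hGG]
      refine lintegral_congr fun θ => ?_
      congr 1
      have : n * α * (θ + k * T) = n * α * θ + n * k * (α * T) := by ring
      rw [this, hαT]
      ring
    have hm3 : Measurable fun θ : ℝ => e0 (s - n * α * θ) := he0m.comp (by fun_prop)
    exact (tsum_congr h2).trans ((rdo_tile1 T hT0 _ hm3).trans
      (rdo_gauss_mass (1 / (2 * n)) (n * α) (by positivity) (by positivity) s))
  have s4 : ∀ k : ℤ, ∫⁻ y in Fd, Φ y * (fun y : ι → ℝ => GG (∑ i, y i)) (fun i => y i - 2 * Real.pi * k)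
      = ∫⁻ y in Fd, Φ y * GG (∑ i, y i - n * (2 * Real.pi * k)) := by
    intro k
    refine lintegral_congr fun y => ?_
    simp only [Finset.sum_sub_distrib, Finset.sum_const, Finset.card_univ, nsmul_eq_mul, hn]
  simp only [s4]
  have hm4 : ∀ k : ℤ, AEMeasurable (fun y : ι → ℝ => Φ y * GG (∑ i, y i - n * (2 * Real.pi * k))) (volume.restrict Fd) := fun k =>
    (hΦ.mul (hGGm.comp (hsum.sub_const _))).aemeasurable
  rw [← lintegral_tsum hm4]
  simp only [ENNReal.tsum_mul_left, s5]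
  rw [lintegral_mul_const' _ _ ENNReal.ofReal_ne_top, ENNReal.ofReal_mul hκ.le]
  ring

omit [DecidableEq ι] [Nonempty ι] in
/-- the signed version -/
theorem rdo_ref_signed (μS : Measure (ι → ℝ)) [SFinite μS] (Fd : Set (ι → ℝ)) (En : (ι → ℝ) → ℝ) (hEnm : Measurable En) (α : ℝ) (hα : 0 < α)
    (N : ℝ) (hN : 0 < N)
    (hmain : ∀ Φ : (ι → ℝ) → ℝ≥0∞, Measurable Φ → (∀ y, Φ (fun i => y i + 2 * Real.pi) = Φ y) →
      ∫⁻ θ in Set.Ioc 0 (2 * Real.pi / α), ∫⁻ Y, ENNReal.ofReal (Real.exp (En (fun i => Y i + α * θ) / 2)) * Φ (fun i => Y i + α * θ) ∂μS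
        = ENNReal.ofReal N * ∫⁻ y in Fd, Φ y)
    (Φ : (ι → ℝ) → ℝ) (hΦ : Measurable Φ) (hper : ∀ y, Φ (fun i => y i + 2 * Real.pi) = Φ y) (hint : IntegrableOn Φ Fd) :
    ∫ θ in (0 : ℝ)..(2 * Real.pi / α), ∫ Y, Real.exp (En (fun i => Y i + α * θ) / 2) * Φ (fun i => Y i + α * θ) ∂μS
      = N * ∫ y in Fd, Φ y := by
  have hpi := Real.pi_pos
  have hT0 : 0 ≤ 2 * Real.pi / α := by positivity
  rw [intervalIntegral.integral_of_le hT0]
  set ν : Measure ℝ := volume.restrict (Set.Ioc 0 (2 * Real.pi / α)) with hν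
  set F : ℝ × (ι → ℝ) → ℝ := fun p => Real.exp (En (fun i => p.2 i + α * p.1) / 2) * Φ (fun i => p.2 i + α * p.1) with hF
  have hshm : Measurable fun p : ℝ × (ι → ℝ) => fun i => p.2 i + α * p.1 :=
    measurable_pi_lambda _ fun i => ((measurable_pi_apply i).comp measurable_snd).add (measurable_fst.const_mul α)
  have hFm : Measurable F := ((hEnm.comp hshm).div_const 2).exp.mul (hΦ.comp hshm)
  -- the lintegrals of `w * g (Φ)`
  have key : ∀ g : ℝ → ℝ, Measurable g →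
      ∫⁻ p, ENNReal.ofReal (Real.exp (En (fun i => p.2 i + α * p.1) / 2)) * ENNReal.ofReal (g (Φ (fun i => p.2 i + α * p.1))) ∂(ν.prod μS)
        = ENNReal.ofReal N * ∫⁻ y in Fd, ENNReal.ofReal (g (Φ y)) := by
    intro g hg
    have hm : Measurable fun p : ℝ × (ι → ℝ) =>
        ENNReal.ofReal (Real.exp (En (fun i => p.2 i + α * p.1) / 2)) * ENNReal.ofReal (g (Φ (fun i => p.2 i + α * p.1))) :=
      ((hEnm.comp hshm).div_const 2).exp.ennreal_ofReal.mul (hg.comp (hΦ.comp hshm)).ennreal_ofReal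
    rw [lintegral_prod _ hm.aemeasurable,
      ← hmain (fun y => ENNReal.ofReal (g (Φ y))) (hg.comp hΦ).ennreal_ofReal (fun y => by simp only [hper])]
  have hFi : Integrable F (ν.prod μS) := by
    refine ⟨hFm.aestronglyMeasurable, ?_⟩
    rw [hasFiniteIntegral_iff_norm]
    have e1 : ∀ p, ENNReal.ofReal ‖F p‖
        = ENNReal.ofReal (Real.exp (En (fun i => p.2 i + α * p.1) / 2)) * ENNReal.ofReal ((fun x : ℝ => |x|) (Φ (fun i => p.2 i + α * p.1))) := by
      intro p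
      simp only [hF, norm_mul, Real.norm_eq_abs, abs_of_pos (Real.exp_pos _)]
      rw [ENNReal.ofReal_mul (Real.exp_pos _).le]
    simp only [e1]
    rw [key (fun x => |x|) measurable_norm]
    refine ENNReal.mul_lt_top ENNReal.ofReal_lt_top ?_
    have := hint.hasFiniteIntegral
    rw [hasFiniteIntegral_iff_norm] at this
    simpa only [Real.norm_eq_abs] using this
  have e2 : ∫ θ, ∫ Y, Real.exp (En (fun i => Y i + α * θ) / 2) * Φ (fun i => Y i + α * θ) ∂μS ∂ν = ∫ p, F p ∂(ν.prod μS) :=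
    (integral_prod F hFi).symm
  rw [e2, integral_eq_lintegral_pos_part_sub_lintegral_neg_part hFi, integral_eq_lintegral_pos_part_sub_lintegral_neg_part hint]
  have e3 : ∀ p, ENNReal.ofReal (F p)
      = ENNReal.ofReal (Real.exp (En (fun i => p.2 i + α * p.1) / 2)) * ENNReal.ofReal ((fun x : ℝ => x) (Φ (fun i => p.2 i + α * p.1))) := by
    intro p
    simp only [hF]
    rw [ENNReal.ofReal_mul (Real.exp_pos _).le]
  have e4 : ∀ p, ENNReal.ofReal (-F p)
      = ENNReal.ofReal (Real.exp (En (fun i => p.2 i + α * p.1) / 2)) * ENNReal.ofReal ((fun x : ℝ => -x) (Φ (fun i => p.2 i + α * p.1))) := by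
    intro p
    simp only [hF]
    rw [← mul_neg, ENNReal.ofReal_mul (Real.exp_pos _).le]
  simp only [e3, e4]
  rw [key (fun x => x) measurable_id, key (fun x => -x) measurable_neg, ENNReal.toReal_mul, ENNReal.toReal_mul,
    ENNReal.toReal_ofReal hN.le]
  ring

end refabs

/-- `A⁺` is the terminal covariance at the scale `1` -/
theorem rdo_apl_terminal (G : Geom) : IsTerminal G Fam.entry 1 (Apl G) := by
  have h : ∃ Γ, IsTerminal G Fam.entry 1 Γ := B4.exists_terminal G Fam.entry B4.entry_adm 1 le_rfl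
  unfold Apl termCov
  rw [dif_pos h]
  exact h.choose_spec

/-- `Σ 𝟙 = 𝟙` for a covariance which kills the constants -/
theorem rdo_sig_one (a : ℝ) (c : Grid G) (hc : Whole c) (Γ : Matrix G.V G.V ℝ) (hΓ : Γ.mulVec (fun _ => 1) = 0) :
    (Sig a c Γ).mulVec (fun _ => 1) = fun _ => 1 := by
  have h1 : (Bm c).transpose.mulVec (fun _ => 1) = fun _ => ((c.m : ℝ) ^ 2)⁻¹ := by
    funext v
    simp only [Matrix.mulVec, dotProduct, Matrix.transpose_apply, Bm, Matrix.of_apply, mul_one]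
    rw [Finset.sum_ite_eq]
    simp [whole_sites_card hc]
  have h2 : (fun _ : G.V => ((c.m : ℝ) ^ 2)⁻¹) = ((c.m : ℝ) ^ 2)⁻¹ • (fun _ : G.V => (1 : ℝ)) := by
    funext v
    simp
  unfold Sig
  rw [Matrix.add_mulVec, Matrix.one_mulVec, Matrix.smul_mulVec, ← Matrix.mulVec_mulVec, ← Matrix.mulVec_mulVec, h1, h2,
    Matrix.mulVec_smul, hΓ]
  simp

/-- `L-RDO-P0c` **the reference law is the Lebesgue measure of the quotient** (= `F4a.noisy_reference_test` without the weight).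
`∫_θ ∫_y e^{-N \bar y²/2} Φ (y + αθ) = ∫_y Φ (y) G (\bar y)`, `G (t) = α⁻¹ ∫_{t-2π}^{t} e^{-N s²/2} ds`; tiling: `∑_k G (t + 2πk) = α⁻¹ ∫_ℝ e^{-N s²/2}`.  The signed version follows with `Φ^±`. -/
theorem rdo_ref (hG : G.bc = BC.per) (a : ℝ) (ha : 0 < a) (c : Grid G) (hc : Whole c) (h3 : 3 ≤ c.n) (i0 : c.I) : ∃ N : ℝ, 0 < N ∧
    (∀ Φ : (c.I → ℝ) → ℝ≥0∞, Measurable Φ → (∀ y, Φ (fun i => y i + 2 * Real.pi) = Φ y) →
      ∫⁻ θ in Set.Ioc 0 (2 * Real.pi / Real.sqrt a), ∫⁻ Y, ENNReal.ofReal (Real.exp ((Top.full c).Eobs a 0 (fun i => Y i + Real.sqrt a * θ) / 2)) * Φ (fun i => Y i + Real.sqrt a * θ)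
        ∂(Reg.regGauss (Sig a c (Apl G))) = ENNReal.ofReal N * ∫⁻ y in fund c i0, Φ y) ∧
    (∀ Φ : (c.I → ℝ) → ℝ, Measurable Φ → Per c Φ → IntegrableOn Φ (fund c i0) →
      ∫ θ in (0 : ℝ)..(2 * Real.pi / Real.sqrt a), ∫ Y, Real.exp ((Top.full c).Eobs a 0 (fun i => Y i + Real.sqrt a * θ) / 2) * Φ (fun i => Y i + Real.sqrt a * θ)
        ∂(Reg.regGauss (Sig a c (Apl G))) = N * ∫ y in fund c i0, Φ y) := by
  obtain ⟨hS, hEn⟩ := rdo_en_formula hG a ha c hc h3
  obtain ⟨κ, hκ, hdens⟩ := rdo_gauss_density (Sig a c (Apl G)) hS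
  have h1 := rdo_sig_one a c hc (Apl G) (rdo_apl_terminal G).const
  have : Nonempty c.I := ⟨i0⟩
  have hα : 0 < Real.sqrt a := Real.sqrt_pos.2 ha
  obtain ⟨N, hN, hmain⟩ := rdo_ref_abs (Sig a c (Apl G)) hS h1 (Reg.regGauss (Sig a c (Apl G))) κ hκ hdens (fund c i0)
    (fun g Φ hg hΦ hper => unf_tile c i0 g Φ hg hΦ hper) ((Top.full c).Eobs a 0) hEn (Real.sqrt a) hα
  have hEnm : Measurable ((Top.full c).Eobs a 0) := by
    have : (Top.full c).Eobs a 0 = fun y => y ⬝ᵥ (Sig a c (Apl G))⁻¹.mulVec y - (Fintype.card c.I : ℝ) * ybar c y ^ 2 := funext hEn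
    rw [this]
    unfold ybar
    exact ((rdo_quad_continuous _).measurable).sub (by fun_prop)
  exact ⟨N, hN, hmain, fun Φ hΦ hper hint =>
    rdo_ref_signed (Reg.regGauss (Sig a c (Apl G))) (fund c i0) _ hEnm (Real.sqrt a) hα N hN hmain Φ hΦ hper hint⟩

theorem rdo_Bm_mulVec (c : Grid G) (u : G.V → ℝ) : (Bm c).mulVec u = avg c u := by
  funext Q
  show ∑ v, (if c.blk v = Q then ((c.sites {Q}).card : ℝ)⁻¹ else 0) * u v = (∑ v ∈ c.sites {Q}, u v) / ((c.sites {Q}).card : ℝ)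
  rw [div_eq_inv_mul, Finset.mul_sum]
  unfold Grid.sites
  rw [Finset.sum_filter]
  refine Finset.sum_congr rfl fun v _ => ?_
  simp only [Finset.mem_singleton]
  split_ifs <;> simp

/-- `L-RDO-P1` the law of the reference observations -/
theorem rdo_push (a : ℝ) (ha : 0 ≤ a) (c : Grid G) (Γ : Matrix G.V G.V ℝ) (hΓ : Γ.PosSemidef) :
    ((gauss G Γ).prod (noise c)).map (fun p => obsY a c p.1 p.2) = Reg.regGauss (Sig a c Γ) := by
  have hg : gauss G Γ = Reg.regGauss Γ := rfl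
  have hn : noise c = Reg.regGauss (1 : Matrix c.I c.I ℝ) := Reg.regg_gauss_one.symm
  have s1 : SFinite (Reg.regGauss Γ) := by unfold Reg.regGauss; infer_instance
  have s2 : SFinite (Reg.regGauss (1 : Matrix c.I c.I ℝ)) := by unfold Reg.regGauss; infer_instance
  set B' : Matrix c.I G.V ℝ := Real.sqrt a • Bm c with hB'
  have hm1 : Measurable (fun ζ : G.V → ℝ => B'.mulVec ζ) := by
    have hc : Continuous (fun ζ : G.V → ℝ => B'.mulVec ζ) := by fun_prop
    exact hc.measurable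
  have hf : (fun p : (G.V → ℝ) × (c.I → ℝ) => obsY a c p.1 p.2)
      = (fun x : (c.I → ℝ) × (c.I → ℝ) => x.1 + x.2) ∘ Prod.map (fun ζ : G.V → ℝ => B'.mulVec ζ) id := by
    funext p
    funext i
    show avg c (fun x => Real.sqrt a * p.1 x) i + p.2 i = (B'.mulVec p.1) i + p.2 i
    rw [hB', Matrix.smul_mulVec, rdo_Bm_mulVec, ← rdo_Bm_mulVec c (fun x => Real.sqrt a * p.1 x)]
    congr 1
    have : (fun x => Real.sqrt a * p.1 x) = Real.sqrt a • p.1 := rfl
    rw [this, Matrix.mulVec_smul, rdo_Bm_mulVec]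
  rw [hg, hn, hf, ← Measure.map_map (by fun_prop) (hm1.prodMap measurable_id),
    ← Measure.map_prod_map _ _ hm1 measurable_id, Measure.map_id, Reg.reg_gauss_map hΓ,
    Reg.reg_gauss_add (Reg.regg_psd_conj hΓ B') Matrix.PosSemidef.one]
  congr 1
  unfold Sig
  rw [add_comm, hB', Matrix.transpose_smul, Matrix.smul_mul, Matrix.smul_mul, Matrix.mul_smul, smul_smul,
    Real.mul_self_sqrt ha]

theorem rdo_angle_mod (N : ℕ) (hN : 0 < N) (k : ℕ) :
    2 * Real.pi * (k : ℝ) / N = 2 * Real.pi * ((k % N : ℕ) : ℝ) / N + ((k / N : ℕ) : ℝ) * (2 * Real.pi) := by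
  have hN' : (N : ℝ) ≠ 0 := by exact_mod_cast hN.ne'
  have h : (k : ℝ) = ((k % N : ℕ) : ℝ) + N * ((k / N : ℕ) : ℝ) := by exact_mod_cast (Nat.mod_add_div k N).symm
  rw [h]
  field_simp

theorem rdo_cos_mod (N : ℕ) (hN : 0 < N) (k : ℕ) (φ : ℝ) :
    Real.cos (2 * Real.pi * ((k % N : ℕ) : ℝ) / N + φ) = Real.cos (2 * Real.pi * (k : ℝ) / N + φ) := by
  rw [rdo_angle_mod N hN k, add_right_comm, Real.cos_add_nat_mul_two_pi]

theorem rdo_sin_mod (N : ℕ) (hN : 0 < N) (k : ℕ) (φ : ℝ) :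
    Real.sin (2 * Real.pi * ((k % N : ℕ) : ℝ) / N + φ) = Real.sin (2 * Real.pi * (k : ℝ) / N + φ) := by
  rw [rdo_angle_mod N hN k, add_right_comm, Real.sin_add_nat_mul_two_pi]

/-- a symmetric translation invariant matrix on `(ℤ/N)²` has the first cosines (with any phase) as eigenvectors -/
theorem rdo_circ_eig (N : ℕ) [NeZero N] (M : Matrix (Fin N × Fin N) (Fin N × Fin N) ℝ) (hs : M.transpose = M)
    (ht : ∀ P Q Q', M (Q + P) (Q' + P) = M Q Q') :
    ∃ μ : ℝ, ∀ φ : ℝ, M.mulVec (fun Q => Real.cos (2 * Real.pi * ((Q.1 : ℕ) : ℝ) / N + φ))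
      = fun Q => μ * Real.cos (2 * Real.pi * ((Q.1 : ℕ) : ℝ) / N + φ) := by
  have hN : 0 < N := Nat.pos_of_ne_zero (NeZero.ne N)
  have hN' : (N : ℝ) ≠ 0 := by exact_mod_cast hN.ne'
  set ν : ℝ := ∑ P : Fin N × Fin N, M 0 P * Real.sin (2 * Real.pi * ((P.1 : ℕ) : ℝ) / N) with hν
  have hν0 : ν = 0 := by
    have h1 : ν = ∑ P : Fin N × Fin N, M 0 (-P) * Real.sin (2 * Real.pi * (((-P).1 : Fin N) : ℕ) / N) :=
      (Fintype.sum_equiv (Equiv.neg _) _ _ fun P => rfl).symm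
    have h2 : ∀ P : Fin N × Fin N, M 0 (-P) * Real.sin (2 * Real.pi * (((-P).1 : Fin N) : ℕ) / N)
        = -(M 0 P * Real.sin (2 * Real.pi * ((P.1 : ℕ) : ℝ) / N)) := by
      intro P
      have e1 : M 0 (-P) = M 0 P := by
        have := ht P 0 (-P)
        rw [zero_add, neg_add_cancel] at this
        rw [← this, ← Matrix.transpose_apply M, hs]
      have e2 : Real.sin (2 * Real.pi * (((-P).1 : Fin N) : ℕ) / N) = -Real.sin (2 * Real.pi * ((P.1 : ℕ) : ℝ) / N) := by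
        have h3 : (((-P).1 : Fin N) : ℕ) = (N - (P.1 : ℕ)) % N := by
          rw [Prod.fst_neg, Fin.val_neg']
        have h4 := rdo_sin_mod N hN (N - (P.1 : ℕ)) 0
        rw [add_zero, add_zero] at h4
        rw [h3, h4, Nat.cast_sub P.1.2.le]
        have : 2 * Real.pi * ((N : ℝ) - ((P.1 : ℕ) : ℝ)) / N = 2 * Real.pi - 2 * Real.pi * ((P.1 : ℕ) : ℝ) / N := by
          field_simp
        rw [this, Real.sin_two_pi_sub]
      rw [e1, e2]
      ring
    rw [Finset.sum_congr rfl fun P _ => h2 P, Finset.sum_neg_distrib, ← hν] at h1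
    linarith
  refine ⟨∑ P : Fin N × Fin N, M 0 P * Real.cos (2 * Real.pi * ((P.1 : ℕ) : ℝ) / N), fun φ => ?_⟩
  funext Q
  have h1 : M.mulVec (fun Q => Real.cos (2 * Real.pi * ((Q.1 : ℕ) : ℝ) / N + φ)) Q
      = ∑ P : Fin N × Fin N, M Q (P + Q) * Real.cos (2 * Real.pi * (((P + Q).1 : Fin N) : ℕ) / N + φ) :=
    (Fintype.sum_equiv (Equiv.addRight Q) _ _ fun P => rfl).symm
  have h2 : ∀ P : Fin N × Fin N, M Q (P + Q) * Real.cos (2 * Real.pi * (((P + Q).1 : Fin N) : ℕ) / N + φ)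
      = (M 0 P * Real.cos (2 * Real.pi * ((P.1 : ℕ) : ℝ) / N)) * Real.cos (2 * Real.pi * ((Q.1 : ℕ) : ℝ) / N + φ)
        - (M 0 P * Real.sin (2 * Real.pi * ((P.1 : ℕ) : ℝ) / N)) * Real.sin (2 * Real.pi * ((Q.1 : ℕ) : ℝ) / N + φ) := by
    intro P
    have e1 : M Q (P + Q) = M 0 P := by
      have := ht Q 0 P
      rwa [zero_add] at this
    have e2 : (((P + Q).1 : Fin N) : ℕ) = ((P.1 : ℕ) + (Q.1 : ℕ)) % N := by
      rw [Prod.fst_add, Fin.val_add]
    rw [e1, e2, rdo_cos_mod N hN]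
    have : 2 * Real.pi * (((P.1 : ℕ) + (Q.1 : ℕ) : ℕ) : ℝ) / N + φ
        = 2 * Real.pi * ((P.1 : ℕ) : ℝ) / N + (2 * Real.pi * ((Q.1 : ℕ) : ℝ) / N + φ) := by
      push_cast
      ring
    rw [this, Real.cos_add]
    ring
  rw [h1, Finset.sum_congr rfl fun P _ => h2 P, Finset.sum_sub_distrib, ← Finset.sum_mul, ← Finset.sum_mul, ← hν, hν0]
  ring

theorem rdo_apl_spec (G : Geom) : IsTerminal G Fam.entry 1 (Apl G) := by
  have h : ∃ Γ, IsTerminal G Fam.entry 1 Γ := Ker.ker_exists_terminal G Fam.entry Ker.ker_entry_adm 1 le_rfl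
  unfold Apl termCov
  rw [dif_pos h]
  exact h.choose_spec

/-- translation invariance of the Fourier multipliers of a torus -/
theorem rdo_mul_shift (hG : G.bc = BC.per) {Γ : Matrix G.V G.V ℝ} {m : ℝ → ℝ} (h : Ker.HasMul G Γ m) (x y t : ℤ × ℤ) :
    Γ (G.π (x + t)) (G.π (y + t)) = Γ (G.π x) (G.π y) := by
  apply Complex.ofReal_injective
  rw [h, h]
  have hi : Ker.imgs G = {(false, false)} := by simp [Ker.imgs, hG]
  have hr : ∀ z, Ker.rf (false, false) z = z := by intro z; simp [Ker.rf, Ker.rf1]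
  simp only [Ker.gker, hi, Finset.sum_singleton, hr, add_sub_add_right_eq_sub]

theorem rdo_per_eq (hG : G.bc = BC.per) : Ker.per G = G.M := by simp [Ker.per, hG]

/-- the lift of the site number `(t, l)` of the cell `Q` -/
def rdoCellX (c : Grid G) (Q : c.I) (t l : ℕ) : ℤ × ℤ := ((((Q.1 : ℕ) * c.m + t : ℕ) : ℤ), (((Q.2 : ℕ) * c.m + l : ℕ) : ℤ))

theorem rdo_pt_fold (hG : G.bc = BC.per) (c : Grid G) (a t : ℕ) : cflPt c a t = G.fold ((a * c.m + t : ℕ) : ℤ) := by
  have h1 := Ker.ker_fold_coe G (cflPt c a t)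
  rw [← h1, Ker.ker_fold_eq_iff, rdo_per_eq hG]
  left
  show (G.M : ℤ) ∣ (((a * c.m + t) % G.M : ℕ) : ℤ) - ((a * c.m + t : ℕ) : ℤ)
  rw [Int.natCast_mod]
  exact ⟨-(((a * c.m + t : ℕ) : ℤ) / G.M), by
    have := Int.emod_add_mul_ediv ((a * c.m + t : ℕ) : ℤ) G.M
    linarith⟩

theorem rdo_site_pi (hG : G.bc = BC.per) (c : Grid G) (Q : c.I) (t l : ℕ) :
    cflMk true (cflPt c Q.1 t) (cflPt c Q.2 l) = G.π (rdoCellX c Q t l) := by
  simp only [cflMk, if_true, Geom.π, rdoCellX, rdo_pt_fold hG]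

theorem rdo_BmT_mulVec (c : Grid G) (f : c.I → ℝ) : (Bm c).transpose.mulVec f = Bst c f := by
  funext v
  show ∑ Q, (if c.blk v = Q then ((c.sites {Q}).card : ℝ)⁻¹ else 0) * f Q = f (c.blk v) / ((c.sites {c.blk v}).card : ℝ)
  simp only [ite_mul, zero_mul, Finset.sum_ite_eq, Finset.mem_univ, if_true]
  rw [div_eq_mul_inv, mul_comm]

/-- `B Γ Bᵀ` -/
def rdoMcell (c : Grid G) (Γ : Matrix G.V G.V ℝ) : Matrix c.I c.I ℝ := Bm c * Γ * (Bm c).transpose

theorem rdo_Mcell_mulVec (c : Grid G) (Γ : Matrix G.V G.V ℝ) (f : c.I → ℝ) : (rdoMcell c Γ).mulVec f = avg c (Γ.mulVec (Bst c f)) := by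
  unfold rdoMcell
  rw [← Matrix.mulVec_mulVec, ← Matrix.mulVec_mulVec, rdo_BmT_mulVec, rdo_Bm_mulVec]

theorem rdo_Sig_mulVec (a : ℝ) (c : Grid G) (Γ : Matrix G.V G.V ℝ) (f : c.I → ℝ) :
    (Sig a c Γ).mulVec f = f + a • (rdoMcell c Γ).mulVec f := by
  unfold Sig rdoMcell
  rw [Matrix.add_mulVec, Matrix.one_mulVec, Matrix.smul_mulVec]

theorem rdo_Mcell_apply (hG : G.bc = BC.per) (c : Grid G) (hc : Whole c) (Γ : Matrix G.V G.V ℝ) (Q Q' : c.I) :
    rdoMcell c Γ Q Q' = ∑ t' ∈ Finset.range c.m, ∑ l' ∈ Finset.range c.m, ∑ t ∈ Finset.range c.m, ∑ l ∈ Finset.range c.m,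
      (((c.m : ℝ) ^ 2)⁻¹) ^ 2 * Γ (G.π (rdoCellX c Q t l)) (G.π (rdoCellX c Q' t' l')) := by
  have hcard : ∀ Q : c.I, ((c.sites {Q}).card : ℝ) = (c.m : ℝ) ^ 2 := fun Q => by rw [whole_sites_card hc]; push_cast; ring
  have h1 : rdoMcell c Γ Q Q' = ∑ w, (if c.blk w = cflMkI c true Q'.1 Q'.2 then
      (∑ v, if c.blk v = cflMkI c true Q.1 Q.2 then (((c.m : ℝ) ^ 2)⁻¹) ^ 2 * Γ v w else 0) else 0) := by
    unfold rdoMcell
    rw [Matrix.mul_apply]
    refine Finset.sum_congr rfl fun w _ => ?_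
    rw [Matrix.mul_apply, Matrix.transpose_apply]
    show (∑ v, (if c.blk v = Q then ((c.sites {Q}).card : ℝ)⁻¹ else 0) * Γ v w) * (if c.blk w = Q' then ((c.sites {Q'}).card : ℝ)⁻¹ else 0) = _
    have e1 : cflMkI c true Q.1 Q.2 = Q := rfl
    have e2 : cflMkI c true Q'.1 Q'.2 = Q' := rfl
    rw [e1, e2, hcard, hcard]
    by_cases hw : c.blk w = Q'
    · rw [if_pos hw, if_pos hw, Finset.sum_mul]
      refine Finset.sum_congr rfl fun v _ => ?_
      split_ifs <;> ring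
    · rw [if_neg hw, if_neg hw, mul_zero]
  rw [h1, cfl_sum2 hc true Q'.1 Q'.2]
  simp only [cfl_sum2 hc true Q.1 Q.2, rdo_site_pi hG]

theorem rdo_cellX_add (hG : G.bc = BC.per) (c : Grid G) (hc : Whole c) [NeZero c.n] (Q P : c.I) (t l : ℕ) :
    G.π (rdoCellX c (Q + P) t l) = G.π (rdoCellX c Q t l + ((((P.1 : ℕ) * c.m : ℕ) : ℤ), (((P.2 : ℕ) * c.m : ℕ) : ℤ))) := by
  have key : ∀ (a b : Fin c.n) (t : ℕ), G.fold (((((a + b : Fin c.n) : ℕ) * c.m + t : ℕ) : ℤ))
      = G.fold ((((a : ℕ) * c.m + t : ℕ) : ℤ) + (((b : ℕ) * c.m : ℕ) : ℤ)) := by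
    intro a b t
    rw [Ker.ker_fold_eq_iff, rdo_per_eq hG]
    left
    rw [Fin.val_add, whole_card hc]
    refine ⟨-((((a : ℕ) + (b : ℕ)) / c.n : ℕ) : ℤ), ?_⟩
    have h := Nat.mod_add_div ((a : ℕ) + (b : ℕ)) c.n
    have h' : ((((a : ℕ) + (b : ℕ)) % c.n : ℕ) : ℤ) + (c.n : ℤ) * ((((a : ℕ) + (b : ℕ)) / c.n : ℕ) : ℤ) = (a : ℕ) + (b : ℕ) := by
      exact_mod_cast h
    push_cast
    push_cast at h'
    linear_combination (c.m : ℤ) * h'
  simp only [Geom.π, rdoCellX, Prod.fst_add, Prod.snd_add, key]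

theorem rdo_Mcell_shift (hG : G.bc = BC.per) (c : Grid G) (hc : Whole c) [NeZero c.n] {Γ : Matrix G.V G.V ℝ} {m : ℝ → ℝ}
    (h : Ker.HasMul G Γ m) (P Q Q' : c.I) : rdoMcell c Γ (Q + P) (Q' + P) = rdoMcell c Γ Q Q' := by
  rw [rdo_Mcell_apply hG c hc, rdo_Mcell_apply hG c hc]
  simp only [rdo_cellX_add hG c hc, rdo_mul_shift hG h]

theorem rdo_Mcell_symm (c : Grid G) {Γ : Matrix G.V G.V ℝ} (h : Γ.transpose = Γ) : (rdoMcell c Γ).transpose = rdoMcell c Γ := by
  unfold rdoMcell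
  rw [Matrix.transpose_mul, Matrix.transpose_mul, Matrix.transpose_transpose, h, Matrix.mul_assoc]

theorem rdo_sum_avg (c : Grid G) (hc : Whole c) (φ : G.V → ℝ) : ∑ Q, avg c φ Q = (∑ v, φ v) / (c.m : ℝ) ^ 2 := by
  have hcard : ∀ Q : c.I, ((c.sites {Q}).card : ℝ) = (c.m : ℝ) ^ 2 := fun Q => by rw [whole_sites_card hc]; push_cast; ring
  show ∑ Q, cellAvg c φ Q = _
  unfold cellAvg
  simp only [hcard]
  rw [← Finset.sum_div]
  congr 1
  unfold Grid.sites
  simp only [Finset.mem_singleton]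
  exact Finset.sum_fiberwise Finset.univ c.blk φ

/-- `L-RDO-P2` **the completed source is a first cosine** -/
theorem rdo_sig_f (hG : G.bc = BC.per) (a : ℝ) (ha : 0 < a) (c : Grid G) (hc : Whole c) (h3 : 3 ≤ c.n) :
    ((Sig a c (Apl G)).mulVec (ftest c) = fun Q => Real.sqrt a * gam a c * avg c (cos1 G) Q) ∧
    ftest c ⬝ᵥ (Sig a c (Apl G)).mulVec (ftest c) = v0raw a c ∧ ∑ Q, ftest c Q = 0 ∧
    (Sig a c (Apl G)).mulVec (fun _ => 1) = fun _ => 1 := by
  have : NeZero c.n := ⟨by omega⟩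
  have hT := rdo_apl_spec G
  have hmul := Ker.ker_terminal_mul Ker.ker_entry_adm 1 hT
  have hsym := Ker.ker_mul_symm hmul
  have hs0 : (0 : ℝ) < c.m := by exact_mod_cast hc.pos
  have hn0 : (0 : ℝ) < c.n := by exact_mod_cast (by omega : 0 < c.n)
  have hM : (G.M : ℝ) = c.n * c.m := by rw [whole_card hc]; push_cast; ring
  have hM3 : 3 ≤ G.M := by
    rw [whole_card hc]
    exact h3.trans (Nat.le_mul_of_pos_right _ hc.pos)
  -- second claim
  have h2 : ftest c ⬝ᵥ (Sig a c (Apl G)).mulVec (ftest c) = v0raw a c := by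
    rw [rdo_Sig_mulVec, dotProduct_add, dotProduct_smul, smul_eq_mul]
    unfold v0raw fsq hvar rdoMcell
    congr 1
    · simp only [dotProduct, sq]
    · rw [← Matrix.mulVec_mulVec, ← Matrix.mulVec_mulVec, Matrix.dotProduct_mulVec, ← Matrix.mulVec_transpose, rdo_BmT_mulVec]
  -- third claim
  have h3' : ∑ Q, ftest c Q = 0 := by
    unfold ftest
    rw [← Finset.mul_sum, rdo_sum_avg c hc, (rdo_cos_sums hM3).1, zero_div, mul_zero]
  -- fourth claim
  have h4 : (Sig a c (Apl G)).mulVec (fun _ => 1) = fun _ => 1 := by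
    rw [rdo_Sig_mulVec, rdo_Mcell_mulVec]
    have e : Bst c (fun _ => (1 : ℝ)) = ((c.m : ℝ) ^ 2)⁻¹ • (fun _ => (1 : ℝ)) := by
      funext v
      simp only [Bst, whole_sites_card hc, Pi.smul_apply, smul_eq_mul, mul_one, one_div]
      push_cast
      ring
    rw [e, Matrix.mulVec_smul, hT.const, smul_zero]
    funext Q
    have : avg c (0 : G.V → ℝ) Q = 0 := by
      show cellAvg c 0 Q = 0
      simp [cellAvg]
    simp [this]
  -- the eigenvector
  obtain ⟨μ, hμ⟩ := rdo_circ_eig c.n (rdoMcell c (Apl G)) (rdo_Mcell_symm c hsym) (rdo_Mcell_shift hG c hc hmul)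
  set φ0 : ℝ := 2 * Real.pi * (((c.m : ℝ) - 1) / 2) / G.M with hφ0
  have hu : avg c (cos1 G) = fun Q => beta G.M c.m * Real.cos (2 * Real.pi * ((Q.1 : ℕ) : ℝ) / c.n + φ0) := by
    funext Q
    rw [(rdo_avg_cos c hc Q).2, hφ0, hM]
    congr 2
    field_simp
  have hf : ftest c = (snr c ^ 2 / beta G.M c.m * beta G.M c.m) • fun Q : c.I => Real.cos (2 * Real.pi * ((Q.1 : ℕ) : ℝ) / c.n + φ0) := by
    funext Q
    have := congrFun hu Q
    simp only [ftest, Pi.smul_apply, smul_eq_mul]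
    rw [this]
    ring
  have heig : (rdoMcell c (Apl G)).mulVec (ftest c) = μ • ftest c := by
    rw [hf, Matrix.mulVec_smul, hμ φ0]
    funext Q
    simp only [Pi.smul_apply, smul_eq_mul]
    ring
  have hS : (Sig a c (Apl G)).mulVec (ftest c) = (1 + a * μ) • ftest c := by
    rw [rdo_Sig_mulVec, heig]
    funext Q
    simp only [Pi.add_apply, Pi.smul_apply, smul_eq_mul]
    ring
  obtain ⟨C, hC⟩ := rdo_hvar
  have hfsq : fsq c = snr c ^ 2 / 2 := (hC G hG c hc h3).1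
  have hlam : (1 + a * μ) * (snr c ^ 2 / 2) = v0raw a c := by
    rw [← h2, hS, dotProduct_smul, smul_eq_mul, ← hfsq]
    unfold fsq
    simp only [dotProduct, sq]
  refine ⟨?_, h2, h3', h4⟩
  rw [hS]
  funext Q
  have hsa : Real.sqrt a ≠ 0 := (Real.sqrt_pos.2 ha).ne'
  simp only [Pi.smul_apply, smul_eq_mul, ftest, gam, ← hlam]
  field_simp

/-! ### tools of `rdo_cell` (helper294) -/

/-- periodic shift, `∫⁻` -/
theorem rdo_lint_shift (T : ℝ) (hT : 0 < T) (g : ℝ → ℝ≥0∞) (hg : ∀ θ, g (θ + T) = g θ) (c : ℝ) :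
    ∫⁻ θ in Set.Ioc 0 T, g (θ + c) = ∫⁻ θ in Set.Ioc 0 T, g θ := by
  have h1 : ∫⁻ θ in Set.Ioc 0 T, g (θ + c) = ∫⁻ θ in Set.Ioc c (c + T), g θ := by
    have := (measurePreserving_add_right (volume : Measure ℝ) c).setLIntegral_comp_preimage_emb
      (measurableEmbedding_addRight c) g (Set.Ioc c (c + T))
    rw [← this]
    congr 2
    ext θ
    simp only [Set.mem_preimage, Set.mem_Ioc]
    constructor
    · rintro ⟨a, b⟩; exact ⟨by linarith, by linarith⟩
    · rintro ⟨a, b⟩; exact ⟨by linarith, by linarith⟩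
  rw [h1]
  have hper : Function.Periodic g T := hg
  have d0 := isAddFundamentalDomain_Ioc hT 0 (volume : Measure ℝ)
  rw [zero_add] at d0
  refine (isAddFundamentalDomain_Ioc hT c (volume : Measure ℝ)).setLIntegral_eq d0 g ?_
  rintro ⟨k, hk⟩ x
  obtain ⟨n, rfl⟩ := AddSubgroup.mem_zmultiples_iff.1 hk
  show g (n • T + x) = g x
  rw [add_comm]
  exact hper.zsmul n x

/-- periodic shift, `∫` -/
theorem rdo_int_shift (T : ℝ) (g : ℝ → ℝ) (hg : ∀ θ, g (θ + T) = g θ) (c : ℝ) :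
    ∫ θ in (0 : ℝ)..T, g (θ + c) = ∫ θ in (0 : ℝ)..T, g θ := by
  rw [intervalIntegral.integral_comp_add_right]
  have hper : Function.Periodic g T := hg
  have := hper.intervalIntegral_add_eq (0 + c) 0
  rw [zero_add] at this
  rw [zero_add, add_comm T c]
  simpa using this

/-- a random shift of the phase is absorbed by the uniform phase, `∫⁻` -/
theorem rdo_absorb_lint {Ω : Type} [MeasurableSpace Ω] (μ : Measure Ω) [SFinite μ] (γ : Measure ℝ) [IsProbabilityMeasure γ]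
    (T β : ℝ) (hT : 0 < T) (h : Ω → ℝ → ℝ≥0∞) (hm : Measurable (Function.uncurry h)) (hper : ∀ ω θ, h ω (θ + T) = h ω θ) :
    ∫⁻ θ in Set.Ioc 0 T, ∫⁻ z, h z.1 (θ + β * z.2) ∂(μ.prod γ) = ∫⁻ θ in Set.Ioc 0 T, ∫⁻ ω, h ω θ ∂μ := by
  have hm1 : Measurable (Function.uncurry fun (θ : ℝ) (z : Ω × ℝ) => h z.1 (θ + β * z.2)) := by
    have : (Function.uncurry fun (θ : ℝ) (z : Ω × ℝ) => h z.1 (θ + β * z.2))
        = Function.uncurry h ∘ fun p : ℝ × (Ω × ℝ) => (p.2.1, p.1 + β * p.2.2) := rfl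
    rw [this]
    exact hm.comp (by fun_prop)
  rw [lintegral_lintegral_swap hm1.aemeasurable]
  simp_rw [fun z : Ω × ℝ => rdo_lint_shift T hT (h z.1) (hper z.1) (β * z.2)]
  have hm2 : Measurable fun ω => ∫⁻ θ in Set.Ioc 0 T, h ω θ := hm.lintegral_prod_right'
  rw [lintegral_prod (fun z : Ω × ℝ => ∫⁻ θ in Set.Ioc 0 T, h z.1 θ) (hm2.comp measurable_fst).aemeasurable]
  simp only [lintegral_const, measure_univ, mul_one]
  have hm3 : Measurable (Function.uncurry fun (ω : Ω) (θ : ℝ) => h ω θ) := hm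
  rw [lintegral_lintegral_swap hm3.aemeasurable]

/-- a random shift of the phase is absorbed by the uniform phase, `∫` -/
theorem rdo_absorb {Ω : Type} [MeasurableSpace Ω] (μ : Measure Ω) [SFinite μ] (γ : Measure ℝ) [IsProbabilityMeasure γ]
    (T β : ℝ) (hT : 0 < T) (K : ℝ → ℝ → ℝ) (hKm : Measurable (Function.uncurry K)) (hK1 : ∀ θ c, |K θ c| ≤ 1)
    (hKper : ∀ θ c, K (θ + T) c = K θ c)
    (H : Ω → ℝ → ℝ) (hHm : Measurable (Function.uncurry H)) (hH0 : ∀ ω θ, 0 ≤ H ω θ) (hHper : ∀ ω θ, H ω (θ + T) = H ω θ)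
    (hfin : ∫⁻ θ in Set.Ioc 0 T, ∫⁻ ω, ENNReal.ofReal (H ω θ) ∂μ ≠ ⊤) :
    ∫ θ in (0 : ℝ)..T, ∫ z, K θ z.2 * H z.1 (θ + β * z.2) ∂(μ.prod γ)
      = ∫ θ in (0 : ℝ)..T, (∫ c, K (θ - β * c) c ∂γ) * ∫ ω, H ω θ ∂μ := by
  set lam : Measure ℝ := volume.restrict (Set.Ioc 0 T) with hlam
  have hoH : Measurable (Function.uncurry fun (ω : Ω) (θ : ℝ) => ENNReal.ofReal (H ω θ)) :=
    ENNReal.measurable_ofReal.comp hHm
  have hbd : ∀ (a b : ℝ), |a| ≤ 1 → 0 ≤ b → ‖a * b‖ₑ ≤ ENNReal.ofReal b := by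
    intro a b ha hb
    rw [Real.enorm_eq_ofReal_abs, abs_mul, abs_of_nonneg hb]
    exact ENNReal.ofReal_le_ofReal (mul_le_of_le_one_left hb ha)
  -- integrability before the shift
  have hF1m : Measurable (fun p : ℝ × (Ω × ℝ) => K p.1 p.2.2 * H p.2.1 (p.1 + β * p.2.2)) :=
    (hKm.comp (by fun_prop : Measurable fun p : ℝ × (Ω × ℝ) => (p.1, p.2.2))).mul
      (hHm.comp (by fun_prop : Measurable fun p : ℝ × (Ω × ℝ) => (p.2.1, p.1 + β * p.2.2)))
  have I1 : Integrable (Function.uncurry fun (θ : ℝ) (z : Ω × ℝ) => K θ z.2 * H z.1 (θ + β * z.2)) (lam.prod (μ.prod γ)) := by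
    refine ⟨hF1m.aestronglyMeasurable, ?_⟩
    have hm' : Measurable fun p : ℝ × (Ω × ℝ) => ENNReal.ofReal (H p.2.1 (p.1 + β * p.2.2)) :=
      ENNReal.measurable_ofReal.comp
        (hHm.comp (by fun_prop : Measurable fun p : ℝ × (Ω × ℝ) => (p.2.1, p.1 + β * p.2.2)))
    calc ∫⁻ p, ‖Function.uncurry (fun (θ : ℝ) (z : Ω × ℝ) => K θ z.2 * H z.1 (θ + β * z.2)) p‖ₑ ∂(lam.prod (μ.prod γ))
        ≤ ∫⁻ p, ENNReal.ofReal (H p.2.1 (p.1 + β * p.2.2)) ∂(lam.prod (μ.prod γ)) :=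
          lintegral_mono fun p => hbd _ _ (hK1 _ _) (hH0 _ _)
      _ = ∫⁻ θ, ∫⁻ z, ENNReal.ofReal (H z.1 (θ + β * z.2)) ∂(μ.prod γ) ∂lam := lintegral_prod _ hm'.aemeasurable
      _ = ∫⁻ θ in Set.Ioc 0 T, ∫⁻ ω, ENNReal.ofReal (H ω θ) ∂μ :=
          rdo_absorb_lint μ γ T β hT (fun ω θ => ENNReal.ofReal (H ω θ)) hoH (fun ω θ => by rw [hHper])
      _ < ⊤ := hfin.lt_top
  -- integrability after the shift
  have hF2m : Measurable (fun p : ℝ × (Ω × ℝ) => K (p.1 - β * p.2.2) p.2.2 * H p.2.1 p.1) :=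
    (hKm.comp (by fun_prop : Measurable fun p : ℝ × (Ω × ℝ) => (p.1 - β * p.2.2, p.2.2))).mul
      (hHm.comp (by fun_prop : Measurable fun p : ℝ × (Ω × ℝ) => (p.2.1, p.1)))
  have I2 : Integrable (Function.uncurry fun (θ : ℝ) (z : Ω × ℝ) => K (θ - β * z.2) z.2 * H z.1 θ) (lam.prod (μ.prod γ)) := by
    refine ⟨hF2m.aestronglyMeasurable, ?_⟩
    have hm' : Measurable fun p : ℝ × (Ω × ℝ) => ENNReal.ofReal (H p.2.1 p.1) :=
      ENNReal.measurable_ofReal.comp (hHm.comp (by fun_prop : Measurable fun p : ℝ × (Ω × ℝ) => (p.2.1, p.1)))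
    calc ∫⁻ p, ‖Function.uncurry (fun (θ : ℝ) (z : Ω × ℝ) => K (θ - β * z.2) z.2 * H z.1 θ) p‖ₑ ∂(lam.prod (μ.prod γ))
        ≤ ∫⁻ p, ENNReal.ofReal (H p.2.1 p.1) ∂(lam.prod (μ.prod γ)) :=
          lintegral_mono fun p => hbd _ _ (hK1 _ _) (hH0 _ _)
      _ = ∫⁻ θ, ∫⁻ z, ENNReal.ofReal (H z.1 θ) ∂(μ.prod γ) ∂lam := lintegral_prod _ hm'.aemeasurable
      _ = ∫⁻ θ in Set.Ioc 0 T, ∫⁻ ω, ENNReal.ofReal (H ω θ) ∂μ := by
          refine lintegral_congr fun θ => ?_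
          have hm2 : Measurable fun ω => ENNReal.ofReal (H ω θ) :=
            ENNReal.measurable_ofReal.comp (hHm.comp (by fun_prop : Measurable fun ω : Ω => (ω, θ)))
          rw [lintegral_prod (fun z : Ω × ℝ => ENNReal.ofReal (H z.1 θ)) (hm2.comp measurable_fst).aemeasurable]
          simp only [lintegral_const, measure_univ, mul_one]
      _ < ⊤ := hfin.lt_top
  have hsh : ∀ z : Ω × ℝ, ∫ θ, K θ z.2 * H z.1 (θ + β * z.2) ∂lam = ∫ θ, K (θ - β * z.2) z.2 * H z.1 θ ∂lam := by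
    intro z
    have := rdo_int_shift T (fun θ => K (θ - β * z.2) z.2 * H z.1 θ) (fun θ => by
      rw [hHper, add_sub_right_comm, hKper]) (β * z.2)
    rw [intervalIntegral.integral_of_le hT.le, intervalIntegral.integral_of_le hT.le] at this
    simpa only [add_sub_cancel_right] using this
  rw [intervalIntegral.integral_of_le hT.le, intervalIntegral.integral_of_le hT.le, integral_integral_swap I1]
  simp_rw [hsh]
  rw [← integral_integral_swap I2]
  refine integral_congr_ae (Eventually.of_forall fun θ => ?_)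
  have := integral_prod_mul (μ := μ) (ν := γ) (fun ω => H ω θ) (fun c => K (θ - β * c) c)
  simp only
  rw [mul_comm, ← this]
  refine integral_congr_ae (Eventually.of_forall fun z => ?_)
  simp only [mul_comm]


section cell

variable {ι : Type} [Fintype ι] [DecidableEq ι]

/-- a Gaussian constant, any index set -/
theorem rdo_reg_const (v : ℝ≥0) :
    (Matrix.PosSemidef ((v : ℝ) • Matrix.of fun _ _ : ι => (1 : ℝ))) ∧
    Reg.regGauss ((v : ℝ) • Matrix.of fun _ _ : ι => (1 : ℝ)) = (gaussianReal 0 v).map fun c => fun _ : ι => c := by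
  set B : Matrix ι Unit ℝ := Matrix.of fun _ _ => Real.sqrt v with hB
  have hBB : B * (1 : Matrix Unit Unit ℝ) * B.transpose = (v : ℝ) • Matrix.of fun _ _ : ι => (1 : ℝ) := by
    ext i j
    simp [hB, Matrix.mul_apply]
  have h1 : (1 : Matrix Unit Unit ℝ).PosSemidef := Matrix.PosSemidef.one
  refine ⟨hBB ▸ Reg.regg_psd_conj h1 B, ?_⟩
  have h2 := Reg.regg_lin_law h1 (fun _ : Unit => Real.sqrt v)
  have h3 : Reg.regQf (1 : Matrix Unit Unit ℝ) (fun _ : Unit => Real.sqrt v) = v := by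
    simp [Reg.regQf, dotProduct]
  rw [h3, Real.toNNReal_coe] at h2
  rw [← h2, ← hBB, ← Reg.reg_gauss_map h1 B, Measure.map_map (by fun_prop) (by
    have hc : Continuous (fun ζ : Unit → ℝ => (fun _ : Unit => Real.sqrt v) ⬝ᵥ ζ) := by
      unfold dotProduct; fun_prop
    exact hc.measurable)]
  congr 1

/-- removal of the mean -/
def rdoP (Y : ι → ℝ) : ι → ℝ := fun i => Y i - (∑ j, Y j) / Fintype.card ι

omit [DecidableEq ι] in
theorem rdoP_measurable : Measurable (rdoP : (ι → ℝ) → ι → ℝ) := by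
  unfold rdoP
  fun_prop

/-- **decomposition**: mean-free part of `N (0, S)` plus an independent Gaussian constant of variance `v` -/
theorem rdo_decomp [Nonempty ι] (S : Matrix ι ι ℝ) (hS : S.PosSemidef) (h1 : S.mulVec (fun _ => 1) = fun _ => 1) (v : ℝ≥0) :
    ((Reg.regGauss S).prod (gaussianReal 0 v)).map (fun z => fun i => rdoP z.1 i + z.2)
      = Reg.regGauss (S + ((v : ℝ) - 1 / Fintype.card ι) • Matrix.of fun _ _ : ι => (1 : ℝ)) := by
  set J : Matrix ι ι ℝ := Matrix.of fun _ _ : ι => (1 : ℝ) with hJ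
  set n : ℝ := (Fintype.card ι : ℝ) with hn
  have hn0 : n ≠ 0 := by
    rw [hn]; exact_mod_cast Fintype.card_ne_zero
  set Pm : Matrix ι ι ℝ := 1 - n⁻¹ • J with hPm
  have hSJ : S * J = J := by
    ext i j
    have := congrFun h1 i
    simp only [Matrix.mulVec, dotProduct, mul_one] at this
    simp [hJ, Matrix.mul_apply, this]
  have hJt : J.transpose = J := by ext i j; simp [hJ]
  have hSt : S.transpose = S := by
    have := hS.isHermitian
    rwa [Matrix.IsHermitian, Matrix.conjTranspose_eq_transpose_of_trivial] at this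
  have hJS : J * S = J := by
    have := congrArg Matrix.transpose hSJ
    rwa [Matrix.transpose_mul, hJt, hSt] at this
  have hJJ : J * J = n • J := by
    ext i j
    simp [hJ, Matrix.mul_apply, hn]
  have hPt : Pm.transpose = Pm := by
    rw [hPm, Matrix.transpose_sub, Matrix.transpose_one, Matrix.transpose_smul, hJt]
  have hPSP : Pm * S * Pm.transpose = S - n⁻¹ • J := by
    rw [hPt, hPm]
    simp only [Matrix.sub_mul, Matrix.mul_sub, Matrix.one_mul, Matrix.mul_one, Matrix.smul_mul, Matrix.mul_smul, hSJ, hJS, hJJ]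
    ext i j
    simp only [Matrix.sub_apply, Matrix.smul_apply, smul_eq_mul]
    field_simp
    ring
  have e1 : (Reg.regGauss S).map rdoP = Reg.regGauss (Pm * S * Pm.transpose) := by
    refine Reg.reg_gauss_map' hS Pm rdoP fun ζ => ?_
    funext i
    simp only [rdoP, hPm, Matrix.sub_mulVec, Matrix.one_mulVec, Matrix.smul_mulVec, Pi.sub_apply, Pi.smul_apply, smul_eq_mul]
    congr 1
    simp only [hJ, Matrix.mulVec, dotProduct, Matrix.of_apply, one_mul]
    rw [div_eq_inv_mul]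
  obtain ⟨hvJ, e2⟩ := rdo_reg_const (ι := ι) v
  have e3 : (fun z : (ι → ℝ) × ℝ => fun i => rdoP z.1 i + z.2)
      = (fun x : (ι → ℝ) × (ι → ℝ) => x.1 + x.2) ∘ (Prod.map rdoP fun c => fun _ : ι => c) := rfl
  rw [e3, ← Measure.map_map (by fun_prop) (rdoP_measurable.prodMap (by fun_prop)),
    ← Measure.map_prod_map _ _ rdoP_measurable (by fun_prop), e1, ← e2,
    Reg.reg_gauss_add (Reg.regg_psd_conj hS Pm) hvJ, hPSP]
  congr 1
  rw [sub_smul, one_div]
  abel

omit [DecidableEq ι] in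
theorem rdo_dot_measurable (η : ι → ℝ) : Measurable fun ζ : ι → ℝ => η ⬝ᵥ ζ := by
  have : Continuous fun ζ : ι → ℝ => η ⬝ᵥ ζ := by unfold dotProduct; fun_prop
  exact this.measurable

omit [DecidableEq ι] in
theorem rdo_cm_density_measurable (S : Matrix ι ι ℝ) (η : ι → ℝ) :
    Measurable fun ζ : ι → ℝ => ENNReal.ofReal (Real.exp (η ⬝ᵥ ζ - (η ⬝ᵥ S.mulVec η) / 2)) :=
  ENNReal.measurable_ofReal.comp (Real.measurable_exp.comp ((rdo_dot_measurable η).sub measurable_const))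

/-- Cameron-Martin for `regGauss`, any index set -/
theorem rdo_reg_shift (S : Matrix ι ι ℝ) (hS : S.PosSemidef) (η : ι → ℝ) :
    (Reg.regGauss S).map (fun ζ => ζ + S.mulVec η)
      = (Reg.regGauss S).withDensity fun ζ => ENNReal.ofReal (Real.exp (η ⬝ᵥ ζ - (η ⬝ᵥ S.mulVec η) / 2)) := by
  set e := (MeasurableEquiv.toLp 2 (ι → ℝ)).symm with he
  have hem : Measurable e := e.measurable
  set ρ : (ι → ℝ) → ℝ≥0∞ := fun ζ => ENNReal.ofReal (Real.exp (η ⬝ᵥ ζ - (η ⬝ᵥ S.mulVec η) / 2)) with hρ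
  have hρm : Measurable ρ := rdo_cm_density_measurable S η
  unfold Reg.regGauss
  rw [← Hol.map_withDensity_comp _ hem hρm, Measure.map_map (by fun_prop) hem]
  have h2 : (fun ζ => ζ + S.mulVec η) ∘ e
      = e ∘ fun x => x + Matrix.toEuclideanCLM (𝕜 := ℝ) S (WithLp.toLp 2 η) := by
    ext1 x
    rfl
  rw [h2, ← Measure.map_map hem (by fun_prop), Hol.mv_shift S hS]
  congr 2
  ext1 x
  simp only [Function.comp_apply, hρ]
  congr 3
  · rw [EuclideanSpace.inner_eq_star_dotProduct, dotProduct_comm]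
    rfl
  · rw [Matrix.inner_toEuclideanCLM]

theorem rdo_reg_shift_lintegral (S : Matrix ι ι ℝ) (hS : S.PosSemidef) (η : ι → ℝ) (f : (ι → ℝ) → ℝ≥0∞) (hf : Measurable f) :
    ∫⁻ ζ, f (ζ + S.mulVec η) ∂(Reg.regGauss S)
      = ∫⁻ ζ, ENNReal.ofReal (Real.exp (η ⬝ᵥ ζ - (η ⬝ᵥ S.mulVec η) / 2)) * f ζ ∂(Reg.regGauss S) := by
  rw [← lintegral_map hf (measurable_add_const _), rdo_reg_shift S hS,
    lintegral_withDensity_eq_lintegral_mul _ (rdo_cm_density_measurable S η) hf]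
  rfl

theorem rdo_reg_shift_integral (S : Matrix ι ι ℝ) (hS : S.PosSemidef) (η : ι → ℝ) (f : (ι → ℝ) → ℝ) :
    ∫ ζ, f (ζ + S.mulVec η) ∂(Reg.regGauss S)
      = ∫ ζ, Real.exp (η ⬝ᵥ ζ - (η ⬝ᵥ S.mulVec η) / 2) * f ζ ∂(Reg.regGauss S) := by
  rw [← (measurableEmbedding_addRight (S.mulVec η)).integral_map f, rdo_reg_shift S hS,
    integral_withDensity_eq_integral_toReal_smul (rdo_cm_density_measurable S η)
      (Filter.Eventually.of_forall fun _ => ENNReal.ofReal_lt_top)]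
  simp_rw [ENNReal.toReal_ofReal (Real.exp_pos _).le, smul_eq_mul]

end cell

/-- the Gaussian average of a shifted cosine -/
theorem rdo_gauss_cos (v : ℝ≥0) (x t : ℝ) :
    ∫ c, Real.cos (x - t * c) ∂(gaussianReal 0 v) = Real.cos x * Real.exp (-(t ^ 2 * v / 2)) := by
  have h1 : ∫ c, Complex.exp (((x - t * c : ℝ) : ℂ) * Complex.I) ∂(gaussianReal 0 v)
      = Complex.exp ((x : ℂ) * Complex.I) * Complex.exp (-((t ^ 2 * v / 2 : ℝ) : ℂ)) := by
    have h2 := charFun_gaussianReal (μ := 0) (v := v) (-t)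
    rw [charFun_apply_real] at h2
    have h3 : ∀ c : ℝ, Complex.exp (((x - t * c : ℝ) : ℂ) * Complex.I)
        = Complex.exp ((x : ℂ) * Complex.I) * Complex.exp (((-t : ℝ) : ℂ) * (c : ℂ) * Complex.I) := by
      intro c
      rw [← Complex.exp_add]
      congr 1
      push_cast
      ring
    simp_rw [h3]
    rw [integral_const_mul, h2]
    congr 2
    push_cast
    ring
  have hint : Integrable (fun c : ℝ => Complex.exp (((x - t * c : ℝ) : ℂ) * Complex.I)) (gaussianReal 0 v) := by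
    refine (integrable_const (1 : ℝ)).mono' (by fun_prop) (Eventually.of_forall fun c => ?_)
    rw [Complex.norm_exp_ofReal_mul_I]
  have h4 := congrArg Complex.re h1
  have h5 : (∫ c, Complex.exp (((x - t * c : ℝ) : ℂ) * Complex.I) ∂(gaussianReal 0 v)).re
      = ∫ c, (Complex.exp (((x - t * c : ℝ) : ℂ) * Complex.I)).re ∂(gaussianReal 0 v) :=
    (integral_re hint).symm
  rw [h5] at h4
  simp_rw [Complex.exp_ofReal_mul_I_re] at h4
  rw [h4, ← Complex.ofReal_neg, ← Complex.ofReal_exp, Complex.re_mul_ofReal, Complex.exp_ofReal_mul_I_re]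


/-- `L-RDO-P3` **the cell-level identity**.  `Y = Y₀ + c 𝟙`, `Y₀ ~ N (0, Σ - 𝟙𝟙ᵀ/N)`, `c ~ N (0, 1/N)` independent, `mean Y = c` a.s., `f·Y = f·Y₀`; the constant is absorbed by the phase on both sides
(`E cos (x - c') = e^{-Var c'/2} cos x`); Cameron-Martin for `Y₀` in the direction `f` (`Σ₀ f = Σ f`). -/
theorem rdo_cell {ι : Type} [Fintype ι] [DecidableEq ι] [Nonempty ι] (S : Matrix ι ι ℝ) (hS : S.PosSemidef) (h1 : S.mulVec (fun _ => 1) = fun _ => 1)
    (f : ι → ℝ) (hf : ∑ i, f i = 0) (σ : ℝ) (hσ : 0 ≤ σ) (α : ℝ) (hα : 0 < α) (q : ℤ) (w : ℝ)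
    (Ψ : (ι → ℝ) → ℝ) (hΨ0 : ∀ y, 0 ≤ Ψ y) (hΨm : Measurable Ψ) (hper : ∀ y, Ψ (fun i => y i + 2 * Real.pi) = Ψ y)
    (hint : ∫⁻ θ in Set.Ioc 0 (2 * Real.pi / α), ∫⁻ Y, ENNReal.ofReal (Real.exp (w * (f ⬝ᵥ Y)) * Ψ fun i => Y i + α * θ) ∂(Reg.regGauss S) ≠ ⊤) :
    ∫ θ in (0 : ℝ)..(2 * Real.pi / α), ∫ Y, Real.cos (q * (α * θ + (∑ i, Y i) / Fintype.card ι)) * Real.exp (w * (f ⬝ᵥ Y)) * Ψ (fun i => Y i + α * θ) ∂(Reg.regGauss S)
      = Real.exp (w ^ 2 * (f ⬝ᵥ S.mulVec f) / 2) * Real.exp ((q : ℝ) ^ 2 * (1 / Fintype.card ι + σ) / 2) *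
        ∫ θ in (0 : ℝ)..(2 * Real.pi / α), Real.cos (q * (α * θ)) *
          ∫ Y, Ψ (fun i => Y i + α * θ + w * S.mulVec f i) ∂(Reg.regGauss (S + σ • Matrix.of fun _ _ => (1 : ℝ))) := by
  set T : ℝ := 2 * Real.pi / α with hT
  have hT0 : 0 < T := by rw [hT]; positivity
  have hαT : α * T = 2 * Real.pi := by rw [hT]; field_simp
  set n : ℝ := (Fintype.card ι : ℝ) with hn
  have hn0 : 0 < n := by rw [hn]; exact_mod_cast Fintype.card_pos
  set μ := Reg.regGauss S with hμ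
  set e : (ι → ℝ) × ℝ → ι → ℝ := fun z => fun i => rdoP z.1 i + z.2 with he
  have hem : Measurable e := by
    have := rdoP_measurable (ι := ι)
    rw [he]
    refine measurable_pi_lambda _ fun i => ?_
    exact ((measurable_pi_apply i).comp (this.comp measurable_fst)).add measurable_snd
  set v₁ : ℝ≥0 := ⟨1 / n, by positivity⟩ with hv₁
  set v₂ : ℝ≥0 := ⟨1 / n + σ, by positivity⟩ with hv₂
  have hv₁c : (v₁ : ℝ) = 1 / n := rfl
  have hv₂c : (v₂ : ℝ) = 1 / n + σ := rfl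
  have D1 : (μ.prod (gaussianReal 0 v₁)).map e = μ := by
    have := rdo_decomp S hS h1 v₁
    rw [hv₁c, ← hn, sub_self, zero_smul, add_zero] at this
    exact this
  have D2 : (μ.prod (gaussianReal 0 v₂)).map e = Reg.regGauss (S + σ • Matrix.of fun _ _ => (1 : ℝ)) := by
    have := rdo_decomp S hS h1 v₂
    rw [hv₂c, ← hn, add_sub_cancel_left] at this
    exact this
  -- algebra
  have hsumP : ∀ Y : ι → ℝ, ∑ i, rdoP Y i = 0 := by
    intro Y
    simp only [rdoP, Finset.sum_sub_distrib, Finset.sum_const, Finset.card_univ, nsmul_eq_mul]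
    rw [← hn]
    field_simp
    ring
  have ha : ∀ z : (ι → ℝ) × ℝ, (∑ i, e z i) / n = z.2 := by
    intro z
    simp only [he, Finset.sum_add_distrib, hsumP, Finset.sum_const, Finset.card_univ, nsmul_eq_mul, zero_add]
    rw [← hn]
    field_simp
  have hb : ∀ z : (ι → ℝ) × ℝ, f ⬝ᵥ e z = f ⬝ᵥ z.1 := by
    intro z
    simp only [he, rdoP, dotProduct]
    have : ∀ i, f i * (z.1 i - (∑ j, z.1 j) / (Fintype.card ι : ℝ) + z.2)
        = f i * z.1 i + f i * (z.2 - (∑ j, z.1 j) / (Fintype.card ι : ℝ)) := fun i => by ring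
    simp_rw [this]
    rw [Finset.sum_add_distrib, ← Finset.sum_mul, hf, zero_mul, add_zero]
  have hSt : S.transpose = S := by
    have := hS.isHermitian
    rwa [Matrix.IsHermitian, Matrix.conjTranspose_eq_transpose_of_trivial] at this
  have hsumSf : ∑ i, S.mulVec f i = 0 := by
    have e1 : ∑ i, S.mulVec f i = (fun _ => (1 : ℝ)) ⬝ᵥ S.mulVec f := by simp [dotProduct]
    rw [e1, Matrix.dotProduct_mulVec, ← Matrix.mulVec_transpose, hSt, h1]
    simp [dotProduct, hf]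
  have hc : ∀ (Y : ι → ℝ) (i : ι), rdoP (Y + S.mulVec (w • f)) i = rdoP Y i + w * S.mulVec f i := by
    intro Y i
    simp only [rdoP, Pi.add_apply, Matrix.mulVec_smul, Pi.smul_apply, smul_eq_mul, Finset.sum_add_distrib, ← Finset.mul_sum,
      hsumSf, mul_zero, add_zero]
    ring
  -- the two integrands
  set H₁ : (ι → ℝ) → ℝ → ℝ := fun Y θ => Real.exp (w * (f ⬝ᵥ Y)) * Ψ (fun i => rdoP Y i + α * θ) with hH₁
  set H₂ : (ι → ℝ) → ℝ → ℝ := fun Y θ => Ψ (fun i => rdoP Y i + α * θ + w * S.mulVec f i) with hH₂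
  have hPm := rdoP_measurable (ι := ι)
  have hA1 : Measurable fun p : (ι → ℝ) × ℝ => (fun i => rdoP p.1 i + α * p.2 : ι → ℝ) :=
    measurable_pi_lambda _ fun i =>
      ((measurable_pi_apply i).comp (hPm.comp measurable_fst)).add (measurable_snd.const_mul α)
  have hA2 : Measurable fun p : (ι → ℝ) × ℝ => (fun i => rdoP p.1 i + α * p.2 + w * S.mulVec f i : ι → ℝ) :=
    measurable_pi_lambda _ fun i =>
      (((measurable_pi_apply i).comp (hPm.comp measurable_fst)).add (measurable_snd.const_mul α)).add_const _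
  have hH₁m : Measurable (Function.uncurry H₁) :=
    (Real.measurable_exp.comp (((rdo_dot_measurable f).comp measurable_fst).const_mul w)).mul (hΨm.comp hA1)
  have hH₂m : Measurable (Function.uncurry H₂) := hΨm.comp hA2
  have hH₁0 : ∀ Y θ, 0 ≤ H₁ Y θ := fun Y θ => mul_nonneg (Real.exp_pos _).le (hΨ0 _)
  have hH₂0 : ∀ Y θ, 0 ≤ H₂ Y θ := fun Y θ => hΨ0 _
  have hH₁p : ∀ Y θ, H₁ Y (θ + T) = H₁ Y θ := by
    intro Y θ
    simp only [hH₁]
    congr 1
    rw [← hper (fun i => rdoP Y i + α * θ)]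
    congr 1
    funext i
    rw [mul_add, hαT]; ring
  have hH₂p : ∀ Y θ, H₂ Y (θ + T) = H₂ Y θ := by
    intro Y θ
    simp only [hH₂]
    rw [← hper (fun i => rdoP Y i + α * θ + w * S.mulVec f i)]
    congr 1
    funext i
    rw [mul_add, hαT]; ring
  have hαβ : ∀ θ c : ℝ, α * (θ + α⁻¹ * c) = α * θ + c := by
    intro θ c
    field_simp
  -- finiteness
  have hfin₁ : ∫⁻ θ in Set.Ioc 0 T, ∫⁻ Y, ENNReal.ofReal (H₁ Y θ) ∂μ ≠ ⊤ := by
    rw [← rdo_absorb_lint μ (gaussianReal 0 v₁) T α⁻¹ hT0 (fun Y θ => ENNReal.ofReal (H₁ Y θ))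
      (ENNReal.measurable_ofReal.comp hH₁m) (fun Y θ => by rw [hH₁p])]
    convert hint using 3 with θ
    conv_rhs => rw [← D1]
    rw [lintegral_map _ hem]
    · refine lintegral_congr fun z => ?_
      simp only [hH₁]
      rw [hb z]
      congr 3
      funext i
      rw [hαβ]
      simp only [he]
      ring
    · refine ENNReal.measurable_ofReal.comp ((Real.measurable_exp.comp ((rdo_dot_measurable f).const_mul w)).mul
        (hΨm.comp ?_))
      exact measurable_pi_lambda _ fun i => (measurable_pi_apply i).add_const _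
  have hη1 : ∀ ζ : ι → ℝ, (w • f) ⬝ᵥ ζ = w * (f ⬝ᵥ ζ) := fun ζ => by rw [smul_dotProduct, smul_eq_mul]
  have hη2 : (w • f) ⬝ᵥ S.mulVec (w • f) = w ^ 2 * (f ⬝ᵥ S.mulVec f) := by
    rw [Matrix.mulVec_smul, smul_dotProduct, dotProduct_smul, smul_eq_mul, smul_eq_mul]; ring
  have hfin₂ : ∫⁻ θ in Set.Ioc 0 T, ∫⁻ Y, ENNReal.ofReal (H₂ Y θ) ∂μ ≠ ⊤ := by
    have key : ∀ θ, ∫⁻ Y, ENNReal.ofReal (H₂ Y θ) ∂μ
        = ENNReal.ofReal (Real.exp (-(w ^ 2 * (f ⬝ᵥ S.mulVec f)) / 2)) * ∫⁻ Y, ENNReal.ofReal (H₁ Y θ) ∂μ := by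
      intro θ
      have hFm : Measurable fun ζ : ι → ℝ => ENNReal.ofReal (Ψ fun i => rdoP ζ i + α * θ) :=
        ENNReal.measurable_ofReal.comp (hΨm.comp (measurable_pi_lambda _ fun i =>
          ((measurable_pi_apply i).comp hPm).add_const _))
      have := rdo_reg_shift_lintegral S hS (w • f) (fun ζ => ENNReal.ofReal (Ψ fun i => rdoP ζ i + α * θ)) hFm
      have e1 : ∀ Y : ι → ℝ, ENNReal.ofReal (H₂ Y θ) = ENNReal.ofReal (Ψ fun i => rdoP (Y + S.mulVec (w • f)) i + α * θ) := by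
        intro Y
        simp only [hH₂]
        congr 2
        funext i
        rw [hc]; ring
      simp_rw [e1]
      rw [this, ← lintegral_const_mul' _ _ ENNReal.ofReal_ne_top]
      refine lintegral_congr fun ζ => ?_
      simp only [hH₁]
      rw [hη1, hη2, ← ENNReal.ofReal_mul (Real.exp_pos _).le, ← ENNReal.ofReal_mul (Real.exp_pos _).le, ← mul_assoc,
        ← Real.exp_add]
      congr 3
      ring
    simp_rw [key]
    rw [lintegral_const_mul' _ _ ENNReal.ofReal_ne_top]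
    exact ENNReal.mul_ne_top ENNReal.ofReal_ne_top hfin₁
  -- Cameron-Martin for the Bochner integrals
  have hCM : ∀ θ, ∫ Y, H₂ Y θ ∂μ = Real.exp (-(w ^ 2 * (f ⬝ᵥ S.mulVec f)) / 2) * ∫ Y, H₁ Y θ ∂μ := by
    intro θ
    have := rdo_reg_shift_integral S hS (w • f) (fun ζ => Ψ fun i => rdoP ζ i + α * θ)
    have e1 : ∀ Y : ι → ℝ, H₂ Y θ = Ψ fun i => rdoP (Y + S.mulVec (w • f)) i + α * θ := by
      intro Y
      simp only [hH₂]
      congr 1
      funext i
      rw [hc]; ring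
    simp_rw [e1]
    rw [this, ← integral_const_mul]
    refine integral_congr_ae (Filter.Eventually.of_forall fun ζ => ?_)
    simp only [hH₁]
    rw [hη1, hη2, ← mul_assoc, ← Real.exp_add]
    congr 2
    ring
  -- the left side
  have L1 : ∀ θ, ∫ Y, Real.cos (q * (α * θ + (∑ i, Y i) / n)) * Real.exp (w * (f ⬝ᵥ Y)) * Ψ (fun i => Y i + α * θ) ∂μ
      = ∫ z, Real.cos (q * (α * θ + z.2)) * H₁ z.1 (θ + α⁻¹ * z.2) ∂(μ.prod (gaussianReal 0 v₁)) := by
    intro θ
    conv_lhs => rw [← D1]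
    rw [integral_map hem.aemeasurable]
    · refine integral_congr_ae (Filter.Eventually.of_forall fun z => ?_)
      simp only [hH₁]
      rw [ha z, hb z, mul_assoc]
      congr 3
      funext i
      rw [hαβ]
      simp only [he]
      ring
    · refine Measurable.aestronglyMeasurable ?_
      refine ((Real.measurable_cos.comp ?_).mul (Real.measurable_exp.comp ((rdo_dot_measurable f).const_mul w))).mul
        (hΨm.comp ?_)
      · refine Measurable.const_mul (Measurable.const_add (Measurable.div_const ?_ _) _) _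
        exact Finset.measurable_sum _ fun i _ => measurable_pi_apply i
      · exact measurable_pi_lambda _ fun i => (measurable_pi_apply i).add_const _
  have L2 := rdo_absorb μ (gaussianReal 0 v₁) T α⁻¹ hT0 (fun θ c => Real.cos (q * (α * θ + c)))
    (Real.measurable_cos.comp (((measurable_fst.const_mul α).add measurable_snd).const_mul _))
    (fun θ c => Real.abs_cos_le_one _)
    (fun θ c => by
      have : (q : ℝ) * (α * (θ + T) + c) = q * (α * θ + c) + q * (2 * Real.pi) := by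
        rw [mul_add α, hαT]; ring
      simp only [this]
      exact Real.cos_add_int_mul_two_pi _ q)
    H₁ hH₁m hH₁0 hH₁p hfin₁
  have L3 : ∀ θ, ∫ c, (fun θ c => Real.cos (q * (α * θ + c))) (θ - α⁻¹ * c) c ∂(gaussianReal 0 v₁) = Real.cos (q * (α * θ)) := by
    intro θ
    have : ∀ c : ℝ, (fun θ c => Real.cos (q * (α * θ + c))) (θ - α⁻¹ * c) c = Real.cos (q * (α * θ)) := by
      intro c
      show Real.cos (q * (α * (θ - α⁻¹ * c) + c)) = _
      congr 2
      field_simp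
      ring
    simp_rw [this]
    simp
  -- the right side
  have R1 : ∀ θ, Real.cos (q * (α * θ)) *
        ∫ Y, Ψ (fun i => Y i + α * θ + w * S.mulVec f i) ∂(Reg.regGauss (S + σ • Matrix.of fun _ _ => (1 : ℝ)))
      = ∫ z, Real.cos (q * (α * θ)) * H₂ z.1 (θ + α⁻¹ * z.2) ∂(μ.prod (gaussianReal 0 v₂)) := by
    intro θ
    rw [← D2, integral_map hem.aemeasurable, integral_const_mul]
    · congr 1
      refine integral_congr_ae (Filter.Eventually.of_forall fun z => ?_)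
      simp only [hH₂]
      congr 1
      funext i
      rw [hαβ]
      simp only [he]
      ring
    · refine Measurable.aestronglyMeasurable (hΨm.comp ?_)
      exact measurable_pi_lambda _ fun i => ((measurable_pi_apply i).add_const _).add_const _
  have R2 := rdo_absorb μ (gaussianReal 0 v₂) T α⁻¹ hT0 (fun θ _ => Real.cos (q * (α * θ)))
    (Real.measurable_cos.comp ((measurable_fst.const_mul α).const_mul _))
    (fun θ c => Real.abs_cos_le_one _)
    (fun θ c => by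
      have : (q : ℝ) * (α * (θ + T)) = q * (α * θ) + q * (2 * Real.pi) := by
        rw [mul_add α, hαT]; ring
      simp only [this]
      exact Real.cos_add_int_mul_two_pi _ q)
    H₂ hH₂m hH₂0 hH₂p hfin₂
  have R3 : ∀ θ, ∫ c, (fun θ (_ : ℝ) => Real.cos (q * (α * θ))) (θ - α⁻¹ * c) c ∂(gaussianReal 0 v₂)
      = Real.cos (q * (α * θ)) * Real.exp (-((q : ℝ) ^ 2 * (1 / n + σ) / 2)) := by
    intro θ
    have : ∀ c : ℝ, (fun θ (_ : ℝ) => Real.cos (q * (α * θ))) (θ - α⁻¹ * c) c = Real.cos (q * (α * θ) - q * c) := by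
      intro c
      show Real.cos (q * (α * (θ - α⁻¹ * c))) = _
      congr 1
      field_simp
    simp_rw [this]
    rw [rdo_gauss_cos, hv₂c]
  simp_rw [L1, R1]
  rw [L2, R2]
  simp_rw [L3, R3, hCM]
  rw [← intervalIntegral.integral_const_mul]
  refine intervalIntegral.integral_congr fun θ _ => ?_
  show _ = _
  have E1 : Real.exp (w ^ 2 * (f ⬝ᵥ S.mulVec f) / 2) * Real.exp (-(w ^ 2 * (f ⬝ᵥ S.mulVec f)) / 2) = 1 := by
    rw [← Real.exp_add]; simp [neg_div]
  have E2 : Real.exp ((q : ℝ) ^ 2 * (1 / n + σ) / 2) * Real.exp (-((q : ℝ) ^ 2 * (1 / n + σ) / 2)) = 1 := by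
    rw [← Real.exp_add]; simp
  calc Real.cos (q * (α * θ)) * ∫ Y, H₁ Y θ ∂μ
      = (Real.exp (w ^ 2 * (f ⬝ᵥ S.mulVec f) / 2) * Real.exp (-(w ^ 2 * (f ⬝ᵥ S.mulVec f)) / 2)) *
        (Real.exp ((q : ℝ) ^ 2 * (1 / n + σ) / 2) * Real.exp (-((q : ℝ) ^ 2 * (1 / n + σ) / 2))) *
        (Real.cos (q * (α * θ)) * ∫ Y, H₁ Y θ ∂μ) := by rw [E1, E2]; ring
    _ = _ := by ring

/-! ### helpers of `L-RDO-P4` -/

/-- linear duality: a functional which vanishes on the kernel of `D` factors through `D` -/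
theorem rdo_p4_dual {V E : Type} [Fintype E] [DecidableEq E] (D : (V → ℝ) →ₗ[ℝ] (E → ℝ)) (ℓ : (V → ℝ) →ₗ[ℝ] ℝ)
    (h : ∀ u, D u = 0 → ℓ u = 0) : ∃ q : E → ℝ, ∀ u, ℓ u = ∑ e, q e * D u e := by
  have h1 : ℓ ∈ (LinearMap.ker D).dualAnnihilator := by
    rw [Submodule.mem_dualAnnihilator]
    intro u hu
    exact h u hu
  rw [← LinearMap.range_dualMap_eq_dualAnnihilator_ker] at h1
  obtain ⟨φ, hφ⟩ := h1
  refine ⟨fun e => φ fun j => if e = j then 1 else 0, fun u => ?_⟩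
  rw [← hφ]
  show φ (D u) = _
  rw [LinearMap.pi_apply_eq_sum_univ φ (D u)]
  refine Finset.sum_congr rfl fun e _ => ?_
  rw [smul_eq_mul, mul_comm]

/-- every mean-zero covector on the cells is the divergence of a flow on the full graph -/
theorem rdo_p4_flow {c : Grid G} (hc : Whole c) (r : c.I → ℝ) (hr : ∑ i, r i = 0) :
    ∃ q : (Top.full c).graph.E → ℝ, ∀ u : G.V → ℝ,
      ∑ i, r i * avg c u i = ∑ e, q e * (u (stp e.1.1 e.1.2) - u e.1.1) := by
  classical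
  obtain ⟨D, hD⟩ : ∃ D : (G.V → ℝ) →ₗ[ℝ] ((Top.full c).graph.E → ℝ), ∀ u e, D u e = u (stp e.1.1 e.1.2) - u e.1.1 :=
    ⟨{ toFun := fun u e => u (stp e.1.1 e.1.2) - u e.1.1
       map_add' := fun u v => by
        funext e
        simp only [Pi.add_apply]
        ring
       map_smul' := fun a u => by
        funext e
        simp only [Pi.smul_apply, smul_eq_mul, RingHom.id_apply]
        ring }, fun _ _ => rfl⟩
  obtain ⟨ℓ, hℓ⟩ : ∃ ℓ : (G.V → ℝ) →ₗ[ℝ] ℝ, ∀ u, ℓ u = ∑ i, r i * avg c u i :=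
    ⟨{ toFun := fun u => ∑ i, r i * avg c u i
       map_add' := fun u v => by
        rw [← Finset.sum_add_distrib]
        refine Finset.sum_congr rfl fun i _ => ?_
        simp only [avg, cellAvg, Pi.add_apply, Finset.sum_add_distrib]
        ring
       map_smul' := fun a u => by
        rw [RingHom.id_apply, smul_eq_mul, Finset.mul_sum]
        refine Finset.sum_congr rfl fun i _ => ?_
        simp only [avg, cellAvg, Pi.smul_apply, smul_eq_mul, ← Finset.mul_sum]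
        ring }, fun _ => rfl⟩
  obtain ⟨q, hq⟩ := rdo_p4_dual D ℓ (fun u hu => by
    have h1 : ∀ v w, u v = u w := fl_const hc u fun e => by
      have := congrFun hu e
      rw [hD] at this
      exact sub_eq_zero.1 this
    have h2 : u = fun x => (fun _ : c.I => u (org G)) (c.blk x) := by
      funext x
      exact h1 x (org G)
    rw [hℓ]
    have h3 : ∀ i, avg c u i = u (org G) := by
      intro i
      rw [h2]
      exact enb_avg_blk hc (fun _ => u (org G)) i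
    simp only [h3, ← Finset.sum_mul, hr, zero_mul])
  refine ⟨q, fun u => ?_⟩
  rw [← hℓ, hq]
  exact Finset.sum_congr rfl fun e _ => by rw [hD]

/-- `L-RDO-P4` the cutoff weight is admissible: exponential moments of the test, positivity of the cutoff mass -/
theorem rdo_wt_zhat (hG : G.bc = BC.per) (b : ℝ) (hb : 0 < b) (c : Grid G) (hc : Whole c) : WtOK c ((Top.full c).Zhat b 0) := by
  classical
  have hs : (0 : ℝ) < c.m := by linarith [fl_m_one hc]
  obtain ⟨i0, hi0⟩ : ∃ i0, i0 = c.blk (org G) := ⟨_, rfl⟩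
  have hprod0 : ∀ y, 0 < ∏ f ∈ (Top.full c).faces, chi c.m (wf c 0 y f) := fun y =>
    Finset.prod_pos fun f _ => chiL_pos _ _ hs
  have hprod1 : ∀ y, ∏ f ∈ (Top.full c).faces, chi c.m (wf c 0 y f) ≤ 1 := fun y =>
    Finset.prod_le_one (fun f _ => (chiL_pos _ _ hs).le) (fun f _ => chiL_le_one _ _ hs)
  have hZ0 : ∀ y, 0 < (Top.full c).Zobs b 0 y := fun y => Zobs_pos hc _ b hb 0 y
  have hpos : ∀ y, 0 < (Top.full c).Zhat b 0 y := fun y => mul_pos (hZ0 y) (hprod0 y)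
  have hle : ∀ y, (Top.full c).Zhat b 0 y ≤ (Top.full c).Zobs b 0 y := fun y =>
    mul_le_of_le_one_right (hZ0 y).le (hprod1 y)
  have hmW : Measurable ((Top.full c).Zhat b 0) := Zhat_measurable _ b hb 0
  obtain ⟨W, hW⟩ : ∃ W, W = (Top.full c).Zhat b 0 := ⟨_, rfl⟩
  obtain ⟨Zo, hZo⟩ : ∃ Zo, Zo = (Top.full c).Zobs b 0 := ⟨_, rfl⟩
  have hmZ : Measurable Zo := hZo ▸ Zobs_measurable _ b hb 0
  have hexp : ∀ t : ℝ, IntegrableOn (fun y => Real.exp (t * Xobs c y) * W y) (fund c i0) := by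
    intro t
    obtain ⟨s, hs'⟩ : ∃ s, s = ∑ Q, ftest c Q := ⟨_, rfl⟩
    obtain ⟨r, hr⟩ : ∃ r : c.I → ℝ, ∀ Q, r Q = t * ftest c Q - (if Q = i0 then t * s else 0) := ⟨_, fun _ => rfl⟩
    have hr0 : ∑ Q, r Q = 0 := by
      simp only [hr, Finset.sum_sub_distrib, ← Finset.mul_sum, Finset.sum_ite_eq', Finset.mem_univ, if_true, ← hs', sub_self]
    obtain ⟨q, hq⟩ := rdo_p4_flow hc r hr0
    have hcore := fl_core hc i0 b hb 0 r q hq
    rw [← hZo] at hcore
    have hm : Measurable fun y : c.I → ℝ => Real.exp (∑ i, r i * y i) * Zo y :=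
      (by fun_prop : Measurable fun y : c.I → ℝ => Real.exp (∑ i, r i * y i)).mul hmZ
    have hI : Integrable (fun y : c.I → ℝ => Real.exp (∑ i, r i * y i) * Zo y) (volume.restrict (fund c i0)) := by
      refine fl_integrable _ _ hm _ (le_trans (le_of_eq ?_) hcore)
      refine lintegral_congr fun y => ?_
      rw [abs_of_nonneg (mul_nonneg (Real.exp_pos _).le (hZo ▸ (hZ0 y).le))]
    have hI2 := hI.const_mul (Real.exp (2 * Real.pi * |t * s|))
    have hmX : Measurable fun y : c.I → ℝ => Real.exp (t * Xobs c y) * W y := by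
      refine Measurable.mul ?_ (hW ▸ hmW)
      unfold Xobs
      fun_prop
    refine Integrable.mono' hI2 hmX.aestronglyMeasurable ?_
    rw [ae_restrict_iff' (unf_fund_meas c i0)]
    refine Filter.Eventually.of_forall fun y hy => ?_
    have hWy : 0 ≤ W y := hW ▸ (hpos y).le
    rw [Real.norm_eq_abs, abs_of_nonneg (mul_nonneg (Real.exp_pos _).le hWy)]
    have h1 : t * Xobs c y = ∑ i, r i * y i + t * s * y i0 := by
      unfold Xobs
      simp only [hr, sub_mul, Finset.sum_sub_distrib, ite_mul, zero_mul, Finset.sum_ite_eq', Finset.mem_univ, if_true,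
        Finset.mul_sum, mul_assoc]
      ring
    have h2 : t * s * y i0 ≤ 2 * Real.pi * |t * s| := by
      have hy' : y i0 ∈ Set.Ico 0 (2 * Real.pi) := hy
      calc t * s * y i0 ≤ |t * s| * y i0 := mul_le_mul_of_nonneg_right (le_abs_self _) hy'.1
        _ ≤ |t * s| * (2 * Real.pi) := mul_le_mul_of_nonneg_left hy'.2.le (abs_nonneg _)
        _ = _ := mul_comm _ _
    have h3 : W y ≤ Zo y := by rw [hW, hZo]; exact hle y
    rw [h1, Real.exp_add]
    calc Real.exp (∑ i, r i * y i) * Real.exp (t * s * y i0) * W y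
        ≤ Real.exp (∑ i, r i * y i) * Real.exp (2 * Real.pi * |t * s|) * Zo y := by
          gcongr
      _ = _ := by ring
  rw [← hW]
  refine ⟨fun y => hW ▸ (hpos y).le, hW ▸ hmW, hW ▸ Zhat_per b hc _ 0, hi0 ▸ hexp, ?_⟩
  unfold PhW
  rw [← hi0]
  simp only [one_mul]
  have hint0 : IntegrableOn W (fund c i0) := by
    have := hexp 0
    simpa using this
  rw [setIntegral_pos_iff_support_of_nonneg_ae (Filter.Eventually.of_forall fun y => hW ▸ (hpos y).le) hint0]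
  have hsupp : Function.support W = Set.univ := by
    ext y
    simp only [Function.mem_support, Set.mem_univ, iff_true]
    exact hW ▸ (hpos y).ne'
  rw [hsupp, Set.univ_inter]
  have hopen : IsOpen {y : c.I → ℝ | y i0 ∈ Set.Ioo 0 (2 * Real.pi)} := isOpen_Ioo.preimage (continuous_apply i0)
  have hne : ({y : c.I → ℝ | y i0 ∈ Set.Ioo 0 (2 * Real.pi)}).Nonempty :=
    ⟨fun _ => Real.pi, by
      show Real.pi ∈ Set.Ioo 0 (2 * Real.pi)
      exact ⟨Real.pi_pos, by linarith [Real.pi_pos]⟩⟩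
  exact (hopen.measure_pos volume hne).trans_le (measure_mono fun y hy => ⟨hy.1.le, hy.2⟩)

theorem rdo_mgf_calc {α : Type*} [MeasurableSpace α] (ν : Measure α) (W X : α → ℝ) (hW0 : ∀ y, 0 ≤ W y) (hWm : Measurable W)
    (hexp : ∀ t : ℝ, Integrable (fun y => Real.exp (t * X y) * W y) ν) :
    ContDiff ℝ 2 (fun w : ℝ => ∫ y, Real.exp (w * X y) * W y ∂ν) ∧
    deriv (fun w : ℝ => ∫ y, Real.exp (w * X y) * W y ∂ν) 0 = ∫ y, X y * W y ∂ν ∧
    iteratedDeriv 2 (fun w : ℝ => ∫ y, Real.exp (w * X y) * W y ∂ν) 0 = ∫ y, X y ^ 2 * W y ∂ν := by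
  set μ : Measure α := ν.withDensity (fun y => ENNReal.ofReal (W y)) with hμ
  have hm : Measurable fun y => ENNReal.ofReal (W y) := hWm.ennreal_ofReal
  have hlt : ∀ᵐ y ∂ν, ENNReal.ofReal (W y) < ⊤ := Filter.Eventually.of_forall fun y => ENNReal.ofReal_lt_top
  have hI : ∀ F : α → ℝ, ∫ y, F y ∂μ = ∫ y, F y * W y ∂ν := by
    intro F
    rw [hμ, integral_withDensity_eq_integral_toReal_smul hm hlt]
    refine integral_congr_ae (Filter.Eventually.of_forall fun y => ?_)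
    simp only [ENNReal.toReal_ofReal (hW0 y), smul_eq_mul]
    ring
  have hset : integrableExpSet X μ = Set.univ := by
    ext t
    simp only [Set.mem_univ, iff_true]
    show Integrable (fun y => Real.exp (t * X y)) μ
    rw [hμ, integrable_withDensity_iff_integrable_smul' hm hlt]
    refine (hexp t).congr (Filter.Eventually.of_forall fun y => ?_)
    simp only [ENNReal.toReal_ofReal (hW0 y), smul_eq_mul]
    ring
  have hint : ∀ t : ℝ, t ∈ interior (integrableExpSet X μ) := by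
    intro t
    rw [hset, interior_univ]
    exact Set.mem_univ t
  have hg : (fun w : ℝ => ∫ y, Real.exp (w * X y) * W y ∂ν) = mgf X μ := by
    funext w
    rw [mgf, hI]
  rw [hg]
  refine ⟨?_, ?_, ?_⟩
  · have h1 := analyticOnNhd_mgf (X := X) (μ := μ)
    rw [hset, interior_univ] at h1
    exact contDiffOn_univ.1 (h1.contDiffOn uniqueDiffOn_univ)
  · rw [deriv_mgf_zero (hint 0), hI]
  · rw [iteratedDeriv_mgf_zero (hint 0), ← hI]
    rfl

/-- `L-RDO-P5` moments are derivatives of the Laplace transform -/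
theorem rdo_ehw_deriv (c : Grid G) (W : (c.I → ℝ) → ℝ) (hW : WtOK c W) :
    ContDiff ℝ 2 (fun w : ℝ => EhW c W fun y => Real.exp (w * Xobs c y)) ∧ (EhW c W fun y => Real.exp (0 * Xobs c y)) = 1 ∧
    deriv (fun w : ℝ => EhW c W fun y => Real.exp (w * Xobs c y)) 0 = EhW c W (Xobs c) ∧
    iteratedDeriv 2 (fun w : ℝ => EhW c W fun y => Real.exp (w * Xobs c y)) 0 = EhW c W fun y => Xobs c y ^ 2 := by
  obtain ⟨h1, h2, h3⟩ := rdo_mgf_calc (volume.restrict (fund c (c.blk (org G)))) W (Xobs c) hW.nonneg hW.meas hW.expint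
  have hpos := hW.pos
  unfold EhW
  refine ⟨?_, ?_, ?_, ?_⟩
  · exact h1.div_const _
  · simp only [zero_mul, Real.exp_zero]
    exact div_self hpos.ne'
  · rw [deriv_div_const]
    congr 1
  · rw [iteratedDeriv_div_const]
    congr 1

/-- finiteness of the right side of `rdo_cell` -/
theorem rdo_src_fin {ι : Type} [Fintype ι] [DecidableEq ι] (S : Matrix ι ι ℝ) (hS : S.PosSemidef)
    (f : ι → ℝ) (σ : ℝ) (hσ : 0 ≤ σ) (α : ℝ) (hα : 0 < α) (w : ℝ)
    (Ψ : (ι → ℝ) → ℝ) (hΨm : Measurable Ψ) (hper : ∀ y, Ψ (fun i => y i + 2 * Real.pi) = Ψ y)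
    (hint : ∫⁻ θ in Set.Ioc 0 (2 * Real.pi / α), ∫⁻ Y, ENNReal.ofReal (Real.exp (w * (f ⬝ᵥ Y)) * Ψ fun i => Y i + α * θ) ∂(Reg.regGauss S) ≠ ⊤) :
    ∫⁻ θ in Set.Ioc 0 (2 * Real.pi / α), ∫⁻ Y, ENNReal.ofReal (Ψ fun i => Y i + α * θ + w * S.mulVec f i)
      ∂(Reg.regGauss (S + σ • Matrix.of fun _ _ => (1 : ℝ))) ≠ ⊤ := by
  have hpi := Real.pi_pos
  have hT0 : 0 < 2 * Real.pi / α := by positivity
  have hαT : α * (2 * Real.pi / α) = 2 * Real.pi := by field_simp
  obtain ⟨v, hv⟩ : ∃ v : ℝ≥0, (v : ℝ) = σ := ⟨⟨σ, hσ⟩, rfl⟩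
  obtain ⟨hJ, hJc⟩ := rdo_reg_const (ι := ι) v
  have s1 : SFinite (Reg.regGauss S) := by unfold Reg.regGauss; infer_instance
  -- the law
  have hlaw : Reg.regGauss (S + σ • Matrix.of fun _ _ => (1 : ℝ))
      = ((Reg.regGauss S).prod (gaussianReal 0 v)).map fun z => fun i => z.1 i + z.2 := by
    rw [← hv, ← Reg.reg_gauss_add hS hJ, hJc]
    have e3 : (fun z : (ι → ℝ) × ℝ => fun i => z.1 i + z.2)
        = (fun x : (ι → ℝ) × (ι → ℝ) => x.1 + x.2) ∘ (Prod.map id fun c => fun _ : ι => c) := rfl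
    rw [e3, ← Measure.map_map (by fun_prop) (measurable_id.prodMap (by fun_prop)),
      ← Measure.map_prod_map _ _ measurable_id (by fun_prop), Measure.map_id]
  have hsm : Measurable fun p : (ι → ℝ) × ℝ => fun i => p.1 i + α * p.2 + w * S.mulVec f i := by fun_prop
  have hm : Measurable (Function.uncurry fun (Y : ι → ℝ) (θ : ℝ) => ENNReal.ofReal (Ψ fun i => Y i + α * θ + w * S.mulVec f i)) :=
    ENNReal.measurable_ofReal.comp (hΨm.comp hsm)
  have h1 : ∀ θ : ℝ, ∫⁻ Y, ENNReal.ofReal (Ψ fun i => Y i + α * θ + w * S.mulVec f i) ∂(Reg.regGauss (S + σ • Matrix.of fun _ _ => (1 : ℝ)))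
      = ∫⁻ z, (fun (Y : ι → ℝ) (θ : ℝ) => ENNReal.ofReal (Ψ fun i => Y i + α * θ + w * S.mulVec f i)) z.1 (θ + α⁻¹ * z.2)
          ∂((Reg.regGauss S).prod (gaussianReal 0 v)) := by
    intro θ
    have hg : Measurable fun Y : ι → ℝ => ENNReal.ofReal (Ψ fun i => Y i + α * θ + w * S.mulVec f i) :=
      ENNReal.measurable_ofReal.comp (hΨm.comp (by fun_prop))
    rw [hlaw, lintegral_map hg (by fun_prop : Measurable fun z : (ι → ℝ) × ℝ => fun i => z.1 i + z.2)]
    refine lintegral_congr fun z => ?_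
    congr 2
    funext i
    field_simp
    ring
  simp only [h1]
  rw [rdo_absorb_lint (Reg.regGauss S) (gaussianReal 0 v) (2 * Real.pi / α) α⁻¹ hT0 _ hm (fun Y θ => by
    have e : (fun i => Y i + α * (θ + 2 * Real.pi / α) + w * S.mulVec f i)
        = fun i => (fun i => Y i + α * θ + w * S.mulVec f i) i + 2 * Real.pi := by
      funext i
      rw [mul_add, hαT]
      ring
    simp only [e, hper])]
  -- Cameron-Martin
  have h2 : ∀ θ : ℝ, ∫⁻ Y, ENNReal.ofReal (Ψ fun i => Y i + α * θ + w * S.mulVec f i) ∂(Reg.regGauss S)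
      = ENNReal.ofReal (Real.exp (-((w • f) ⬝ᵥ S.mulVec (w • f)) / 2)) *
        ∫⁻ Y, ENNReal.ofReal (Real.exp (w * (f ⬝ᵥ Y)) * Ψ fun i => Y i + α * θ) ∂(Reg.regGauss S) := by
    intro θ
    have h3 := rdo_reg_shift_lintegral S hS (w • f) (fun ζ => ENNReal.ofReal (Ψ fun i => ζ i + α * θ))
      (ENNReal.measurable_ofReal.comp (hΨm.comp (by fun_prop)))
    rw [← lintegral_const_mul' _ _ ENNReal.ofReal_ne_top]
    refine Eq.trans (lintegral_congr fun Y => ?_) (h3.trans (lintegral_congr fun Y => ?_))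
    · congr 2
      funext i
      simp only [Pi.add_apply, Matrix.mulVec_smul, Pi.smul_apply, smul_eq_mul]
      ring
    · have e1 : Real.exp ((w • f) ⬝ᵥ Y - (w • f) ⬝ᵥ S.mulVec (w • f) / 2)
          = Real.exp (-((w • f) ⬝ᵥ S.mulVec (w • f)) / 2) * Real.exp (w * (f ⬝ᵥ Y)) := by
        rw [← Real.exp_add]
        congr 1
        rw [smul_dotProduct, smul_eq_mul]
        ring
      rw [e1, ENNReal.ofReal_mul (Real.exp_pos _).le, ENNReal.ofReal_mul (Real.exp_pos _).le, mul_assoc]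
  simp only [h2]
  rw [lintegral_const_mul' _ _ ENNReal.ofReal_ne_top]
  exact ENNReal.mul_ne_top ENNReal.ofReal_ne_top hint

/-- the law of the observations of the sum of two independent fields -/
theorem rdo_src_law (a : ℝ) (ha : 0 ≤ a) (c : Grid G) (Γ Γ' : Matrix G.V G.V ℝ) (hΓ : Γ.PosSemidef) (hΓ' : Γ'.PosSemidef) :
    ((gauss G Γ).prod ((gauss G Γ').prod (noise c))).map (fun p => obsY a c (fun x => p.1 x + p.2.1 x) p.2.2)
      = Reg.regGauss (Sig a c (Γ + Γ')) := by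
  have s3 : SFinite (noise c) := by unfold noise; infer_instance
  rw [← rdo_push a ha c (Γ + Γ') (hΓ.add hΓ'), ← rdo_gauss_add Γ Γ' hΓ hΓ', ← Measure.prodAssoc_prod]
  have e1 : (((gauss G Γ).prod (gauss G Γ')).map (fun p => p.1 + p.2)).prod (noise c)
      = (((gauss G Γ).prod (gauss G Γ')).prod (noise c)).map (Prod.map (fun p : (G.V → ℝ) × (G.V → ℝ) => p.1 + p.2) id) := by
    rw [← Measure.map_prod_map _ _ (by fun_prop) measurable_id, Measure.map_id]
  have hobs : Measurable fun p : (G.V → ℝ) × (c.I → ℝ) => obsY a c p.1 p.2 := by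
    unfold obsY avg cellAvg
    fun_prop
  have hobs2 : Measurable fun p : (G.V → ℝ) × ((G.V → ℝ) × (c.I → ℝ)) => obsY a c (fun x => p.1 x + p.2.1 x) p.2.2 := by
    unfold obsY avg cellAvg
    fun_prop
  rw [e1, Measure.map_map hobs (by fun_prop), Measure.map_map hobs2 (MeasurableEquiv.measurable _)]
  rfl

/-- the triple integral is the integral against the law of the observations -/
theorem rdo_src_push (a : ℝ) (ha : 0 ≤ a) (c : Grid G) (Γ Γ' : Matrix G.V G.V ℝ) (hΓ : Γ.PosSemidef) (hΓ' : Γ'.PosSemidef)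
    (g : (c.I → ℝ) → ℝ) (hgm : Measurable g) (hg : Integrable g (Reg.regGauss (Sig a c (Γ + Γ')))) :
    ∫ ψ, ∫ ζ, ∫ e, g (obsY a c (fun x => ψ x + ζ x) e) ∂(noise c) ∂(gauss G Γ') ∂(gauss G Γ)
      = ∫ Y, g Y ∂(Reg.regGauss (Sig a c (Γ + Γ'))) := by
  have s1 : SFinite (gauss G Γ) := by unfold gauss; infer_instance
  have s2 : SFinite (gauss G Γ') := by unfold gauss; infer_instance
  have s3 : SFinite (noise c) := by unfold noise; infer_instance
  have hobs2 : Measurable fun p : (G.V → ℝ) × ((G.V → ℝ) × (c.I → ℝ)) => obsY a c (fun x => p.1 x + p.2.1 x) p.2.2 := by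
    unfold obsY avg cellAvg
    fun_prop
  rw [← rdo_src_law a ha c Γ Γ' hΓ hΓ'] at hg ⊢
  rw [integral_map hobs2.aemeasurable hgm.aestronglyMeasurable]
  have hg2 : Integrable (fun p : (G.V → ℝ) × ((G.V → ℝ) × (c.I → ℝ)) => g (obsY a c (fun x => p.1 x + p.2.1 x) p.2.2))
      ((gauss G Γ).prod ((gauss G Γ').prod (noise c))) :=
    (integrable_map_measure hgm.aestronglyMeasurable hobs2.aemeasurable).1 hg
  rw [integral_prod _ hg2]
  refine integral_congr_ae ?_
  filter_upwards [hg2.prod_right_ae] with ψ hψ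
  exact (integral_prod _ hψ).symm

/-- a shift of the field is a shift of the observations -/
theorem rdo_src_obs (a : ℝ) (c : Grid G) (hc : Whole c) (ψ ζ : G.V → ℝ) (θ k : ℝ) (s : G.V → ℝ) (e : c.I → ℝ) :
    obsY a c (fun x => ψ x + θ + k * s x + ζ x) e
      = fun i => obsY a c (fun x => ψ x + ζ x) e i + Real.sqrt a * θ + Real.sqrt a * k * avg c s i := by
  funext i
  unfold obsY
  have e1 : (fun x => Real.sqrt a * (ψ x + θ + k * s x + ζ x))
      = (fun x => Real.sqrt a * (ψ x + ζ x)) + (fun _ => Real.sqrt a * θ) + (Real.sqrt a * k) • s := by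
    funext x
    simp only [Pi.add_apply, Pi.smul_apply, smul_eq_mul]
    ring
  rw [e1, ← rdo_Bm_mulVec, Matrix.mulVec_add, Matrix.mulVec_add, Matrix.mulVec_smul, rdo_en_Bm_one hc, rdo_Bm_mulVec, rdo_Bm_mulVec]
  simp only [Pi.add_apply, Pi.smul_apply, smul_eq_mul]
  ring

/-- the covariance of the observations of the whole field -/
theorem rdo_src_cov (hG : G.bc = BC.per) (a : ℝ) (c : Grid G) (hc : Whole c) (m : ℕ) (hm : 1 ≤ m)
    (Γ : Matrix G.V G.V ℝ) (hΓ : IsGe G m Γ) :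
    Sig a c (Γ + Cless G m) = Sig a c (Apl G) + (a * low0 Fam.entry m / (G.M : ℝ) ^ 2) • Matrix.of fun _ _ => (1 : ℝ) := by
  have h1 : ∀ i, ∑ u, Bm c i u = 1 := fun i => by
    have := congrFun (rdo_en_Bm_one hc 1) i
    simpa [Matrix.mulVec, dotProduct] using this
  have hJ : Bm c * Jm G * (Bm c).transpose = Matrix.of fun _ _ => (1 : ℝ) := by
    ext i j
    simp only [Matrix.mul_apply, Jm, Matrix.of_apply, mul_one, Matrix.transpose_apply]
    rw [← Finset.mul_sum, h1, h1, one_mul]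
  rw [rdo_ker_split_low hG m hm (Apl G) Γ (rdo_apl_terminal G) hΓ]
  unfold Sig
  rw [Matrix.mul_add, Matrix.add_mul, Matrix.mul_smul, Matrix.smul_mul, hJ, smul_add, smul_smul, add_assoc]
  congr 3
  ring

/-- the un-normalised identity -/
theorem rdo_src_raw (hG : G.bc = BC.per) (a : ℝ) (ha : 0 < a) (c : Grid G) (hc : Whole c) (h3 : 3 ≤ c.n) (W : (c.I → ℝ) → ℝ) (hW : WtOK c W) (m : ℕ) (hm : 1 ≤ m)
    (Γ : Matrix G.V G.V ℝ) (hΓ : IsGe G m Γ) : ∃ N : ℝ, 0 < N ∧ ∀ (q : ℤ) (w : ℝ),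
    N * (PhW c W fun y => Real.cos (q * ybar c y) * Real.exp (w * Xobs c y))
      = Real.exp (v0raw a c * w ^ 2 / 2) * Real.exp ((q : ℝ) ^ 2 * (snr c ^ 2 + a * low0 Fam.entry m / (G.M : ℝ) ^ 2) / 2) *
        ∫ θ in (0 : ℝ)..(2 * Real.pi / Real.sqrt a), Real.cos (q * (Real.sqrt a * θ)) *
          ∫ ψ, HavW a c m W (fun x => ψ x + θ + w * gam a c * cos1 G x) ∂(gauss G Γ) := by
  obtain ⟨N, hN, hrefL, hrefS⟩ := rdo_ref hG a ha c hc h3 (c.blk (org G))
  refine ⟨N, hN, fun q w => ?_⟩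
  obtain ⟨hS, hEn⟩ := rdo_en_formula hG a ha c hc h3
  obtain ⟨hSf, hfSf, hf0, hS1⟩ := rdo_sig_f hG a ha c hc h3
  have hne : Nonempty c.I := ⟨c.blk (org G)⟩
  have hα : 0 < Real.sqrt a := Real.sqrt_pos.2 ha
  have hpi := Real.pi_pos
  have hT0 : 0 < 2 * Real.pi / Real.sqrt a := by positivity
  have hcard : (0 : ℝ) < (Fintype.card c.I : ℝ) := by exact_mod_cast Fintype.card_pos
  have hEm : Measurable ((Top.full c).Eobs a 0) := by
    have : (Top.full c).Eobs a 0 = fun y => y ⬝ᵥ (Sig a c (Apl G))⁻¹.mulVec y - (Fintype.card c.I : ℝ) * ybar c y ^ 2 := funext hEn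
    rw [this]
    unfold ybar
    exact ((rdo_quad_continuous _).measurable).sub (by fun_prop)
  have hEsh : ∀ (y : c.I → ℝ) (t : ℝ), (Top.full c).Eobs a 0 (fun i => y i + t) = (Top.full c).Eobs a 0 y := by
    intro y t
    have h0 := rdo_en_shift (Sig a c (Apl G)) hS hS1 y 0
    simp only [add_zero] at h0
    rw [hEn, hEn]
    unfold ybar
    rw [rdo_en_shift (Sig a c (Apl G)) hS hS1 y t, h0]
  have hXm : Measurable (Xobs c) := by
    unfold Xobs
    fun_prop
  have hym : Measurable (ybar c) := by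
    unfold ybar
    fun_prop
  have hXsh : ∀ (y : c.I → ℝ) (t : ℝ), Xobs c (fun i => y i + t) = ftest c ⬝ᵥ y := by
    intro y t
    unfold Xobs dotProduct
    simp only [mul_add, Finset.sum_add_distrib, ← Finset.sum_mul, hf0, zero_mul, add_zero]
  have hysh : ∀ (y : c.I → ℝ) (t : ℝ), ybar c (fun i => y i + t) = t + (∑ i, y i) / (Fintype.card c.I : ℝ) := by
    intro y t
    unfold ybar
    simp only [Finset.sum_add_distrib, Finset.sum_const, Finset.card_univ, nsmul_eq_mul]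
    field_simp
    ring
  set Ψ : (c.I → ℝ) → ℝ := fun y => Real.exp ((Top.full c).Eobs a 0 y / 2) * W y with hΨ
  have hΨ0 : ∀ y, 0 ≤ Ψ y := fun y => mul_nonneg (Real.exp_pos _).le (hW.nonneg y)
  have hΨm : Measurable Ψ := (Real.measurable_exp.comp (hEm.div_const 2)).mul hW.meas
  have hΨper : ∀ y, Ψ (fun i => y i + 2 * Real.pi) = Ψ y := fun y => by
    simp only [hΨ, hEsh, hW.per y]
  have hσ : 0 ≤ a * low0 Fam.entry m / (G.M : ℝ) ^ 2 := by
    have := rdo_low0_nonneg m hm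
    positivity
  -- finiteness
  have hint : ∫⁻ θ in Set.Ioc 0 (2 * Real.pi / Real.sqrt a), ∫⁻ Y, ENNReal.ofReal (Real.exp (w * (ftest c ⬝ᵥ Y)) * Ψ fun i => Y i + Real.sqrt a * θ)
      ∂(Reg.regGauss (Sig a c (Apl G))) ≠ ⊤ := by
    have h1 := hrefL (fun y => ENNReal.ofReal (Real.exp (w * Xobs c y) * W y))
      (ENNReal.measurable_ofReal.comp ((Real.measurable_exp.comp (hXm.const_mul w)).mul hW.meas))
      (fun y => by
        have e0 : Xobs c (fun i => y i + 2 * Real.pi) = Xobs c y := by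
          have := hXsh y 0
          simp only [add_zero] at this
          rw [hXsh, this]
        simp only [e0, hW.per y])
    have h2 : ∀ θ : ℝ, ∀ Y : c.I → ℝ, ENNReal.ofReal (Real.exp (w * (ftest c ⬝ᵥ Y)) * Ψ fun i => Y i + Real.sqrt a * θ)
        = ENNReal.ofReal (Real.exp ((Top.full c).Eobs a 0 (fun i => Y i + Real.sqrt a * θ) / 2)) *
          ENNReal.ofReal (Real.exp (w * Xobs c (fun i => Y i + Real.sqrt a * θ)) * W (fun i => Y i + Real.sqrt a * θ)) := by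
      intro θ Y
      rw [← ENNReal.ofReal_mul (Real.exp_pos _).le, hXsh]
      congr 1
      simp only [hΨ]
      ring
    simp only [h2]
    rw [h1]
    exact ENNReal.mul_ne_top ENNReal.ofReal_ne_top (hW.expint w).lintegral_lt_top.ne
  have hcell := rdo_cell (Sig a c (Apl G)) hS.posSemidef hS1 (ftest c) hf0 _ hσ (Real.sqrt a) hα q w Ψ hΨ0 hΨm hΨper hint
  have hfin := rdo_src_fin (Sig a c (Apl G)) hS.posSemidef (ftest c) _ hσ (Real.sqrt a) hα w Ψ hΨm hΨper hint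
  -- the left side
  have hΦm : Measurable fun y => Real.cos (q * ybar c y) * Real.exp (w * Xobs c y) * W y :=
    ((Real.measurable_cos.comp (hym.const_mul _)).mul (Real.measurable_exp.comp (hXm.const_mul w))).mul hW.meas
  have hΦper : Per c fun y => Real.cos (q * ybar c y) * Real.exp (w * Xobs c y) * W y := by
    intro y
    have e0 : Xobs c (fun i => y i + 2 * Real.pi) = Xobs c y := by
      have := hXsh y 0
      simp only [add_zero] at this
      rw [hXsh, this]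
    have e1 : Real.cos (q * ybar c (fun i => y i + 2 * Real.pi)) = Real.cos (q * ybar c y) := by
      have h0 := hysh y 0
      simp only [add_zero] at h0
      rw [hysh, h0, show (q : ℝ) * (2 * Real.pi + (∑ i, y i) / (Fintype.card c.I : ℝ))
        = (q : ℝ) * (0 + (∑ i, y i) / (Fintype.card c.I : ℝ)) + q * (2 * Real.pi) by ring]
      exact Real.cos_add_int_mul_two_pi _ q
    simp only [e0, e1, hW.per y]
  have hΦint : IntegrableOn (fun y => Real.cos (q * ybar c y) * Real.exp (w * Xobs c y) * W y) (fund c (c.blk (org G))) := by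
    refine (hW.expint w).mono' hΦm.aestronglyMeasurable (Filter.Eventually.of_forall fun y => ?_)
    have h0 : 0 ≤ Real.exp (w * Xobs c y) * W y := mul_nonneg (Real.exp_pos _).le (hW.nonneg y)
    rw [Real.norm_eq_abs, mul_assoc, abs_mul, abs_of_nonneg h0]
    exact mul_le_of_le_one_left h0 (Real.abs_cos_le_one _)
  have hS' := hrefS _ hΦm hΦper hΦint
  have hL : N * (PhW c W fun y => Real.cos (q * ybar c y) * Real.exp (w * Xobs c y))
      = ∫ θ in (0 : ℝ)..(2 * Real.pi / Real.sqrt a), ∫ Y, Real.cos (q * (Real.sqrt a * θ + (∑ i, Y i) / Fintype.card c.I)) * Real.exp (w * (ftest c ⬝ᵥ Y))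
          * Ψ (fun i => Y i + Real.sqrt a * θ) ∂(Reg.regGauss (Sig a c (Apl G))) := by
    unfold PhW
    rw [← hS']
    have : ∀ (θ : ℝ) (Y : c.I → ℝ), Real.exp ((Top.full c).Eobs a 0 (fun i => Y i + Real.sqrt a * θ) / 2) *
        (Real.cos (q * ybar c (fun i => Y i + Real.sqrt a * θ)) * Real.exp (w * Xobs c (fun i => Y i + Real.sqrt a * θ)) * W (fun i => Y i + Real.sqrt a * θ))
        = Real.cos (q * (Real.sqrt a * θ + (∑ i, Y i) / Fintype.card c.I)) * Real.exp (w * (ftest c ⬝ᵥ Y)) * Ψ (fun i => Y i + Real.sqrt a * θ) := by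
      intro θ Y
      simp only [hysh, hXsh, hΨ]
      ring
    simp only [this]
  -- the right side
  have s4 : SFinite (Reg.regGauss (Sig a c (Apl G) + (a * low0 Fam.entry m / (G.M : ℝ) ^ 2) • Matrix.of fun _ _ => (1 : ℝ))) := by
    unfold Reg.regGauss
    infer_instance
  have hmeas : Measurable fun θ : ℝ => ∫⁻ Y, ENNReal.ofReal (Ψ fun i => Y i + Real.sqrt a * θ + w * (Sig a c (Apl G)).mulVec (ftest c) i)
      ∂(Reg.regGauss (Sig a c (Apl G) + (a * low0 Fam.entry m / (G.M : ℝ) ^ 2) • Matrix.of fun _ _ => (1 : ℝ))) := by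
    have hsm : Measurable fun p : ℝ × (c.I → ℝ) => fun i => p.2 i + Real.sqrt a * p.1 + w * (Sig a c (Apl G)).mulVec (ftest c) i := by fun_prop
    have : Measurable (Function.uncurry fun (θ : ℝ) (Y : c.I → ℝ) => ENNReal.ofReal (Ψ fun i => Y i + Real.sqrt a * θ + w * (Sig a c (Apl G)).mulVec (ftest c) i)) :=
      ENNReal.measurable_ofReal.comp (hΨm.comp hsm)
    exact this.lintegral_prod_right'
  have hae := ae_lt_top hmeas hfin
  rw [ae_restrict_iff' measurableSet_Ioc] at hae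
  have hsnr : 1 / (Fintype.card c.I : ℝ) = snr c ^ 2 := by
    have hs0 : (0 : ℝ) < c.m := by exact_mod_cast hc.pos
    have hn0 : (0 : ℝ) < c.n := by exact_mod_cast (by omega : 0 < c.n)
    have hM : (G.M : ℝ) = c.n * c.m := by rw [whole_card hc]; push_cast; ring
    have hcd : (Fintype.card c.I : ℝ) = (c.n : ℝ) ^ 2 := by
      simp [Grid.I, sq]
    unfold snr
    rw [hcd, hM]
    field_simp
  rw [hL, hcell, hfSf, hsnr, mul_comm (w ^ 2) (v0raw a c)]
  congr 1
  refine intervalIntegral.integral_congr_ae ?_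
  filter_upwards [hae] with θ hθ hθ'
  rw [Set.uIoc_of_le hT0.le] at hθ'
  congr 1
  have hgm : Measurable fun Y : c.I → ℝ => Ψ (fun i => Y i + Real.sqrt a * θ + w * (Sig a c (Apl G)).mulVec (ftest c) i) :=
    hΨm.comp (by fun_prop)
  have hgi : Integrable (fun Y : c.I → ℝ => Ψ (fun i => Y i + Real.sqrt a * θ + w * (Sig a c (Apl G)).mulVec (ftest c) i))
      (Reg.regGauss (Sig a c (Γ + Cless G m))) := by
    rw [rdo_src_cov hG a c hc m hm Γ hΓ]
    exact ⟨hgm.aestronglyMeasurable, (hasFiniteIntegral_iff_ofReal (Filter.Eventually.of_forall fun Y => hΨ0 _)).2 (hθ hθ')⟩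
  rw [← rdo_src_cov hG a c hc m hm Γ hΓ, ← rdo_src_push a ha.le c Γ (Cless G m) hΓ.psd (B4.low_psd G Fam.entry B4.entry_adm m hm) _ hgm hgi]
  refine integral_congr_ae (Filter.Eventually.of_forall fun ψ => ?_)
  unfold HavW
  have e2 : ∀ (ζ : G.V → ℝ) (e : c.I → ℝ), obsY a c (fun x => ψ x + θ + w * gam a c * cos1 G x + ζ x) e
      = fun i => obsY a c (fun x => ψ x + ζ x) e i + Real.sqrt a * θ + w * (Sig a c (Apl G)).mulVec (ftest c) i := by
    intro ζ e
    rw [rdo_src_obs a c hc, hSf]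
    funext i
    ring
  simp only [e2, hΨ]

/-- `L-RDO-P6` **SRC in the vocabulary of F4a**; `m` = entry side, `Γ = C_{≥m}` -/
theorem rdo_src (hG : G.bc = BC.per) (a : ℝ) (ha : 0 < a) (c : Grid G) (hc : Whole c) (h3 : 3 ≤ c.n) (W : (c.I → ℝ) → ℝ) (hW : WtOK c W) (m : ℕ) (hm : 1 ≤ m)
    (Γ : Matrix G.V G.V ℝ) (hΓ : IsGe G m Γ) (q : ℤ) (w : ℝ) :
    (EhW c W fun y => Real.cos (q * ybar c y) * Real.exp (w * Xobs c y)) * outer a Γ (HavW a c m W)
      = Real.exp (v0raw a c * w ^ 2 / 2) * Real.exp ((q : ℝ) ^ 2 * (snr c ^ 2 + a * low0 Fam.entry m / (G.M : ℝ) ^ 2) / 2) *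
        ∫ θ in (0 : ℝ)..(2 * Real.pi / Real.sqrt a), Real.cos (q * (Real.sqrt a * θ)) *
          ∫ ψ, HavW a c m W (fun x => ψ x + θ + w * gam a c * cos1 G x) ∂(gauss G Γ) := by
  obtain ⟨N, hN, hraw⟩ := rdo_src_raw hG a ha c hc h3 W hW m hm Γ hΓ
  have h00 := hraw 0 0
  simp only [Int.cast_zero, zero_mul, Real.cos_zero, Real.exp_zero, mul_one, ne_eq, OfNat.ofNat_ne_zero, not_false_eq_true,
    zero_pow, mul_zero, zero_div, one_mul, add_zero] at h00
  have hout : outer a Γ (HavW a c m W) = N * PhW c W fun _ => 1 := by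
    rw [h00]
    rfl
  have hpos := hW.pos
  rw [← hraw q w, hout]
  unfold EhW
  field_simp

/-- the entry average of F4a is the entry average of the cutoff weight, normalised -/
theorem rdo_hav_eq (b a : ℝ) (c : Grid G) (m : ℕ) (ψ : G.V → ℝ) :
    Hav b a c m 0 0 ψ = HavW a c m ((Top.full c).Zhat b 0) ψ / (Top.full c).Zobs b 0 0 := by
  unfold Hav HavW obsY
  simp only [Pi.zero_apply, zero_add, integral_div]

variable (K : Cfg) (𝓡 : Reg K.s)

/-- the inner integral of SRC is a convolution -/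
theorem rdo_p7_conv (Γ : Matrix G.V G.V ℝ) (Z : Fn G) (H : (G.V → ℝ) → ℝ) (cG : ℝ) (hid : ∀ ψ : G.V → ℝ, (H ψ : ℂ) = cG * Z (toC ψ))
    (s θ : ℝ) : ((∫ ψ, H (fun x => ψ x + θ + s * cos1 G x) ∂(gauss G Γ) : ℝ) : ℂ) = cG * conv Γ Z (fun v => bg G s v + (θ : ℂ)) := by
  unfold conv
  rw [← integral_complex_ofReal, ← integral_const_mul]
  refine integral_congr_ae (ae_of_all _ fun ζ => ?_)
  have e : (fun v => bg G s v + (θ : ℂ)) + toC ζ = toC (fun x => ζ x + θ + s * cos1 G x) := by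
    funext v
    simp only [bg, toC, Pi.add_apply]
    push_cast
    ring
  simp only [e]
  exact hid _

/-- the character is harmless -/
theorem rdo_p7_int_iff (ω α cG : ℝ) (q : ℤ) (f : ℝ → ℝ) (g : ℝ → ℂ) (hfg : ∀ θ, (f θ : ℂ) = cG * g θ)
    (h : IntervalIntegrable (fun θ : ℝ => Complex.exp (-(Complex.I * q * (α : ℂ) * θ)) * g θ) volume 0 ω) : IntervalIntegrable f volume 0 ω := by
  have hc : Continuous fun θ : ℝ => (cG : ℂ) * Complex.exp (Complex.I * q * (α : ℂ) * θ) := by fun_prop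
  have h1 := h.continuousOn_mul hc.continuousOn
  have h2 : (fun θ : ℝ => ((cG : ℂ) * Complex.exp (Complex.I * q * (α : ℂ) * θ)) * (Complex.exp (-(Complex.I * q * (α : ℂ) * θ)) * g θ))
      = fun θ => (f θ : ℂ) := by
    funext θ
    rw [hfg, mul_assoc, ← mul_assoc (Complex.exp _), ← Complex.exp_add, add_neg_cancel, Complex.exp_zero, one_mul]
  rw [h2] at h1
  rw [intervalIntegrable_iff] at h1 ⊢
  exact h1.re

theorem rdo_p7_int (ω α cG : ℝ) (hcG : cG ≠ 0) (q : ℤ) (f : ℝ → ℝ) (g : ℝ → ℂ) (hfg : ∀ θ, (f θ : ℂ) = cG * g θ)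
    (h : IntervalIntegrable f volume 0 ω) : IntervalIntegrable (fun θ : ℝ => Complex.exp (-(Complex.I * q * (α : ℂ) * θ)) * g θ) volume 0 ω := by
  have hc : Continuous fun θ : ℝ => (cG : ℂ)⁻¹ * Complex.exp (-(Complex.I * q * (α : ℂ) * θ)) := by fun_prop
  have h0 : IntervalIntegrable (fun θ => (f θ : ℂ)) volume 0 ω := by
    rw [intervalIntegrable_iff] at h ⊢
    exact h.ofReal
  have h1 := h0.continuousOn_mul hc.continuousOn
  refine h1.congr (fun θ _ => ?_)
  have : (cG : ℂ) ≠ 0 := by exact_mod_cast hcG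
  simp only [hfg]
  field_simp

theorem rdo_p7_split (ω α cG : ℝ) (hcG : cG ≠ 0) (q : ℤ) (f : ℝ → ℝ) (g : ℝ → ℂ) (hfg : ∀ θ, (f θ : ℂ) = cG * g θ)
    (h : IntervalIntegrable f volume 0 ω) :
    ((∫ θ in (0 : ℝ)..ω, Real.cos (q * (α * θ)) * f θ : ℝ) : ℂ)
      = cG * ((∫ θ in (0 : ℝ)..ω, Complex.exp (-(Complex.I * q * (α : ℂ) * θ)) * g θ)
        + ∫ θ in (0 : ℝ)..ω, Complex.exp (-(Complex.I * ((-q : ℤ) : ℂ) * (α : ℂ) * θ)) * g θ) / 2 := by
  rw [← intervalIntegral.integral_add (rdo_p7_int ω α cG hcG q f g hfg h) (rdo_p7_int ω α cG hcG (-q) f g hfg h),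
    ← intervalIntegral.integral_ofReal, ← intervalIntegral.integral_const_mul, ← intervalIntegral.integral_div]
  refine intervalIntegral.integral_congr fun θ _ => ?_
  push_cast
  rw [hfg, Complex.cos]
  have e1 : (q : ℂ) * ((α : ℂ) * θ) * Complex.I = -(Complex.I * (-(q : ℂ)) * α * θ) := by ring
  have e2 : -((q : ℂ) * ((α : ℂ) * θ)) * Complex.I = -(Complex.I * q * α * θ) := by ring
  rw [e1, e2]
  ring

/-- exponential moments of a weight are positive -/
theorem rdo_p7_pos (c : Grid G) (W : (c.I → ℝ) → ℝ) (hW : WtOK c W) (w : ℝ) :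
    0 < EhW c W fun y => Real.cos (((0 : ℤ) : ℝ) * ybar c y) * Real.exp (w * Xobs c y) := by
  unfold EhW
  refine div_pos ?_ hW.pos
  have hp := hW.pos
  unfold PhW at hp ⊢
  have hi0 : IntegrableOn (fun y => (1 : ℝ) * W y) (fund c (c.blk (org G))) := by
    have := hW.expint 0
    simpa using this
  rw [integral_pos_iff_support_of_nonneg (fun y => by simpa using hW.nonneg y) hi0] at hp
  have hi : IntegrableOn (fun y => Real.cos (((0 : ℤ) : ℝ) * ybar c y) * Real.exp (w * Xobs c y) * W y) (fund c (c.blk (org G))) := by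
    have := hW.expint w
    simpa using this
  rw [integral_pos_iff_support_of_nonneg (fun y => by
    simp only [Int.cast_zero, zero_mul, Real.cos_zero, one_mul, Pi.zero_apply]
    exact mul_nonneg (Real.exp_pos _).le (hW.nonneg y)) hi]
  refine lt_of_lt_of_le hp (measure_mono fun y hy => ?_)
  simp only [Function.mem_support, one_mul, Int.cast_zero, zero_mul, Real.cos_zero] at hy ⊢
  exact mul_ne_zero (Real.exp_pos _).ne' hy

/-- the algebra of the exit; if the inner integral is not integrable in the phase, everything vanishes -/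
theorem rdo_p7_core (ω α cG : ℝ) (hcG : 0 < cG) (q : ℤ) (f0 fs : ℝ → ℝ) (g0 gs : ℝ → ℂ)
    (h0 : ∀ θ, (f0 θ : ℂ) = cG * g0 θ) (hs : ∀ θ, (fs θ : ℂ) = cG * gs θ) (E E0 e1 e2 e20 hq : ℝ) (hE0 : 0 < E0)
    (src : E * ∫ θ in (0 : ℝ)..ω, f0 θ = e1 * (e2 * hq) * ∫ θ in (0 : ℝ)..ω, Real.cos (q * (α * θ)) * fs θ)
    (src0 : E0 * ∫ θ in (0 : ℝ)..ω, f0 θ = e1 * e20 * ∫ θ in (0 : ℝ)..ω, Real.cos (((0 : ℤ) : ℝ) * (α * θ)) * fs θ) :
    (E : ℂ) * (((1 : ℝ) : ℂ) * (((1 / ω : ℝ) : ℂ) * ∫ θ in (0 : ℝ)..ω, Complex.exp (-(Complex.I * ((0 : ℤ) : ℂ) * (α : ℂ) * θ)) * g0 θ))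
      = ((e1 * e2 : ℝ) : ℂ) * (((hq : ℂ) * (((1 / ω : ℝ) : ℂ) * ∫ θ in (0 : ℝ)..ω, Complex.exp (-(Complex.I * (q : ℂ) * (α : ℂ) * θ)) * gs θ)
        + (hq : ℂ) * (((1 / ω : ℝ) : ℂ) * ∫ θ in (0 : ℝ)..ω, Complex.exp (-(Complex.I * ((-q : ℤ) : ℂ) * (α : ℂ) * θ)) * gs θ)) / 2) := by
  have hc : (cG : ℂ) ≠ 0 := by exact_mod_cast hcG.ne'
  have hI0 : ((∫ θ in (0 : ℝ)..ω, f0 θ : ℝ) : ℂ)
      = cG * ∫ θ in (0 : ℝ)..ω, Complex.exp (-(Complex.I * ((0 : ℤ) : ℂ) * (α : ℂ) * θ)) * g0 θ := by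
    rw [← intervalIntegral.integral_ofReal, ← intervalIntegral.integral_const_mul]
    refine intervalIntegral.integral_congr fun θ _ => ?_
    simp [h0]
  by_cases hint : IntervalIntegrable fs volume 0 ω
  · have h1 := rdo_p7_split ω α cG hcG.ne' q fs gs hs hint
    have h2 := congrArg (fun x : ℝ => (x : ℂ)) src
    simp only [Complex.ofReal_mul] at h2
    rw [hI0, h1] at h2
    generalize (∫ θ in (0 : ℝ)..ω, Complex.exp (-(Complex.I * ((0 : ℤ) : ℂ) * (α : ℂ) * θ)) * g0 θ) = I0 at h2 ⊢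
    generalize (∫ θ in (0 : ℝ)..ω, Complex.exp (-(Complex.I * (q : ℂ) * (α : ℂ) * θ)) * gs θ) = I1 at h2 ⊢
    generalize (∫ θ in (0 : ℝ)..ω, Complex.exp (-(Complex.I * ((-q : ℤ) : ℂ) * (α : ℂ) * θ)) * gs θ) = I2 at h2 ⊢
    push_cast
    apply mul_left_cancel₀ hc
    linear_combination (1 / (ω : ℂ)) * h2
  · have z1 : ∀ q' : ℤ, ∫ θ in (0 : ℝ)..ω, Complex.exp (-(Complex.I * (q' : ℂ) * (α : ℂ) * θ)) * gs θ = 0 := fun q' =>
      intervalIntegral.integral_undef fun hc' => hint (rdo_p7_int_iff ω α cG q' fs gs hs hc')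
    have z2 : ∫ θ in (0 : ℝ)..ω, Real.cos (((0 : ℤ) : ℝ) * (α * θ)) * fs θ = 0 := by
      simp only [Int.cast_zero, zero_mul, Real.cos_zero, one_mul]
      exact intervalIntegral.integral_undef hint
    rw [z2, mul_zero] at src0
    have z3 : ∫ θ in (0 : ℝ)..ω, f0 θ = 0 := (mul_eq_zero.1 src0).resolve_left hE0.ne'
    rw [z3, Complex.ofReal_zero] at hI0
    have z4 := (mul_eq_zero.1 hI0.symm).resolve_left hc
    rw [z1, z1, z4]
    simp

/-- `L-RDO-P7` **SRC, exit** -/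
theorem rdo_src_EE (hF : K.F = Fam.entry) (hω : 0 < K.p.ω) (hh : 0 < K.p.h0) (hA : 1 ≤ K.p.A) (hδ : 0 < K.p.δ) (hκ : 0 < K.p.κ)
    (j0 : ℕ) (cT : ℝ≥0) (hT : K.TowerOK 𝓡 j0) (hG : TermGeo K 𝓡 j0 cT) (h : ℕ) (hj : j0 ≤ h) (h3 : 3 ≤ (𝓡.gs h).n)
    (W : ((𝓡.gs h).I → ℝ) → ℝ) (hW : WtOK (𝓡.gs h) W) (a0 : K.To 𝓡 j0 h) (cG : ℝ) (hcG : 0 < cG)
    (hid : ∀ ψ : (K.s.T h).V → ℝ, (HavW (aa K) (𝓡.gs h) (K.s.L ^ j0) W ψ : ℂ) = cG * Zlev K 𝓡 j0 h ((0, 0), a0) (toC ψ))
    (q : ℤ) (w : ℝ) (hw : |w * gam (aa K) (𝓡.gs h)| ≤ 1) :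
    ((EhW (𝓡.gs h) W fun y => Real.cos (q * ybar (𝓡.gs h) y) * Real.exp (w * Xobs (𝓡.gs h) y) : ℝ) : ℂ) * EE K 𝓡 j0 h 0 ((0, 0), a0) 0
      = (Real.exp (v0raw (aa K) (𝓡.gs h) * w ^ 2 / 2) * Real.exp ((q : ℝ) ^ 2 * snr (𝓡.gs h) ^ 2 / 2) : ℝ) *
        ((EE K 𝓡 j0 h q ((0, 0), a0) (w * gam (aa K) (𝓡.gs h)) + EE K 𝓡 j0 h (-q) ((0, 0), a0) (w * gam (aa K) (𝓡.gs h))) / 2) := by
  have hα : 0 < Step.alpha K.p.ω := by unfold Step.alpha; positivity
  have ha : 0 < aa K := by unfold aa; positivity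
  have hsq : Real.sqrt (aa K) = 2 * Real.pi / K.p.ω := by
    unfold aa
    rw [Real.sqrt_sq hα.le]
    rfl
  have hper : 2 * Real.pi / Real.sqrt (aa K) = K.p.ω := by
    rw [hsq]
    field_simp
  have hΓ : IsGe (K.s.T h) (K.s.L ^ j0) (Gge K j0 h) := by
    have := rdo_s3_term K hF j0 h
    rwa [hF] at this
  have hm1 : 1 ≤ K.s.L ^ j0 := Nat.pow_pos K.s.L_pos
  have src := fun q' : ℤ => rdo_src (G := K.s.T h) rfl (aa K) ha (𝓡.gs h) (hG.cells h hj) h3 W hW (K.s.L ^ j0) hm1 (Gge K j0 h) hΓ q' w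
  have hout : outer (aa K) (Gge K j0 h) (HavW (aa K) (𝓡.gs h) (K.s.L ^ j0) W)
      = ∫ θ in (0 : ℝ)..K.p.ω, ∫ ψ, HavW (aa K) (𝓡.gs h) (K.s.L ^ j0) W (fun x => ψ x + θ + 0 * cos1 (K.s.T h) x) ∂(gauss (K.s.T h) (Gge K j0 h)) := by
    unfold outer
    rw [hper]
    simp only [zero_mul, add_zero]
  have hexp : ∀ q' : ℤ, Real.exp ((q' : ℝ) ^ 2 * (snr (𝓡.gs h) ^ 2 + aa K * low0 Fam.entry (K.s.L ^ j0) / ((K.s.T h).M : ℝ) ^ 2) / 2)
      = Real.exp ((q' : ℝ) ^ 2 * snr (𝓡.gs h) ^ 2 / 2) * hm K j0 h q' := by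
    intro q'
    unfold hm
    rw [← Real.exp_add, hF]
    congr 1
    ring
  have hper2 : 2 * Real.pi / (2 * Real.pi / K.p.ω) = K.p.ω := by rw [← hsq, hper]
  simp only [hout, hsq, hexp, hper2] at src
  have hm0 : hm K j0 h 0 = 1 := by simp [hm]
  have hmn : hm K j0 h (-q) = hm K j0 h q := by simp [hm]
  unfold EE Eter
  rw [hm0, hmn]
  exact rdo_p7_core K.p.ω (2 * Real.pi / K.p.ω) cG hcG q _ _ _ _
    (rdo_p7_conv (Gge K j0 h) (Zlev K 𝓡 j0 h ((0, 0), a0)) _ cG hid 0)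
    (rdo_p7_conv (Gge K j0 h) (Zlev K 𝓡 j0 h ((0, 0), a0)) _ cG hid (w * gam (aa K) (𝓡.gs h)))
    _ _ _ _ _ _ (rdo_p7_pos (𝓡.gs h) W hW w) (src q) (src 0)

end

end Claimed.Agent.R285.Rdo
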