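import Claimed.Agent.R285.Rdo.Defs
import Claimed.Agent.R285.Rdo.Abs
import Claimed.Agent.R285.Rdo.Eig
import Claimed.Agent.R285.Hol.Cv
import Claimed.Agent.R285.Alg.Comps
import Claimed.Agent.R285.Map.WSing

/-!
# ROW 285, unit READOUT, package TERM: the terminal functionals `g_q (X, w)`                      (architect helper16)

[F] `trajectory.tex` l.120-205, [E] `entry.tex` l.640-700.  Everything is done at REAL fields.  The source `w q_n` is moved out of the activities by Cameron-Martin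
(`q_n = Γ_* η`, `η = (λ₁/p_*) q_n`): `E Z (ψ + w q_n) = E [Z (ψ) e^{w ⟨η,ψ⟩ - w² σ²/2}]`, so that the dependence on the state `X` (a POLYNOMIAL in continuous linear functionals of `X`, at fixed real field)
and on `w` (an explicit entire weight) factorise.  No joint holomorphy, no complex sources, no logarithm.

## Leaves (all in this file; edit only your theorem, pull before landing)
* `L-RDO-T1`  `rdo_Wt_prod`, `rdo_ZA_le`   (regulators multiply on components: `B4.regulator_add`, `Extra.add`, `Alg/Comps`)                                   ~200 l.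
* `L-RDO-T2`  `rdo_core`                   (from T1 + `rdo_hol_integral`; finite sums/products of continuous linear functionals)                                ~200 l.
* `L-RDO-T3`  `rdo_dict`                   (dictionary `X ↦ Kof (t, z, toAct a)`: linear, bounded, continuous, periodic, even; `Hol.eB_size`, `Hol.cB_size`, `actSp_act`) ~300 l.
* `L-RDO-T4`  `rdo_dom_int`                (`∫ e^{|⟨η,ψ⟩|} Dom (ψ) ≤ M`: `Hol.gauss_shift_lintegral` + `TermOK` at `w = ± 1`; `Ker.rdo_term_eig`)                    ~200 l.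
* `L-RDO-T5`  `rdo_cm_formula`             (`g_q (X, w)` = weighted integral; `g''(0)` by `rdo_mgf`)                                                            ~300 l.
* `L-RDO-T6`  `rdo_g_par`                  (half period: `θ ↦ θ + ω/2`)                                                                                        ~200 l.
* `L-RDO-T7`  `rdo_g_dz`                   (`∂_z g_c ((0,z),0; w) |_0 = k_P ave cos (α w q_n)`: `ZA (single 0 z)` is a polynomial in `z`; `B8.conv_cBC`)            ~300 l.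
* `L-RDO-T8`  `rdo_gok`  [in `Rdo/Gok.lean`]  (assembly of `GOK` from T2-T7)                                                                                      ~300 l.
GLUE (helper16): `GOK` + exact response at the level `h` ⟹ `R0OK` = all `r*_an`, `r*_bd`, `r*_par` for `rV0`, `rP0`, `rM0` (`rdo_r0ok`).
-/

set_option autoImplicit false

namespace Claimed.Agent.R285.Rdo

open scoped BigOperators ENNReal NNReal
open MeasureTheory ProbabilityTheory Polynomial Filter Topology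
open Claimed.Agent.R285 Claimed.Agent.R285.RG Claimed.Agent.R285.B8 Claimed.Agent.R285.F4a

noncomputable section

/-! ## A. One grid: the subset sum at a real field -/

section grid

variable {G : Geom} (g : Grid G) (R : ℕ) (p : Par) (V : Extra g)

/-- the dominating function `∑_W A^{-|W|} (W^κ e^V)(W, φ)` -/
def Dom (φ : G.V → ℝ) : ℝ := ∑ W : Finset g.I, (p.A ^ W.card)⁻¹ * Wt g p.δ p.κ V W φ

theorem rdo_U_empty (hg : g.Ok) (δ : ℝ) (φ : G.V → ℝ) : U g δ ∅ φ = 0 := by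
  have h := B4.regulator_add g hg δ ∅ ∅ (fun a ha => absurd ha (Finset.notMem_empty a)) φ
  rw [Finset.union_empty] at h
  linarith

theorem rdo_Wt_empty (hg : g.Ok) (φ : G.V → ℝ) : 1 ≤ Wt g p.δ p.κ V ∅ φ := by
  unfold Wt
  rw [rdo_U_empty g hg, mul_zero, zero_add]
  exact Real.one_le_exp (V.nonneg _ _)

theorem rdo_Wt_union (hg : g.Ok) {X X' : Finset g.I} (h5 : g.Sep 5 X X') (hs : g.Sep V.sep X X') (φ : G.V → ℝ) :
    Wt g p.δ p.κ V X φ * Wt g p.δ p.κ V X' φ ≤ Wt g p.δ p.κ V (X ∪ X') φ := by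
  unfold Wt
  rw [← Real.exp_add, B4.regulator_add g hg p.δ X X' h5 φ]
  apply Real.exp_le_exp.2
  have := V.add X X' φ hs
  linarith

/-- `L-RDO-T1` regulators multiply on the components -/
theorem rdo_Wt_prod (hg : g.Ok) (hκ : 0 ≤ p.κ) (hsep : max 5 V.sep < R) (W : Finset g.I) (φ : G.V → ℝ) :
    ∏ Y ∈ g.comps R W, Wt g p.δ p.κ V Y φ ≤ Wt g p.δ p.κ V W φ := by
  have h5 : 5 ≤ R := le_of_lt (lt_of_le_of_lt (le_max_left _ _) hsep)
  have hs : V.sep ≤ R := le_of_lt (lt_of_le_of_lt (le_max_right _ _) hsep)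
  induction' hn : W.card using Nat.strong_induction_on with n ih generalizing W
  rcases W.eq_empty_or_nonempty with rfl | ⟨a, ha⟩
  · rw [Alg.comps_empty, Finset.prod_empty]
    exact rdo_Wt_empty g p V hg φ
  · obtain ⟨X, hX, haX⟩ := Alg.comps_cover (R := R) ha
    have hsep' := Alg.comps_sep_sdiff hX
    have hV : W = X ∪ (W \ X) := by
      rw [Finset.union_sdiff_of_subset (Alg.comps_subset hX)]
    have hcard : (W \ X).card < n := by
      rw [← hn]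
      exact Finset.card_lt_card (Finset.sdiff_ssubset (Alg.comps_subset hX) ⟨a, haX⟩)
    have h1 := ih _ hcard (W \ X) rfl
    have h2 : ∏ Y ∈ g.comps R W, Wt g p.δ p.κ V Y φ
        = Wt g p.δ p.κ V X φ * ∏ Y ∈ g.comps R (W \ X), Wt g p.δ p.κ V Y φ := by
      conv_lhs => rw [hV]
      rw [Alg.prod_comps_union _ hsep', Alg.comps_self (Alg.comps_conn hX), Finset.prod_singleton]
    rw [h2]
    calc Wt g p.δ p.κ V X φ * ∏ Y ∈ g.comps R (W \ X), Wt g p.δ p.κ V Y φ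
        ≤ Wt g p.δ p.κ V X φ * Wt g p.δ p.κ V (W \ X) φ := mul_le_mul_of_nonneg_left h1 (Real.exp_pos _).le
      _ ≤ Wt g p.δ p.κ V (X ∪ (W \ X)) φ := rdo_Wt_union g p V hg (Alg.sep_le hsep' h5) (Alg.sep_le hsep' hs) φ
      _ = _ := by rw [← hV]

theorem rdo_prod_le (hg : g.Ok) (hκ : 0 ≤ p.κ) (hA : 0 < p.A) (hsep : max 5 V.sep < R) (K : Act g) (z : G.V → ℂ) (φ : G.V → ℝ)
    (ε : ℝ) (h0 : 0 ≤ ε) (hK : ∀ Y, ‖K Y z‖ ≤ ε * ((p.A ^ Y.card)⁻¹ * Wt g p.δ p.κ V Y φ)) (W : Finset g.I) :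
    ‖∏ Y ∈ g.comps R W, K Y z‖ ≤ ε ^ (g.comps R W).card * ((p.A ^ W.card)⁻¹ * Wt g p.δ p.κ V W φ) := by
  have hAm : (p.A ^ W.card)⁻¹ = ∏ Y ∈ g.comps R W, (p.A ^ Y.card)⁻¹ :=
    Alg.mult_eq_prod (R := R) (fun W : Finset g.I => (p.A ^ W.card)⁻¹) (by simp)
      (fun V1 V2 h => by
        show (p.A ^ (V1 ∪ V2).card)⁻¹ = (p.A ^ V1.card)⁻¹ * (p.A ^ V2.card)⁻¹
        rw [Finset.card_union_of_disjoint (Alg.sep_disjoint h), pow_add, mul_inv]) W
  rw [norm_prod]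
  calc ∏ Y ∈ g.comps R W, ‖K Y z‖ ≤ ∏ Y ∈ g.comps R W, (ε * ((p.A ^ Y.card)⁻¹ * Wt g p.δ p.κ V Y φ)) :=
        Finset.prod_le_prod (fun _ _ => norm_nonneg _) (fun Y _ => hK Y)
    _ = ε ^ (g.comps R W).card * ((p.A ^ W.card)⁻¹ * ∏ Y ∈ g.comps R W, Wt g p.δ p.κ V Y φ) := by
        rw [Finset.prod_mul_distrib, Finset.prod_const, Finset.prod_mul_distrib, ← hAm]
    _ ≤ _ := by
        refine mul_le_mul_of_nonneg_left (mul_le_mul_of_nonneg_left (rdo_Wt_prod g R p V hg hκ hsep W φ) ?_) (pow_nonneg h0 _)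
        positivity

/-- `L-RDO-T1` the subset sum is within `ε Dom` of one -/
theorem rdo_ZA_le (hg : g.Ok) (hδ : 0 ≤ p.δ) (hκ : 0 ≤ p.κ) (hA : 0 < p.A) (hsep : max 5 V.sep < R) (K : Act g) (z : G.V → ℂ) (φ : G.V → ℝ)
    (ε : ℝ) (h0 : 0 ≤ ε) (h1 : ε ≤ 1) (hK : ∀ Y, ‖K Y z‖ ≤ ε * ((p.A ^ Y.card)⁻¹ * Wt g p.δ p.κ V Y φ)) :
    ‖ZA g R K z - 1‖ ≤ ε * Dom g p V φ ∧ ‖ZA g R K z‖ ≤ Dom g p V φ := by
  obtain ⟨T, hT⟩ : ∃ T : Finset g.I → ℝ, T = fun W => (p.A ^ W.card)⁻¹ * Wt g p.δ p.κ V W φ := ⟨_, rfl⟩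
  have hT0 : ∀ W, 0 ≤ T W := by
    intro W
    rw [hT]
    exact mul_nonneg (by positivity) (Real.exp_pos _).le
  have hTe : 1 ≤ T ∅ := by
    rw [hT]
    simpa using rdo_Wt_empty g p V hg φ
  have hD : Dom g p V φ = T ∅ + ∑ W ∈ Finset.univ.erase (∅ : Finset g.I), T W := by
    rw [Finset.add_sum_erase _ _ (Finset.mem_univ _), hT]
    rfl
  have e : ZA g R K z = ∑ W : Finset g.I, ∏ Y ∈ g.comps R W, K Y z := by
    unfold ZA
    rw [Finset.sum_apply]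
    exact Finset.sum_congr rfl fun W _ => Finset.prod_apply _ _ _
  have e2 : ZA g R K z - 1 = ∑ W ∈ Finset.univ.erase (∅ : Finset g.I), ∏ Y ∈ g.comps R W, K Y z := by
    rw [e, ← Finset.add_sum_erase _ _ (Finset.mem_univ (∅ : Finset g.I)), Alg.comps_empty, Finset.prod_empty]
    ring
  have hS0 : 0 ≤ ∑ W ∈ Finset.univ.erase (∅ : Finset g.I), T W := Finset.sum_nonneg fun W _ => hT0 W
  have h2 : ‖ZA g R K z - 1‖ ≤ ε * ∑ W ∈ Finset.univ.erase (∅ : Finset g.I), T W := by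
    rw [e2, Finset.mul_sum]
    refine (norm_sum_le _ _).trans (Finset.sum_le_sum fun W hW => ?_)
    have hne : W.Nonempty := Finset.nonempty_iff_ne_empty.2 (Finset.ne_of_mem_erase hW)
    obtain ⟨a, ha⟩ := hne
    obtain ⟨X, hX, -⟩ := Alg.comps_cover (R := R) ha
    have hc : (g.comps R W).card ≠ 0 := Finset.card_ne_zero_of_mem hX
    refine (rdo_prod_le g R p V hg hκ hA hsep K z φ ε h0 hK W).trans ?_
    have h3 : ε ^ (g.comps R W).card ≤ ε := pow_le_of_le_one h0 h1 hc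
    have h4 := mul_le_mul_of_nonneg_right h3 (hT0 W)
    rw [hT] at h4
    rw [hT]
    exact h4
  constructor
  · rw [hD]
    refine h2.trans ?_
    have : 0 ≤ ε * T ∅ := mul_nonneg h0 (hT0 _)
    linarith
  · rw [hD]
    have h5 : ‖ZA g R K z‖ ≤ ‖ZA g R K z - 1‖ + 1 := by
      have := norm_add_le (ZA g R K z - 1) 1
      rwa [sub_add_cancel, norm_one] at this
    have h6 : ε * ∑ W ∈ Finset.univ.erase (∅ : Finset g.I), T W ≤ 1 * ∑ W ∈ Finset.univ.erase (∅ : Finset g.I), T W :=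
      mul_le_mul_of_nonneg_right h1 hS0
    linarith

theorem rdo_ZA_apply (K : Act g) (z : G.V → ℂ) : ZA g R K z = ∑ W : Finset g.I, ∏ X ∈ g.comps R W, K X z := by
  simp only [ZA, Finset.sum_apply, Finset.prod_apply]

/-- `L-RDO-T2` **the core**: a weighted integral of the subset sum is holomorphic in the state and within `M C_s ‖x‖` of its value at `0`.
THE REGULATORS NEED NOT BE MEASURABLE (`Extra` has no such field): all hypotheses on `Dom` are lower integrals `∫⁻`.  Dominating function for `rdo_hol_integral`: `b ω = ⨆_{x ∈ ball} ‖wgt ω * ZA (𝒦 x) ..‖ₑ`, which is lower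
semicontinuous (`lowerSemicontinuous_iSup`), hence measurable, and `≤ ‖wgt‖ Dom` (trick of `Scal.conv_hol_param`). -/
theorem rdo_core {E Ω : Type} [NormedAddCommGroup E] [NormedSpace ℂ E] [TopologicalSpace Ω] [MeasurableSpace Ω] [OpensMeasurableSpace Ω] (μ : Measure Ω)
    (hg : g.Ok) (hδ : 0 ≤ p.δ) (hκ : 0 ≤ p.κ) (hA : 0 < p.A) (hsep : max 5 V.sep < R)
    (𝒦 : E → Act g) (fld : Ω → G.V → ℝ) (wgt : Ω → ℂ) (Cs M : ℝ) (hCs : 0 < Cs) (hM0 : 0 ≤ M)
    (hlin : ∀ Y ω, IsLinearMap ℂ fun x => 𝒦 x Y (toC (fld ω)))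
    (hbd : ∀ x Y ω, ‖𝒦 x Y (toC (fld ω))‖ ≤ Cs * ‖x‖ * ((p.A ^ Y.card)⁻¹ * Wt g p.δ p.κ V Y (fld ω)))
    (hcont : ∀ x Y, Continuous fun ω => 𝒦 x Y (toC (fld ω))) (hw : Continuous wgt)
    (hM : ∫⁻ ω, ENNReal.ofReal (‖wgt ω‖ * Dom g p V (fld ω)) ∂μ ≤ ENNReal.ofReal M) :
    DifferentiableOn ℂ (fun x => ∫ ω, wgt ω * ZA g R (𝒦 x) (toC (fld ω)) ∂μ) (Metric.ball 0 Cs⁻¹) ∧
    ∀ x ∈ Metric.ball (0 : E) Cs⁻¹, ‖(∫ ω, wgt ω * ZA g R (𝒦 x) (toC (fld ω)) ∂μ) - ∫ ω, wgt ω ∂μ‖ ≤ M * Cs * ‖x‖ := by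
  set U : Set E := Metric.ball 0 Cs⁻¹ with hU
  set F : E → Ω → ℂ := fun x ω => wgt ω * ZA g R (𝒦 x) (toC (fld ω)) with hF
  -- smallness in the ball
  have hε : ∀ x ∈ U, 0 ≤ Cs * ‖x‖ ∧ Cs * ‖x‖ ≤ 1 := fun x hx => by
    have h1 : ‖x‖ < Cs⁻¹ := by simpa [hU] using hx
    refine ⟨by positivity, ?_⟩
    have := mul_le_mul_of_nonneg_left h1.le hCs.le
    rwa [mul_inv_cancel₀ hCs.ne'] at this
  have hZ : ∀ x ∈ U, ∀ ω, ‖ZA g R (𝒦 x) (toC (fld ω)) - 1‖ ≤ Cs * ‖x‖ * Dom g p V (fld ω) ∧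
      ‖ZA g R (𝒦 x) (toC (fld ω))‖ ≤ Dom g p V (fld ω) := fun x hx ω =>
    rdo_ZA_le g R p V hg hδ hκ hA hsep (𝒦 x) (toC (fld ω)) (fld ω) (Cs * ‖x‖) (hε x hx).1 (hε x hx).2
      fun Y => hbd x Y ω
  -- continuity in `ω`
  have hFc : ∀ x, Continuous (F x) := fun x => by
    simp only [hF, rdo_ZA_apply]
    exact hw.mul (continuous_finsetSum _ fun W _ => continuous_finsetProd _ fun X _ => hcont x X)
  -- differentiability in `x`
  have hKd : ∀ Y ω, Differentiable ℂ fun x => 𝒦 x Y (toC (fld ω)) := fun Y ω => by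
    have hb : IsBoundedLinearMap ℂ fun x => 𝒦 x Y (toC (fld ω)) :=
      (hlin Y ω).with_bound (Cs * ((p.A ^ Y.card)⁻¹ * Wt g p.δ p.κ V Y (fld ω))) fun x => by
        refine (hbd x Y ω).trans (le_of_eq ?_)
        ring
    exact hb.differentiable
  have hFd : ∀ ω, Differentiable ℂ fun x => F x ω := fun ω => by
    simp only [hF, rdo_ZA_apply]
    refine (differentiable_const _).mul ?_
    refine Differentiable.fun_sum fun W _ => ?_
    intro x
    classical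
    exact (HasFDerivAt.finsetProd (g := fun X x => 𝒦 x X (toC (fld ω)))
      fun X _ => (hKd X ω x).hasFDerivAt).differentiableAt
  -- the dominating function
  set b' : Ω → ℝ≥0∞ := fun ω => ⨆ x : U, ‖F x.1 ω‖ₑ with hb'
  have hlsc : LowerSemicontinuous b' :=
    lowerSemicontinuous_iSup fun x => (hFc x.1).enorm.lowerSemicontinuous
  have hle : ∀ ω, b' ω ≤ ENNReal.ofReal (‖wgt ω‖ * Dom g p V (fld ω)) := fun ω =>
    iSup_le fun x => by
      rw [← ofReal_norm]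
      refine ENNReal.ofReal_le_ofReal ?_
      rw [hF, norm_mul]
      exact mul_le_mul_of_nonneg_left (hZ x.1 x.2 ω).2 (norm_nonneg _)
  have hfinb : ∀ ω, b' ω ≠ ⊤ := fun ω => ne_top_of_le_ne_top ENNReal.ofReal_ne_top (hle ω)
  have hintb : ∫⁻ ω, b' ω ∂μ ≠ ⊤ :=
    ne_top_of_le_ne_top ENNReal.ofReal_ne_top ((lintegral_mono hle).trans hM)
  have hbi : Integrable (fun ω => (b' ω).toReal) μ :=
    integrable_toReal_of_lintegral_ne_top hlsc.measurable.aemeasurable hintb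
  have hFb : ∀ x ∈ U, ∀ ω, ‖F x ω‖ ≤ (b' ω).toReal := fun x hx ω => by
    have h1 : ‖F x ω‖ₑ ≤ b' ω := le_iSup (fun x : U => ‖F x.1 ω‖ₑ) ⟨x, hx⟩
    have h2 := ENNReal.toReal_mono (hfinb ω) h1
    simpa using h2
  have hFi : ∀ x ∈ U, Integrable (F x) μ := fun x hx =>
    hbi.mono' (hFc x).aestronglyMeasurable (Eventually.of_forall fun ω => hFb x hx ω)
  constructor
  · refine rdo_hol_integral μ U Metric.isOpen_ball F (fun ω => (hFd ω).differentiableOn)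
      (fun x _ => (hFc x).aestronglyMeasurable) fun x hx => ?_
    obtain ⟨ε, hε0, hball⟩ := Metric.isOpen_iff.1 Metric.isOpen_ball x hx
    exact ⟨ε, hε0, fun ω => (b' ω).toReal, hbi, fun x' hx' ω => hFb x' (hball hx') ω⟩
  · intro x hx
    have h0U : (0 : E) ∈ U := by simp [hU, hCs]
    have hF0 : F 0 = wgt := by
      funext ω
      have h1 := (hZ 0 h0U ω).1
      rw [norm_zero, mul_zero, zero_mul] at h1
      have h2 : ZA g R (𝒦 0) (toC (fld ω)) = 1 := sub_eq_zero.1 (norm_le_zero_iff.1 h1)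
      simp only [hF, h2, mul_one]
    have hwi : Integrable wgt μ := hF0 ▸ hFi 0 h0U
    show ‖(∫ ω, F x ω ∂μ) - ∫ ω, wgt ω ∂μ‖ ≤ M * Cs * ‖x‖
    rw [← integral_sub (hFi x hx) hwi]
    have hle2 : ∀ ω, ‖F x ω - wgt ω‖ₑ ≤
        ENNReal.ofReal (Cs * ‖x‖) * ENNReal.ofReal (‖wgt ω‖ * Dom g p V (fld ω)) := fun ω => by
      rw [← ofReal_norm, ← ENNReal.ofReal_mul (hε x hx).1]
      refine ENNReal.ofReal_le_ofReal ?_
      have e : F x ω - wgt ω = wgt ω * (ZA g R (𝒦 x) (toC (fld ω)) - 1) := by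
        simp only [hF]; ring
      rw [e, norm_mul]
      calc ‖wgt ω‖ * ‖ZA g R (𝒦 x) (toC (fld ω)) - 1‖
          ≤ ‖wgt ω‖ * (Cs * ‖x‖ * Dom g p V (fld ω)) :=
            mul_le_mul_of_nonneg_left (hZ x hx ω).1 (norm_nonneg _)
        _ = Cs * ‖x‖ * (‖wgt ω‖ * Dom g p V (fld ω)) := by ring
    have h3 : ∫⁻ ω, ‖F x ω - wgt ω‖ₑ ∂μ ≤ ENNReal.ofReal (M * Cs * ‖x‖) := by
      calc ∫⁻ ω, ‖F x ω - wgt ω‖ₑ ∂μ
          ≤ ∫⁻ ω, ENNReal.ofReal (Cs * ‖x‖) * ENNReal.ofReal (‖wgt ω‖ * Dom g p V (fld ω)) ∂μ :=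
            lintegral_mono hle2
        _ = ENNReal.ofReal (Cs * ‖x‖) * ∫⁻ ω, ENNReal.ofReal (‖wgt ω‖ * Dom g p V (fld ω)) ∂μ :=
            lintegral_const_mul' _ _ ENNReal.ofReal_ne_top
        _ ≤ ENNReal.ofReal (Cs * ‖x‖) * ENNReal.ofReal M := mul_le_mul' le_rfl hM
        _ = ENNReal.ofReal (M * Cs * ‖x‖) := by
            rw [← ENNReal.ofReal_mul (hε x hx).1]
            congr 1
            ring
    have h4 : ‖∫ ω, (F x ω - wgt ω) ∂μ‖ₑ ≤ ENNReal.ofReal (M * Cs * ‖x‖) :=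
      (enorm_integral_le_lintegral_enorm _).trans h3
    rw [← ofReal_norm] at h4
    exact (ENNReal.ofReal_le_ofReal_iff (by have := (hε x hx).1; nlinarith [mul_nonneg hM0 this])).1 h4

end grid

/-! ## B. The dictionary -/

variable (K : Cfg) (𝓡 : Reg K.s)

/-- the activity of a state -/
def Kst (j h : ℕ) (X : (ℂ × ℂ) × K.To 𝓡 j h) : Act (K.s.lev h j) :=
  Kof (K.s.lev h j) (Step.alpha K.p.ω) (X.1.1, X.1.2, K.toAct 𝓡 X.2)

theorem Zlev_eq (j h : ℕ) (X : (ℂ × ℂ) × K.To 𝓡 j h) : Zlev K 𝓡 j h X = ZA (K.s.lev h j) K.c.R (Kst K 𝓡 j h X) := rfl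

/-- the properties of `X ↦ Kst X` at real fields -/
structure DictOK (j h : ℕ) (Cs : ℝ) : Prop where
  lin : ∀ Y (φ : (K.s.T h).V → ℝ), IsLinearMap ℂ fun X => Kst K 𝓡 j h X Y (toC φ)
  bd : ∀ X Y (φ : (K.s.T h).V → ℝ), ‖Kst K 𝓡 j h X Y (toC φ)‖
    ≤ Cs * ‖X‖ * ((K.p.A ^ Y.card)⁻¹ * Wt (K.s.lev h j) K.p.δ K.p.κ (𝓡.V h j) Y φ)
  cont : ∀ X Y, Continuous fun φ : (K.s.T h).V → ℝ => Kst K 𝓡 j h X Y (toC φ)
  per : ∀ X Y (φ : (K.s.T h).V → ℝ), Kst K 𝓡 j h X Y (toC fun v => φ v + K.p.ω) = Kst K 𝓡 j h X Y (toC φ)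
  even : ∀ X Y (φ : (K.s.T h).V → ℝ), Kst K 𝓡 j h X Y (toC fun v => -φ v) = Kst K 𝓡 j h X Y (toC φ)

/-- real fields lie in every strip -/
theorem rdo_toC_mem_strip {G : Geom} {h0 : ℝ≥0} (hh : 0 < h0) (g : Grid G) (X : Finset g.I) (φ : G.V → ℝ) : toC φ ∈ strip h0 g X := by
  have := Hol.toC_add_mem_strip (h := h0) (g := g) (X := X) φ (f := 0) (by rw [Hol.tnorm_zero]; exact hh)
  simpa using this

/-- pointwise bound at a real field from the activity norm -/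
theorem rdo_norm_le_actNorm {G : Geom} (p : Par) (hh : 0 < p.h0) (hA : 0 < p.A) (g : Grid G) (V : Extra g) (K : Act g) (C : ℝ) (hC : 0 ≤ C)
    (hK : actNorm p g V K ≤ ENNReal.ofReal C) (Y : Finset g.I) (φ : G.V → ℝ) :
    ‖K Y (toC φ)‖ ≤ C * ((p.A ^ Y.card)⁻¹ * Wt g p.δ p.κ V Y φ) := by
  have h1 := Hol.nnnorm_le_fnSize_mul p g V Y (K Y) φ 0 (by rw [Hol.tnorm_zero]; exact hh)
  rw [add_zero] at h1
  have h2 := (w_le_actNorm p g V K Y).trans hK
  have hAn : 0 < p.A ^ Y.card := pow_pos hA _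
  have hW : 0 ≤ Wt g p.δ p.κ V Y φ := (Real.exp_pos _).le
  have h3 : fnSize p g V Y (K Y) ≤ ENNReal.ofReal (C * (p.A ^ Y.card)⁻¹) := by
    rw [ENNReal.ofReal_mul hC, ENNReal.ofReal_inv_of_pos hAn, ← div_eq_mul_inv,
      ENNReal.le_div_iff_mul_le (Or.inl (by simp [hAn])) (Or.inl ENNReal.ofReal_ne_top), mul_comm]
    exact h2
  have h4 := h1.trans (mul_le_mul' h3 le_rfl)
  rw [← ENNReal.ofReal_mul (by positivity), ← enorm_eq_nnnorm, ← ofReal_norm] at h4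
  have h5 := (ENNReal.ofReal_le_ofReal_iff (by positivity)).1 h4
  rw [mul_assoc] at h5
  exact h5

theorem rdo_act_add {G : Geom} (p : Par) (g : Grid G) (V : Extra g) (a b : Amb (Idx g)) :
    Amb.act p g V (a + b) = Amb.act p g V a + Amb.act p g V b := by
  funext X z
  simp only [Amb.act, Pi.add_apply]
  split_ifs
  · rw [lp.coeFn_add, Pi.add_apply, mul_add]
  · simp

theorem rdo_act_smul {G : Geom} (p : Par) (g : Grid G) (V : Extra g) (c : ℂ) (a : Amb (Idx g)) :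
    Amb.act p g V (c • a) = c • Amb.act p g V a := by
  funext X z
  simp only [Amb.act, Pi.smul_apply]
  split_ifs
  · rw [lp.coeFn_smul, Pi.smul_apply, smul_eq_mul, smul_eq_mul]
    ring
  · simp

theorem rdo_Kst_add (j h : ℕ) (X X' : (ℂ × ℂ) × K.To 𝓡 j h) : Kst K 𝓡 j h (X + X') = Kst K 𝓡 j h X + Kst K 𝓡 j h X' := by
  unfold Kst
  rw [← w_Kof_add]
  congr 1
  simp only [Prod.mk_add_mk, Prod.fst_add, Prod.snd_add]
  congr 2
  unfold Cfg.toAct
  rw [Submodule.coe_add, rdo_act_add]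

theorem rdo_Kst_smul (j h : ℕ) (c : ℂ) (X : (ℂ × ℂ) × K.To 𝓡 j h) : Kst K 𝓡 j h (c • X) = c • Kst K 𝓡 j h X := by
  unfold Kst
  rw [← w_Kof_smul]
  congr 1
  simp only [Prod.smul_mk, Prod.smul_fst, Prod.smul_snd]
  congr 2
  unfold Cfg.toAct
  rw [Submodule.coe_smul, rdo_act_smul]

theorem rdo_single_cont {G : Geom} (g : Grid G) (α : ℝ) (t z : ℂ) (Y : Finset g.I) : Continuous (single g α t z Y) := by
  by_cases h : ∃ B, Y = {B}
  · obtain ⟨B, rfl⟩ := h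
    rw [w_single_singleton]
    have h1 : Continuous (eBC g B) := by
      unfold eBC dif Geom.lift
      fun_prop
    have h2 : Continuous (cBC g α B) := by
      unfold cBC
      fun_prop
    exact (h1.const_smul _).add (h2.const_smul _)
  · rw [w_single_of_ne _ _ _ _ _ fun B hB => h ⟨B, hB⟩]
    exact continuous_const

theorem rdo_toC_cont {G : Geom} : Continuous (toC : (G.V → ℝ) → G.V → ℂ) := by
  unfold toC
  fun_prop

/-- `L-RDO-T3` the dictionary; `C_s` depends on `(δ, κ, h₀, A, α)` only -/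
theorem rdo_dict (δ κ : ℝ) (h0 : ℝ≥0) (A αmax : ℝ) (hδ : 0 < δ) (hκ : 0 < κ) (hh : 0 < h0) (hA : 1 ≤ A) : ∃ Cs : ℝ, 1 ≤ Cs ∧
    ∀ K : Cfg, K.p.δ = δ → K.p.κ = κ → K.p.h0 = h0 → K.p.A = A → 0 < K.p.ω → Step.alpha K.p.ω ≤ αmax →
      ∀ (𝓡 : Reg K.s) (j h : ℕ), DictOK K 𝓡 j h Cs := by
  obtain ⟨C0, hC01, hC0⟩ := w_Kof_norm δ κ h0 hδ hκ αmax
  have hC01' : (1 : ℝ) ≤ C0 := by exact_mod_cast hC01
  refine ⟨A * (C0 * 3), by nlinarith, ?_⟩
  intro K e1 e2 e3 e4 hω hα 𝓡 j h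
  have hp : K.p = ⟨δ, κ, h0, A, K.p.ω⟩ := by
    rw [← e1, ← e2, ← e3, ← e4]
  have hA' : 0 < K.p.A := by rw [e4]; linarith
  have hh' : 0 < K.p.h0 := by rw [e3]; exact hh
  have hact := fun a : K.To 𝓡 j h => actSp_act K.p hA' K.c.col K.c.R (K.s.lev h j) (𝓡.gs h) (𝓡.V h j) a
  have hstrip := fun (Y : Finset (K.s.lev h j).I) (φ : (K.s.T h).V → ℝ) => rdo_toC_mem_strip hh' (K.s.lev h j) Y φ
  refine ⟨?_, ?_, ?_, ?_, ?_⟩
  · intro Y φ
    constructor
    · intro X X'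
      show Kst K 𝓡 j h (X + X') Y (toC φ) = _
      rw [rdo_Kst_add]
      rfl
    · intro c X
      show Kst K 𝓡 j h (c • X) Y (toC φ) = _
      rw [rdo_Kst_smul]
      rfl
  · intro X Y φ
    have h1 := hC0 A K.p.ω hA hω (K.s.T h) (K.s.lev h j) (K.s.lev_ok h j) (𝓡.V h j) (X.1.1, X.1.2, K.toAct 𝓡 X.2) (Or.inr hα)
    rw [← hp] at h1
    have h2 : size3 K.p (K.s.lev h j) (𝓡.V h j) (X.1.1, X.1.2, K.toAct 𝓡 X.2) ≤ ENNReal.ofReal (3 * ‖X‖) := by
      unfold size3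
      have e : actNorm K.p (K.s.lev h j) (𝓡.V h j) (K.toAct 𝓡 X.2) = ENNReal.ofReal ‖X.2‖ := (hact X.2).2.2
      simp only [e]
      rw [← enorm_eq_nnnorm, ← enorm_eq_nnnorm, ← ofReal_norm, ← ofReal_norm,
        ← ENNReal.ofReal_add (norm_nonneg _) (norm_nonneg _), ← ENNReal.ofReal_add (by positivity) (norm_nonneg _)]
      refine ENNReal.ofReal_le_ofReal ?_
      have i1 : ‖X.1.1‖ ≤ ‖X‖ := (norm_fst_le X.1).trans (norm_fst_le X)
      have i2 : ‖X.1.2‖ ≤ ‖X‖ := (norm_snd_le X.1).trans (norm_fst_le X)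
      have i3 : ‖X.2‖ ≤ ‖X‖ := norm_snd_le X
      linarith
    have h3 : actNorm K.p (K.s.lev h j) (𝓡.V h j) (Kst K 𝓡 j h X) ≤ ENNReal.ofReal (A * (C0 * 3) * ‖X‖) := by
      refine h1.trans ?_
      have e : A * (C0 * 3) * ‖X‖ = A * (C0 * (3 * ‖X‖)) := by ring
      rw [e, ENNReal.ofReal_mul (by linarith), ENNReal.ofReal_mul (NNReal.coe_nonneg C0), ENNReal.ofReal_coe_nnreal]
      exact mul_le_mul' le_rfl (mul_le_mul' le_rfl h2)
    exact rdo_norm_le_actNorm K.p hh' hA' (K.s.lev h j) (𝓡.V h j) _ _ (by positivity) h3 Y φ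
  · intro X Y
    have h1 : Continuous fun φ : (K.s.T h).V → ℝ => single (K.s.lev h j) (Step.alpha K.p.ω) X.1.1 X.1.2 Y (toC φ) :=
      (rdo_single_cont _ _ _ _ Y).comp rdo_toC_cont
    have h2 : Continuous fun φ : (K.s.T h).V → ℝ => K.toAct 𝓡 X.2 Y (toC φ) :=
      (((hact X.2).1.ok.fn Y).hol.continuousOn).comp_continuous rdo_toC_cont (hstrip Y)
    exact h1.add h2
  · intro X Y φ
    have e : (toC fun v => φ v + K.p.ω) = fun v => toC φ v + (K.p.ω : ℂ) := by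
      funext v
      simp [toC]
    rw [e]
    have h2 := ((hact X.2).1.ok.fn Y).per (toC φ) (hstrip Y φ)
    have h1 : single (K.s.lev h j) (Step.alpha K.p.ω) X.1.1 X.1.2 Y (fun v => toC φ v + (K.p.ω : ℂ))
        = single (K.s.lev h j) (Step.alpha K.p.ω) X.1.1 X.1.2 Y (toC φ) := by
      by_cases hY : ∃ B, Y = {B}
      · obtain ⟨B, rfl⟩ := hY
        rw [w_single_singleton]
        simp only [Pi.add_apply, Pi.smul_apply, w_eBC_const,
          (w_cBC_local K.p hω K.c.col (K.s.lev h j) B).per (toC φ) (hstrip {B} φ)]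
      · rw [w_single_of_ne _ _ _ _ _ fun B hB => hY ⟨B, hB⟩]
        rfl
    show single _ _ _ _ Y _ + K.toAct 𝓡 X.2 Y _ = single _ _ _ _ Y _ + K.toAct 𝓡 X.2 Y _
    rw [h1]
    congr 1
  · intro X Y φ
    have e : (toC fun v => -φ v) = -toC φ := by
      funext v
      simp [toC]
    rw [e]
    have h2 := (hact X.2).1.even Y (toC φ) (hstrip Y φ)
    have h1 := w_single_even K.p.h0 (K.s.lev h j) (Step.alpha K.p.ω) X.1.1 X.1.2 Y (toC φ) (hstrip Y φ)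
    show single _ _ _ _ Y _ + K.toAct 𝓡 X.2 Y _ = single _ _ _ _ Y _ + K.toAct 𝓡 X.2 Y _
    rw [h1]
    congr 1

/-! ## C. Terminal weights -/

/-- the Cameron-Martin covector of the first cosine for `C_{≥L^j}` on the torus `h`: `Γ η = q_n` -/
def etaQ (j h : ℕ) : (K.s.T h).V → ℝ := fun v => lam1 (K.s.T h).M / pG K j h * cos1 (K.s.T h) v

/-- `σ² = ⟨η, Γ η⟩` -/
def sigQ (j h : ℕ) : ℝ := etaQ K j h ⬝ᵥ cos1 (K.s.T h)

/-! `L-RDO-T4` `rdo_dom_int` (exponential moments of `Dom` at the stop) is PROVED in `Rdo/DomInt.lean` (it needs `Rdo/Ker.lean`), with the additional hypothesis `TermGeo.meas`. -/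

/-- the first two derivatives at `0` of the Gaussian factor -/
theorem rdo_cm_gaussfac (s : ℂ) :
    deriv (fun z : ℂ => Complex.exp (-(z ^ 2 * s / 2))) 0 = 0 ∧
      iteratedDeriv 2 (fun z : ℂ => Complex.exp (-(z ^ 2 * s / 2))) 0 = -s := by
  have h1 : ∀ z : ℂ, HasDerivAt (fun z : ℂ => Complex.exp (-(z ^ 2 * s / 2)))
      (Complex.exp (-(z ^ 2 * s / 2)) * (-(z * s))) z := by
    intro z
    have h2 : HasDerivAt (fun z : ℂ => -(z ^ 2 * s / 2)) (-(z * s)) z := by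
      have := (((hasDerivAt_pow 2 z).mul_const s).div_const 2).fun_neg
      have e : -(z * s) = -(((2 : ℕ) : ℂ) * z ^ (2 - 1) * s / 2) := by
        norm_num
        ring
      rw [e]
      exact this
    exact h2.cexp
  have hd : deriv (fun z : ℂ => Complex.exp (-(z ^ 2 * s / 2)))
      = fun z => Complex.exp (-(z ^ 2 * s / 2)) * (-(z * s)) := funext fun z => (h1 z).deriv
  refine ⟨by rw [hd]; simp, ?_⟩
  rw [iteratedDeriv_succ, iteratedDeriv_one, hd]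
  have h3 := (h1 0).mul (((hasDerivAt_id (0 : ℂ)).mul_const s).neg)
  have h4 : deriv (fun z : ℂ => Complex.exp (-(z ^ 2 * s / 2)) * (-(z * s))) 0 = _ := h3.deriv
  rw [h4]
  simp

theorem rdo_cm_sq_le (t : ℝ) : t ^ 2 ≤ 2 * Real.exp |t| := by
  have h := Real.quadratic_le_exp_of_nonneg (abs_nonneg t)
  have h2 : |t| ^ 2 = t ^ 2 := sq_abs t
  nlinarith [abs_nonneg t]

section cm

variable {G : Geom}

/-- Cameron-Martin at a fixed phase -/
theorem rdo_cm_conv (Γ : Matrix G.V G.V ℝ) (hΓ : Γ.PosSemidef) (η : G.V → ℝ) (Z : Fn G) (w θ : ℝ) :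
    conv Γ Z (fun v => ((w * Γ.mulVec η v : ℝ) : ℂ) + (θ : ℂ))
      = ∫ ψ, (Real.exp (w * (η ⬝ᵥ ψ) - w ^ 2 * (η ⬝ᵥ Γ.mulVec η) / 2) : ℂ) * Z (toC fun v => ψ v + θ) ∂(gauss G Γ) := by
  have h := Hol.gauss_shift_integral Γ hΓ (w • η) (fun ψ => Z (toC fun v => ψ v + θ))
  unfold conv
  have e1 : ∀ ζ : G.V → ℝ, Z ((fun v => ((w * Γ.mulVec η v : ℝ) : ℂ) + (θ : ℂ)) + toC ζ)
      = Z (toC fun v => (ζ + Γ.mulVec (w • η)) v + θ) := by
    intro ζ
    congr 1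
    funext v
    simp only [toC, Pi.add_apply, Matrix.mulVec_smul, Pi.smul_apply, smul_eq_mul]
    push_cast
    ring
  simp only [e1]
  rw [h]
  refine integral_congr_ae (Eventually.of_forall fun ψ => ?_)
  simp only [Complex.real_smul]
  congr 3
  rw [smul_dotProduct, Matrix.mulVec_smul, dotProduct_smul, smul_dotProduct]
  simp only [smul_eq_mul]
  ring

/-- **Cameron-Martin form of the terminal functional, abstract covariance**: source `w Γ η` -/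
theorem rdo_cm_abs (Γ : Matrix G.V G.V ℝ) (hΓ : Γ.PosSemidef) (η : G.V → ℝ) (ω : ℝ) (hω : 0 < ω) (q : ℤ) (Z : Fn G)
    (D : (G.V → ℝ) → ℝ) (hDc : ∀ (φ : G.V → ℝ) (c : ℝ), D (fun v => φ v + c) = D φ) (C : ℝ) (hC : 0 ≤ C)
    (hc : Continuous fun φ : G.V → ℝ => Z (toC φ)) (hZ : ∀ φ : G.V → ℝ, ‖Z (toC φ)‖ ≤ C * D φ)
    (hint : ∫⁻ ψ, ENNReal.ofReal (Real.exp |η ⬝ᵥ ψ| * D ψ) ∂(gauss G Γ) ≠ ⊤) :
    (∀ w : ℝ, Eter G Γ ω q Z (fun v => ((w * Γ.mulVec η v : ℝ) : ℂ)) = ((1 / ω : ℝ) : ℂ) * ∫ θ in (0 : ℝ)..ω,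
        Complex.exp (-(Complex.I * q * ((2 * Real.pi / ω : ℝ) : ℂ) * θ)) *
          ∫ ψ, (Real.exp (w * (η ⬝ᵥ ψ) - w ^ 2 * (η ⬝ᵥ Γ.mulVec η) / 2) : ℂ) * Z (toC fun v => ψ v + θ) ∂(gauss G Γ)) ∧
    iteratedDeriv 2 (fun w : ℝ => Eter G Γ ω q Z (fun v => ((w * Γ.mulVec η v : ℝ) : ℂ))) 0 = ((1 / ω : ℝ) : ℂ) * ∫ θ in (0 : ℝ)..ω,
        Complex.exp (-(Complex.I * q * ((2 * Real.pi / ω : ℝ) : ℂ) * θ)) *
          ∫ ψ, (((η ⬝ᵥ ψ) ^ 2 - η ⬝ᵥ Γ.mulVec η : ℝ) : ℂ) * Z (toC fun v => ψ v + θ) ∂(gauss G Γ) ∧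
    ContDiffAt ℝ 2 (fun w : ℝ => Eter G Γ ω q Z (fun v => ((w * Γ.mulVec η v : ℝ) : ℂ))) 0 := by
  set μ := gauss G Γ with hμ
  set σ : ℝ := η ⬝ᵥ Γ.mulVec η with hσ
  set χ : ℝ → ℂ := fun θ => Complex.exp (-(Complex.I * q * ((2 * Real.pi / ω : ℝ) : ℂ) * θ)) with hχ
  have hχc : Continuous χ := by
    rw [hχ]
    fun_prop
  have hχn : ∀ θ, ‖χ θ‖ = 1 := fun θ => Hol.norm_chK_real ω q θ
  -- the first assertion
  have c1 : ∀ w : ℝ, Eter G Γ ω q Z (fun v => ((w * Γ.mulVec η v : ℝ) : ℂ)) = ((1 / ω : ℝ) : ℂ) * ∫ θ in (0 : ℝ)..ω,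
      χ θ * ∫ ψ, (Real.exp (w * (η ⬝ᵥ ψ) - w ^ 2 * σ / 2) : ℂ) * Z (toC fun v => ψ v + θ) ∂μ := by
    intro w
    unfold Eter
    congr 1
    refine intervalIntegral.integral_congr fun θ _ => ?_
    show χ θ * conv Γ Z (fun v => ((w * Γ.mulVec η v : ℝ) : ℂ) + (θ : ℂ)) = _
    rw [rdo_cm_conv Γ hΓ η Z w θ]
  refine ⟨c1, ?_⟩
  -- the product space
  set ν : Measure (ℝ × (G.V → ℝ)) := ((volume : Measure ℝ).restrict (Set.Ioc 0 ω)).prod μ with hν
  set Φ : ℝ × (G.V → ℝ) → ℂ := fun x => ((1 / ω : ℝ) : ℂ) * χ x.1 * Z (toC fun v => x.2 v + x.1) with hΦ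
  set l : ℝ × (G.V → ℝ) → ℝ := fun x => η ⬝ᵥ x.2 with hl
  have hsh : Continuous fun x : ℝ × (G.V → ℝ) => (fun v => x.2 v + x.1 : G.V → ℝ) :=
    continuous_pi fun v => ((continuous_apply v).comp continuous_snd).add continuous_fst
  have hΦc : Continuous Φ := (continuous_const.mul (hχc.comp continuous_fst)).mul (hc.comp hsh)
  have hlc : Continuous l := (Hol.dot_continuous η).comp continuous_snd
  have hΦn : ∀ x, ‖Φ x‖ ≤ 1 / ω * C * D x.2 := by
    intro x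
    simp only [hΦ]
    rw [norm_mul, norm_mul, hχn, mul_one, Complex.norm_real, Real.norm_of_nonneg (by positivity), mul_assoc]
    refine mul_le_mul_of_nonneg_left ?_ (by positivity)
    have := hZ fun v => x.2 v + x.1
    rwa [hDc] at this
  have hb : Integrable (fun x => ‖Φ x‖ * Real.exp (1 * |l x|)) ν := by
    have hbc : Continuous fun x => ‖Φ x‖ * Real.exp (1 * |l x|) :=
      hΦc.norm.mul (Real.continuous_exp.comp (continuous_const.mul hlc.abs))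
    refine ⟨hbc.aestronglyMeasurable, ?_⟩
    rw [HasFiniteIntegral, lintegral_prod _ hbc.enorm.measurable.aemeasurable]  -- Tonelli for the continuous integrand
    have h1 : ∀ θ : ℝ, ∫⁻ ψ, ‖‖Φ (θ, ψ)‖ * Real.exp (1 * |l (θ, ψ)|)‖ₑ ∂μ
        ≤ ENNReal.ofReal (1 / ω * C) * ∫⁻ ψ, ENNReal.ofReal (Real.exp |η ⬝ᵥ ψ| * D ψ) ∂μ := by
      intro θ
      rw [← lintegral_const_mul' _ _ ENNReal.ofReal_ne_top]
      refine lintegral_mono fun ψ => ?_
      rw [← ENNReal.ofReal_mul (by positivity), ← ofReal_norm, norm_mul, norm_norm, Real.norm_of_nonneg (Real.exp_pos _).le]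
      refine ENNReal.ofReal_le_ofReal ?_
      calc ‖Φ (θ, ψ)‖ * Real.exp (1 * |l (θ, ψ)|) ≤ (1 / ω * C * D ψ) * Real.exp (1 * |l (θ, ψ)|) :=
            mul_le_mul_of_nonneg_right (hΦn (θ, ψ)) (Real.exp_pos _).le
        _ = 1 / ω * C * (Real.exp |η ⬝ᵥ ψ| * D ψ) := by
            simp only [hl, one_mul]
            ring
    refine lt_of_le_of_lt (lintegral_mono h1) ?_
    rw [lintegral_const, Measure.restrict_apply MeasurableSet.univ, Set.univ_inter, Real.volume_Ioc]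
    exact ENNReal.mul_lt_top (ENNReal.mul_lt_top ENNReal.ofReal_lt_top (lt_top_iff_ne_top.2 hint)) ENNReal.ofReal_lt_top
  obtain ⟨hH, dH, d2H⟩ := rdo_mgf ν Φ l 1 one_pos hΦc.aestronglyMeasurable hlc.measurable.aemeasurable hb
  set H : ℂ → ℂ := fun z => ∫ x, Φ x * Complex.exp (z * l x) ∂ν with hHdef
  -- integrability against weights of exponential type one
  have hdom : ∀ (a : (G.V → ℝ) → ℂ) (M : ℝ), Continuous a → (∀ ψ, ‖a ψ‖ ≤ M * Real.exp |η ⬝ᵥ ψ|) →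
      Integrable (fun x => Φ x * a x.2) ν := by
    intro a M ha hM
    refine (hb.const_mul M).mono' (hΦc.mul (ha.comp continuous_snd)).aestronglyMeasurable
      (Eventually.of_forall fun x => ?_)
    rw [norm_mul]
    calc ‖Φ x‖ * ‖a x.2‖ ≤ ‖Φ x‖ * (M * Real.exp |η ⬝ᵥ x.2|) :=
          mul_le_mul_of_nonneg_left (hM _) (norm_nonneg _)
      _ = M * (‖Φ x‖ * Real.exp (1 * |l x|)) := by
          simp only [hl, one_mul]
          ring
  have key : ∀ (a : (G.V → ℝ) → ℂ) (M : ℝ), Continuous a → (∀ ψ, ‖a ψ‖ ≤ M * Real.exp |η ⬝ᵥ ψ|) →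
      ((1 / ω : ℝ) : ℂ) * ∫ θ in (0 : ℝ)..ω, χ θ * ∫ ψ, a ψ * Z (toC fun v => ψ v + θ) ∂μ
        = ∫ x, Φ x * a x.2 ∂ν := by
    intro a M ha hM
    rw [hν, integral_prod _ (hdom a M ha hM), intervalIntegral.integral_of_le hω.le, ← integral_const_mul]
    refine integral_congr_ae (Eventually.of_forall fun θ => ?_)
    show ((1 / ω : ℝ) : ℂ) * (χ θ * ∫ ψ, a ψ * Z (toC fun v => ψ v + θ) ∂μ) = ∫ ψ, Φ (θ, ψ) * a ψ ∂μ
    rw [← integral_const_mul, ← integral_const_mul]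
    refine integral_congr_ae (Eventually.of_forall fun ψ => ?_)
    simp only [hΦ]
    ring
  set Ez : ℂ → ℂ := fun z => Complex.exp (-(z ^ 2 * (σ : ℂ) / 2)) with hEz
  have hEzd : Differentiable ℂ Ez := by
    rw [hEz]
    fun_prop
  have hdotc : Continuous fun ψ : G.V → ℝ => η ⬝ᵥ ψ := Hol.dot_continuous η
  -- the functional is the restriction of a holomorphic function
  have hg : ∀ w : ℝ, |w| ≤ 1 →
      Eter G Γ ω q Z (fun v => ((w * Γ.mulVec η v : ℝ) : ℂ)) = (Ez * H) (w : ℂ) := by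
    intro w hw
    rw [c1 w, key (fun ψ => (Real.exp (w * (η ⬝ᵥ ψ) - w ^ 2 * σ / 2) : ℂ)) (Real.exp (-(w ^ 2 * σ / 2)))
      (Complex.continuous_ofReal.comp (Real.continuous_exp.comp
        ((continuous_const.mul hdotc).sub continuous_const))) ?_]
    · show _ = Ez w * H w
      simp only [hHdef, hEz]
      rw [← integral_const_mul]
      refine integral_congr_ae (Eventually.of_forall fun x => ?_)
      simp only [hl]
      rw [mul_left_comm, ← Complex.exp_add, Complex.ofReal_exp]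
      congr 2
      push_cast
      ring
    · intro ψ
      rw [Complex.norm_real, Real.norm_of_nonneg (Real.exp_pos _).le, ← Real.exp_add]
      apply Real.exp_le_exp.2
      have h1 : w * (η ⬝ᵥ ψ) ≤ |η ⬝ᵥ ψ| := by
        calc w * (η ⬝ᵥ ψ) ≤ |w * (η ⬝ᵥ ψ)| := le_abs_self _
          _ = |w| * |η ⬝ᵥ ψ| := abs_mul _ _
          _ ≤ 1 * |η ⬝ᵥ ψ| := mul_le_mul_of_nonneg_right hw (abs_nonneg _)
          _ = _ := one_mul _
      linarith
  have hFd : DifferentiableOn ℂ (Ez * H) (Metric.ball 0 1) := hEzd.differentiableOn.mul hH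
  have hev : (fun w : ℝ => Eter G Γ ω q Z (fun v => ((w * Γ.mulVec η v : ℝ) : ℂ)))
      =ᶠ[𝓝 0] fun w : ℝ => (Ez * H) (w : ℂ) := by
    have : ∀ᶠ w : ℝ in 𝓝 0, |w| < 1 :=
      (continuous_abs.tendsto (0 : ℝ)).eventually (gt_mem_nhds (show |(0 : ℝ)| < 1 by simp))
    filter_upwards [this] with w hw
    exact hg w hw.le
  have hHcd : ContDiffAt ℂ 2 H 0 :=
    (hH.contDiffOn Metric.isOpen_ball).contDiffAt (Metric.ball_mem_nhds 0 one_pos)
  have hEcd : ContDiffAt ℂ 2 Ez 0 := hEzd.contDiff.contDiffAt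
  constructor
  · rw [hev.iteratedDeriv_eq 2, (rdo_real_deriv (Ez * H) 1 one_pos hFd).2, iteratedDeriv_mul hEcd hHcd]
    obtain ⟨g1, g2⟩ := rdo_cm_gaussfac (σ : ℂ)
    simp only [Finset.sum_range_succ, Finset.sum_range_zero, iteratedDeriv_zero, iteratedDeriv_one,
      Nat.sub_self, Nat.sub_zero]
    rw [g1, g2, d2H]
    have hE0 : Ez 0 = 1 := by simp [hEz]
    have hH0 : H 0 = ∫ x, Φ x * (fun _ : G.V → ℝ => (1 : ℂ)) x.2 ∂ν := by simp [hHdef]
    have i1 := hdom (fun _ => (1 : ℂ)) 1 continuous_const (fun ψ => by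
      rw [norm_one, one_mul]
      exact Real.one_le_exp (abs_nonneg _))
    have i2 := hdom (fun ψ => (((η ⬝ᵥ ψ) ^ 2 : ℝ) : ℂ)) 2
      (Complex.continuous_ofReal.comp (hdotc.pow 2)) (fun ψ => by
      rw [Complex.norm_real, Real.norm_of_nonneg (sq_nonneg _)]
      exact rdo_cm_sq_le _)
    rw [key (fun ψ => (((η ⬝ᵥ ψ) ^ 2 - σ : ℝ) : ℂ)) (2 + |σ|)
      (Complex.continuous_ofReal.comp ((hdotc.pow 2).sub continuous_const)) ?_]
    · have e : ∀ x : ℝ × (G.V → ℝ), Φ x * (((η ⬝ᵥ x.2) ^ 2 - σ : ℝ) : ℂ)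
          = Φ x * (((η ⬝ᵥ x.2) ^ 2 : ℝ) : ℂ) - (σ : ℂ) * (Φ x * (1 : ℂ)) := by
        intro x
        push_cast
        ring
      simp only [e]
      rw [integral_sub i2 (i1.const_mul _), integral_const_mul, hE0, hH0]
      have e2 : ∀ x : ℝ × (G.V → ℝ), Φ x * (l x : ℂ) ^ 2 = Φ x * (((η ⬝ᵥ x.2) ^ 2 : ℝ) : ℂ) := by
        intro x
        simp only [hl]
        push_cast
        ring
      simp only [e2]
      norm_num
      ring
    · intro ψ
      rw [Complex.norm_real, Real.norm_eq_abs]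
      have h1 := rdo_cm_sq_le (η ⬝ᵥ ψ)
      have h2 : (1 : ℝ) ≤ Real.exp |η ⬝ᵥ ψ| := Real.one_le_exp (abs_nonneg _)
      calc |(η ⬝ᵥ ψ) ^ 2 - σ| ≤ |(η ⬝ᵥ ψ) ^ 2| + |σ| := abs_sub _ _
        _ = (η ⬝ᵥ ψ) ^ 2 + |σ| := by rw [abs_of_nonneg (sq_nonneg _)]
        _ ≤ 2 * Real.exp |η ⬝ᵥ ψ| + |σ| * Real.exp |η ⬝ᵥ ψ| := by
            have := mul_le_mul_of_nonneg_left h2 (abs_nonneg σ)
            linarith
        _ = _ := by ring
  · have hF2 : ContDiffAt ℂ 2 (Ez * H) ((Complex.ofRealCLM : ℝ → ℂ) 0) := by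
      have h0 : ((Complex.ofRealCLM : ℝ → ℂ) 0) = 0 := by simp
      rw [h0]
      exact hEcd.mul hHcd
    have := (hF2.restrict_scalars ℝ).comp (0 : ℝ) Complex.ofRealCLM.contDiff.contDiffAt
    exact this.congr_of_eventuallyEq hev

end cm

/-- `L-RDO-T5` Cameron-Martin form of the terminal functional and its second source derivative.  `Z` = any function which is continuous on real fields and dominated there by `C Dom`.
(`2 ≤ D₀`: on the one-point torus `q_n = 1` is not in the range of `Γ`; `0 ≤ C`: `Dom` has no sign when `A < 0`.) -/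
theorem rdo_cm_formula (hF : K.F = Fam.entry) (_hℓ : 1 ≤ K.s.ℓ) (hD : 2 ≤ K.s.D0) (hω : 0 < K.p.ω) (h : ℕ) (hp : 0 < pG K h h) (q : ℤ) (Z : Fn (K.s.T h)) (C : ℝ) (hC : 0 ≤ C)
    (hc : Continuous fun φ : (K.s.T h).V → ℝ => Z (toC φ))
    (hZ : ∀ φ : (K.s.T h).V → ℝ, ‖Z (toC φ)‖ ≤ C * Dom (K.s.lev h h) K.p (𝓡.V h h) φ)
    (hint : ∫⁻ ψ, ENNReal.ofReal (Real.exp |etaQ K h h ⬝ᵥ ψ| * Dom (K.s.lev h h) K.p (𝓡.V h h) ψ) ∂(gauss (K.s.T h) (Gge K h h)) ≠ ⊤) :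
    (∀ w : ℝ, Eter (K.s.T h) (Gge K h h) K.p.ω q Z (bg _ w) = ((1 / K.p.ω : ℝ) : ℂ) * ∫ θ in (0 : ℝ)..K.p.ω,
        Complex.exp (-(Complex.I * q * ((2 * Real.pi / K.p.ω : ℝ) : ℂ) * θ)) *
          ∫ ψ, (Real.exp (w * (etaQ K h h ⬝ᵥ ψ) - w ^ 2 * sigQ K h h / 2) : ℂ) * Z (toC fun v => ψ v + θ) ∂(gauss (K.s.T h) (Gge K h h))) ∧
    iteratedDeriv 2 (fun w : ℝ => Eter (K.s.T h) (Gge K h h) K.p.ω q Z (bg _ w)) 0 = ((1 / K.p.ω : ℝ) : ℂ) * ∫ θ in (0 : ℝ)..K.p.ω,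
        Complex.exp (-(Complex.I * q * ((2 * Real.pi / K.p.ω : ℝ) : ℂ) * θ)) *
          ∫ ψ, (((etaQ K h h ⬝ᵥ ψ) ^ 2 - sigQ K h h : ℝ) : ℂ) * Z (toC fun v => ψ v + θ) ∂(gauss (K.s.T h) (Gge K h h)) ∧
    ContDiffAt ℝ 2 (fun w : ℝ => Eter (K.s.T h) (Gge K h h) K.p.ω q Z (bg _ w)) 0 := by
  have hu : 1 ≤ K.s.L ^ h := Nat.pow_pos K.s.L_pos
  have hT : IsTerminal (K.s.T h) K.F (K.s.L ^ h) (Gge K h h) := by
    have hex : ∃ Γ, IsTerminal (K.s.T h) K.F (K.s.L ^ h) Γ := by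
      rw [hF]
      exact B4.exists_terminal (K.s.T h) Fam.entry B4.entry_adm _ hu
    unfold Gge termCov
    rw [dif_pos hex]
    exact hex.choose_spec
  have hM : 2 ≤ (K.s.T h).M := by
    show 2 ≤ K.s.D0 * K.s.L ^ h
    calc 2 ≤ K.s.D0 := hD
      _ = K.s.D0 * 1 := (mul_one _).symm
      _ ≤ K.s.D0 * K.s.L ^ h := Nat.mul_le_mul_left _ hu
  have hη : (Gge K h h).mulVec (etaQ K h h) = cos1 (K.s.T h) :=
    rdo_term_eta rfl hM K.F (K.s.L ^ h) (Gge K h h) hT hp.ne'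
  have hDc : ∀ (φ : (K.s.T h).V → ℝ) (c : ℝ),
      Dom (K.s.lev h h) K.p (𝓡.V h h) (fun v => φ v + c) = Dom (K.s.lev h h) K.p (𝓡.V h h) φ := by
    intro φ c
    unfold Dom
    simp only [Hol.Wt_add_const]
  have := rdo_cm_abs (Gge K h h) hT.psd (etaQ K h h) K.p.ω hω q Z _ hDc C hC hc hZ hint
  rw [hη] at this
  exact this

/-! ## D. The package of the terminal functionals -/

/-- everything about `g_0`, `g_c` on the ball of radius `ρ`; `σ` = half-period translation of the torus remainders -/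
structure GOK (h : ℕ) (σ : K.To 𝓡 h h →L[ℂ] K.To 𝓡 h h) (ρ C : ℝ) : Prop where
  D_an : DifferentiableOn ℂ (fun X => gq K 𝓡 h 0 X 0) (Metric.ball 0 ρ)
  D_bd : ∀ X ∈ Metric.ball (0 : (ℂ × ℂ) × K.To 𝓡 h h) ρ, ∀ w : ℝ, |w| ≤ 1 → ‖gq K 𝓡 h 0 X w - 1‖ ≤ 1 / 2
  D_zero : ∀ w : ℝ, gq K 𝓡 h 0 0 w = 1
  N_an : DifferentiableOn ℂ (fun X => iteratedDeriv 2 (gq K 𝓡 h 0 X) 0) (Metric.ball 0 ρ)
  N_bd : ∀ X ∈ Metric.ball (0 : (ℂ × ℂ) × K.To 𝓡 h h) ρ, ‖iteratedDeriv 2 (gq K 𝓡 h 0 X) 0‖ ≤ C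
  N_zero : iteratedDeriv 2 (gq K 𝓡 h 0 0) 0 = 0
  c_an : ∀ w : ℝ, |w| ≤ 1 → DifferentiableOn ℂ (fun X => gc K 𝓡 h X w) (Metric.ball 0 ρ)
  c_bd : ∀ w : ℝ, |w| ≤ 1 → ∀ X ∈ Metric.ball (0 : (ℂ × ℂ) × K.To 𝓡 h h) ρ, ‖gc K 𝓡 h X w‖ ≤ C
  c_zero : ∀ w : ℝ, gc K 𝓡 h 0 w = 0
  par0 : ∀ X (w : ℝ), gq K 𝓡 h 0 (Flow.parX σ X) w = gq K 𝓡 h 0 X w
  parc : ∀ X (w : ℝ), gc K 𝓡 h (Flow.parX σ X) w = -gc K 𝓡 h X w
  dz : ∀ w : ℝ, |w| ≤ 1 → HasDerivAt (fun s : ℂ => gc K 𝓡 h ((0, s), 0) w) ((K.kP h * aveCos (K.s.T h) (Step.alpha K.p.ω * w) : ℝ) : ℂ) 0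
  /-- evenness: `B8b`'s phase read-out (charge `1` only) is ours -/
  q_even : ∀ X, gq K 𝓡 h (-1) X 0 = gq K 𝓡 h 1 X 0
  /-- evenness in the source (`ψ ↦ -ψ`, `θ ↦ -θ`; all activities are even) -/
  w_even : ∀ X (w : ℝ), gq K 𝓡 h 0 X (-w) = gq K 𝓡 h 0 X w
  /-- smoothness in the real source at `0` -/
  w_cd : ∀ X ∈ Metric.ball (0 : (ℂ × ℂ) × K.To 𝓡 h h) ρ, ContDiffAt ℝ 2 (gq K 𝓡 h 0 X) 0

/-! ### helpers of `L-RDO-T6` -/

theorem rdo_t6_neg_one_zpow (q : ℤ) : (-1 : ℂ) ^ q = (-1 : ℂ) ^ q.natAbs := by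
  rcases Int.natAbs_eq q with h | h
  · conv_lhs => rw [h]
    exact zpow_natCast _ _
  · conv_lhs => rw [h]
    rw [zpow_neg, zpow_natCast, ← inv_pow]
    norm_num

theorem rdo_t6_real_mem_strip {G : Geom} (h0 : ℝ≥0) (hh : 0 < h0) (g : Grid G) (X : Finset g.I) (φ : G.V → ℝ) : toC φ ∈ strip h0 g X := by
  show tnorm g X (fun v => (toC φ v).im) < h0
  have : (fun v => (toC φ v).im) = (0 : G.V → ℝ) := by
    funext v
    simp [toC]
  rw [this, Hol.tnorm_zero]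
  exact hh

theorem rdo_t6_single_singleton {G : Geom} (g : Grid G) (α : ℝ) (t z : ℂ) (B : g.I) : single g α t z {B} = (t / 2) • eBC g B + z • cBC g α B := by
  unfold single
  rw [Finset.sum_eq_single B]
  · simp
  · intro B' _ hB'
    rw [if_neg]
    intro h
    exact hB' (Finset.singleton_injective h).symm
  · intro h; exact absurd (Finset.mem_univ B) h

theorem rdo_t6_single_of_ne {G : Geom} (g : Grid G) (α : ℝ) (t z : ℂ) (X : Finset g.I) (h : ∀ B, X ≠ {B}) : single g α t z X = 0 := by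
  unfold single
  exact Finset.sum_eq_zero fun B _ => if_neg (h B)

theorem rdo_t6_eBC_const {G : Geom} (g : Grid G) (B : g.I) (z : G.V → ℂ) (a : ℂ) : eBC g B (fun v => z v + a) = eBC g B z := by
  unfold eBC dif Geom.lift
  congr 1
  refine Finset.sum_congr rfl fun v _ => Finset.sum_congr rfl fun e _ => ?_
  rw [add_sub_add_right_eq_sub]

theorem rdo_t6_cBC_half {G : Geom} (g : Grid G) (ω : ℝ) (hω : 0 < ω) (B : g.I) (z : G.V → ℂ) :
    cBC g (Step.alpha ω) B (fun v => z v + ((ω / 2 : ℝ) : ℂ)) = -cBC g (Step.alpha ω) B z := by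
  unfold cBC
  rw [← mul_neg, ← Finset.sum_neg_distrib]
  congr 1
  refine Finset.sum_congr rfl fun v _ => ?_
  rw [← Complex.cos_add_pi]
  congr 1
  have hω' : (ω : ℂ) ≠ 0 := by exact_mod_cast hω.ne'
  unfold Step.alpha
  push_cast
  field_simp

theorem rdo_t6_cBC_per {G : Geom} (g : Grid G) (ω : ℝ) (hω : 0 < ω) (B : g.I) (z : G.V → ℂ) :
    cBC g (Step.alpha ω) B (fun v => z v + (ω : ℂ)) = cBC g (Step.alpha ω) B z := by
  unfold cBC
  congr 1
  refine Finset.sum_congr rfl fun v _ => ?_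
  rw [← Complex.cos_add_two_pi (↑(Step.alpha ω) * z v)]
  congr 1
  have hω' : (ω : ℂ) ≠ 0 := by exact_mod_cast hω.ne'
  unfold Step.alpha
  push_cast
  field_simp

theorem rdo_t6_single_half {G : Geom} (g : Grid G) (ω : ℝ) (hω : 0 < ω) (t z : ℂ) (X : Finset g.I) (w : G.V → ℂ) :
    single g (Step.alpha ω) t (-z) X w = single g (Step.alpha ω) t z X (fun v => w v + ((ω / 2 : ℝ) : ℂ)) := by
  by_cases h : ∃ B, X = {B}
  · obtain ⟨B, rfl⟩ := h
    rw [rdo_t6_single_singleton, rdo_t6_single_singleton]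
    simp only [Pi.add_apply, Pi.smul_apply, rdo_t6_eBC_const, rdo_t6_cBC_half g ω hω, smul_eq_mul]
    ring
  · rw [rdo_t6_single_of_ne _ _ _ _ _ fun B hB => h ⟨B, hB⟩, rdo_t6_single_of_ne _ _ _ _ _ fun B hB => h ⟨B, hB⟩]; rfl

theorem rdo_t6_single_per {G : Geom} (g : Grid G) (ω : ℝ) (hω : 0 < ω) (t z : ℂ) (X : Finset g.I) (w : G.V → ℂ) :
    single g (Step.alpha ω) t z X (fun v => w v + (ω : ℂ)) = single g (Step.alpha ω) t z X w := by
  by_cases h : ∃ B, X = {B}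
  · obtain ⟨B, rfl⟩ := h
    rw [rdo_t6_single_singleton]
    simp only [Pi.add_apply, Pi.smul_apply, rdo_t6_eBC_const, rdo_t6_cBC_per g ω hω, smul_eq_mul]
  · rw [rdo_t6_single_of_ne _ _ _ _ _ fun B hB => h ⟨B, hB⟩]; rfl

theorem rdo_t6_ZA_congr {G : Geom} (g : Grid G) (R : ℕ) (K K' : Act g) (z z' : G.V → ℂ) (h : ∀ Y, K Y z = K' Y z') :
    ZA g R K z = ZA g R K' z' := by
  unfold ZA
  rw [Finset.sum_apply, Finset.sum_apply]
  refine Finset.sum_congr rfl fun V _ => ?_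
  rw [Finset.prod_apply, Finset.prod_apply]
  exact Finset.prod_congr rfl fun Y _ => h Y

/-- abstract half-period parity of `Eter` at a real background -/
theorem rdo_t6_Eter_par {G : Geom} (Γ : Matrix G.V G.V ℝ) (ω : ℝ) (hω : 0 < ω) (q : ℤ) (Z Z' : Fn G) (Fb : G.V → ℝ)
    (hhalf : ∀ φ : G.V → ℝ, Z' (toC φ) = Z (toC fun v => φ v + ω / 2))
    (hper : ∀ φ : G.V → ℝ, Z (toC fun v => φ v + ω) = Z (toC φ)) :
    Eter G Γ ω q Z' (toC Fb) = (-1 : ℂ) ^ q.natAbs * Eter G Γ ω q Z (toC Fb) := by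
  have hω' : (ω : ℂ) ≠ 0 := by exact_mod_cast hω.ne'
  obtain ⟨Φ, hΦ⟩ : ∃ Φ : ℝ → ℂ, ∀ θ, Φ θ = conv Γ Z fun v => toC Fb v + (θ : ℂ) := ⟨_, fun _ => rfl⟩
  have hreal : ∀ (θ : ℝ) (ζ : G.V → ℝ), ((fun v => toC Fb v + (θ : ℂ)) + toC ζ) = toC fun v => Fb v + θ + ζ v := by
    intro θ ζ
    funext v
    simp [toC]
  have h1 : ∀ θ : ℝ, (conv Γ Z' fun v => toC Fb v + (θ : ℂ)) = Φ (θ + ω / 2) := by
    intro θ
    rw [hΦ]
    unfold conv
    refine integral_congr_ae (Filter.Eventually.of_forall fun ζ => ?_)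
    show Z' _ = Z _
    rw [hreal, hreal, hhalf]
    congr 1
    funext v
    simp only [toC]
    push_cast
    ring
  have h2 : Function.Periodic Φ ω := by
    intro θ
    rw [hΦ, hΦ]
    unfold conv
    refine integral_congr_ae (Filter.Eventually.of_forall fun ζ => ?_)
    show Z _ = Z _
    rw [hreal, hreal, ← hper (fun v => Fb v + θ + ζ v)]
    congr 1
    funext v
    simp only [toC]
    push_cast
    ring
  obtain ⟨f, hf⟩ : ∃ f : ℝ → ℂ, ∀ θ, f θ = Complex.exp (-(Complex.I * q * ((2 * Real.pi / ω : ℝ) : ℂ) * θ)) * Φ θ := ⟨_, fun _ => rfl⟩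
  have hfper : Function.Periodic f ω := by
    intro θ
    rw [hf, hf, h2 θ]
    congr 1
    have : -(Complex.I * q * ((2 * Real.pi / ω : ℝ) : ℂ) * ((θ + ω : ℝ) : ℂ))
        = -(Complex.I * q * ((2 * Real.pi / ω : ℝ) : ℂ) * θ) + ((-q : ℤ) : ℂ) * (2 * Real.pi * Complex.I) := by
      push_cast
      field_simp
      ring
    rw [this, Complex.exp_add, Complex.exp_int_mul_two_pi_mul_I, mul_one]
  have hshift : ∀ θ : ℝ, Complex.exp (-(Complex.I * q * ((2 * Real.pi / ω : ℝ) : ℂ) * θ)) * Φ (θ + ω / 2)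
      = (-1 : ℂ) ^ q.natAbs * f (θ + ω / 2) := by
    intro θ
    rw [hf, ← mul_assoc]
    congr 1
    have : -(Complex.I * q * ((2 * Real.pi / ω : ℝ) : ℂ) * θ)
        = (q : ℂ) * (Real.pi * Complex.I) + -(Complex.I * q * ((2 * Real.pi / ω : ℝ) : ℂ) * ((θ + ω / 2 : ℝ) : ℂ)) := by
      push_cast
      field_simp
      ring
    rw [this, Complex.exp_add, Complex.exp_int_mul, Complex.exp_pi_mul_I, rdo_t6_neg_one_zpow]
  unfold Eter
  simp only [h1, hshift, ← hΦ, ← hf]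
  rw [intervalIntegral.integral_const_mul, intervalIntegral.integral_comp_add_right (fun θ => f θ) (ω / 2)]
  have h3 := hfper.intervalIntegral_add_eq (0 + ω / 2) 0
  have h4 : (0 : ℝ) + ω / 2 + ω = ω + ω / 2 := by ring
  rw [h4, zero_add (ω : ℝ)] at h3
  rw [h3]
  ring

/-- `L-RDO-T6` half-period parity of the functionals, any level -/
theorem rdo_g_par (hω : 0 < K.p.ω) (hh : 0 < K.p.h0) (hA : 0 < K.p.A) (h : ℕ) (σ : K.To 𝓡 h h →L[ℂ] K.To 𝓡 h h)
    (hσ : ∀ a, EqOn K.p.h0 (K.toAct 𝓡 (σ a)) (halfShift K.p.ω (K.toAct 𝓡 a))) (q : ℤ) (X : (ℂ × ℂ) × K.To 𝓡 h h) (w : ℝ) :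
    gq K 𝓡 h q (Flow.parX σ X) w = (-1 : ℂ) ^ q.natAbs * gq K 𝓡 h q X w := by
  have hbg : bg (K.s.T h) w = toC fun v => w * cos1 (K.s.T h) v := rfl
  unfold gq
  rw [hbg]
  refine rdo_t6_Eter_par _ _ hω q _ _ _ ?_ ?_
  · intro φ
    rw [Zlev_eq, Zlev_eq]
    refine rdo_t6_ZA_congr _ _ _ _ _ _ fun Y => ?_
    have e : (toC fun v => φ v + K.p.ω / 2) = fun v => toC φ v + ((K.p.ω / 2 : ℝ) : ℂ) := by
      funext v
      simp [toC]
    rw [e]
    show single _ _ X.1.1 (-X.1.2) Y (toC φ) + K.toAct 𝓡 (σ X.2) Y (toC φ)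
      = single _ _ X.1.1 X.1.2 Y _ + K.toAct 𝓡 X.2 Y _
    rw [rdo_t6_single_half _ _ hω, hσ X.2 Y _ (rdo_t6_real_mem_strip _ hh _ _ φ)]
    rfl
  · intro φ
    rw [Zlev_eq]
    refine rdo_t6_ZA_congr _ _ _ _ _ _ fun Y => ?_
    have e : (toC fun v => φ v + K.p.ω) = fun v => toC φ v + (K.p.ω : ℂ) := by
      funext v
      simp [toC]
    rw [e]
    show single _ _ X.1.1 X.1.2 Y _ + K.toAct 𝓡 X.2 Y _
      = single _ _ X.1.1 X.1.2 Y (toC φ) + K.toAct 𝓡 X.2 Y (toC φ)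
    rw [rdo_t6_single_per _ _ hω]
    congr 1
    exact ((actSp_act K.p hA K.c.col K.c.R (K.s.lev h h) (𝓡.gs h) (𝓡.V h h) X.2).1.ok.fn Y).per _ (rdo_t6_real_mem_strip _ hh _ _ φ)

/-- continuous and bounded on the real fields -/
def rdo_dz_Nice {G : Geom} (F : Fn G) : Prop :=
  Continuous (fun φ : G.V → ℝ => F (toC φ)) ∧ ∃ C : ℝ, ∀ φ : G.V → ℝ, ‖F (toC φ)‖ ≤ C

theorem rdo_dz_real {G : Geom} (w θ : ℝ) (ζ : G.V → ℝ) :
    (fun v => bg G w v + (θ : ℂ)) + toC ζ = toC fun v => w * cos1 G v + θ + ζ v := by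
  funext v
  simp [toC, bg]

theorem rdo_dz_int {G : Geom} (Γ : Matrix G.V G.V ℝ) {F : Fn G} (hF : rdo_dz_Nice F) (w θ : ℝ) :
    Integrable (fun ζ : G.V → ℝ => F ((fun v => bg G w v + (θ : ℂ)) + toC ζ)) (gauss G Γ) := by
  obtain ⟨hc, C, hC⟩ := hF
  simp only [rdo_dz_real]
  refine Integrable.of_bound ?_ C (Filter.Eventually.of_forall fun ζ => hC _)
  exact (hc.comp (by fun_prop)).aestronglyMeasurable

theorem rdo_dz_cont {G : Geom} (Γ : Matrix G.V G.V ℝ) {F : Fn G} (hF : rdo_dz_Nice F) (w : ℝ) :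
    Continuous fun θ : ℝ => conv Γ F fun v => bg G w v + (θ : ℂ) := by
  obtain ⟨hc, C, hC⟩ := hF
  unfold conv
  simp only [rdo_dz_real]
  refine continuous_of_dominated (bound := fun _ => C) (fun θ => ?_) (fun θ => Filter.Eventually.of_forall fun ζ => hC _)
    (integrable_const _) (Filter.Eventually.of_forall fun ζ => ?_)
  · exact (hc.comp (by fun_prop)).aestronglyMeasurable
  · exact hc.comp (by fun_prop)

theorem rdo_dz_eter_sum {G : Geom} (Γ : Matrix G.V G.V ℝ) (ω : ℝ) (q : ℤ) (w : ℝ) {ι : Type} (S : Finset ι) (c : ι → ℂ) (F : ι → Fn G)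
    (hF : ∀ i ∈ S, rdo_dz_Nice (F i)) :
    Eter G Γ ω q (fun z => ∑ i ∈ S, c i * F i z) (bg G w) = ∑ i ∈ S, c i * Eter G Γ ω q (F i) (bg G w) := by
  unfold Eter
  have h1 : ∀ θ : ℝ, conv Γ (fun z => ∑ i ∈ S, c i * F i z) (fun v => bg G w v + (θ : ℂ))
      = ∑ i ∈ S, c i * conv Γ (F i) fun v => bg G w v + (θ : ℂ) := by
    intro θ
    unfold conv
    rw [integral_finsetSum _ fun i hi => (rdo_dz_int Γ (hF i hi) w θ).const_mul (c i)]
    exact Finset.sum_congr rfl fun i _ => integral_const_mul _ _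
  simp only [h1, Finset.mul_sum]
  rw [intervalIntegral.integral_finsetSum]
  · rw [Finset.mul_sum]
    refine Finset.sum_congr rfl fun i _ => ?_
    rw [← intervalIntegral.integral_const_mul, ← intervalIntegral.integral_const_mul, ← intervalIntegral.integral_const_mul]
    refine intervalIntegral.integral_congr fun θ _ => ?_
    ring
  · intro i hi
    refine Continuous.intervalIntegrable ?_ _ _
    have := rdo_dz_cont Γ (hF i hi) w
    fun_prop

theorem rdo_dz_nice_zero {G : Geom} : rdo_dz_Nice (0 : Fn G) :=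
  ⟨continuous_const, 0, fun _ => by simp⟩

theorem rdo_dz_nice_one {G : Geom} : rdo_dz_Nice (1 : Fn G) :=
  ⟨continuous_const, 1, fun _ => by simp⟩

theorem rdo_dz_nice_mul {G : Geom} {F F' : Fn G} (h : rdo_dz_Nice F) (h' : rdo_dz_Nice F') : rdo_dz_Nice (F * F') := by
  obtain ⟨hc, C, hC⟩ := h
  obtain ⟨hc', C', hC'⟩ := h'
  refine ⟨hc.mul hc', C * C', fun φ => ?_⟩
  rw [Pi.mul_apply, norm_mul]
  exact mul_le_mul (hC φ) (hC' φ) (norm_nonneg _) ((norm_nonneg _).trans (hC φ))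

theorem rdo_dz_nice_cBC {G : Geom} (g : Grid G) (α : ℝ) (B : g.I) : rdo_dz_Nice (cBC g α B) := by
  refine ⟨?_, ‖((((g.m : ℝ) ^ 2)⁻¹ : ℝ) : ℂ)‖ * ((g.sites {B}).card : ℝ), fun φ => ?_⟩
  · unfold cBC toC
    fun_prop
  · unfold cBC
    rw [norm_mul]
    refine mul_le_mul_of_nonneg_left ((norm_sum_le _ _).trans ?_) (norm_nonneg _)
    rw [← nsmul_one, ← Finset.sum_const]
    refine Finset.sum_le_sum fun x _ => ?_
    have : Complex.cos ((α : ℂ) * toC φ x) = ((Real.cos (α * φ x) : ℝ) : ℂ) := by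
      simp [toC]
    rw [this, Complex.norm_real]
    exact Real.abs_cos_le_one _

theorem rdo_dz_single_one {G : Geom} (g : Grid G) (α : ℝ) (B : g.I) : single g α 0 1 {B} = cBC g α B := by
  rw [w_single_singleton]
  simp

theorem rdo_dz_nice_single {G : Geom} (g : Grid G) (α : ℝ) (X : Finset g.I) : rdo_dz_Nice (single g α 0 1 X) := by
  by_cases h : ∃ B, X = {B}
  · obtain ⟨B, rfl⟩ := h
    rw [rdo_dz_single_one]
    exact rdo_dz_nice_cBC g α B
  · rw [w_single_of_ne g α 0 1 X fun B hB => h ⟨B, hB⟩]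
    exact rdo_dz_nice_zero

theorem rdo_dz_nice_prod {G : Geom} (g : Grid G) (α : ℝ) (S : Finset (Finset g.I)) : rdo_dz_Nice (∏ X ∈ S, single g α 0 1 X) :=
  Finset.prod_induction _ rdo_dz_Nice (fun _ _ => rdo_dz_nice_mul) rdo_dz_nice_one fun X _ => rdo_dz_nice_single g α X

/-- the subset sum of the pure cosine activity is a polynomial in the coupling -/
theorem rdo_dz_poly {G : Geom} (g : Grid G) (R : ℕ) (α : ℝ) (s : ℂ) :
    ZA g R (single g α 0 s) = fun z => ∑ V : Finset g.I, s ^ (g.comps R V).card * (∏ X ∈ g.comps R V, single g α 0 1 X) z := by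
  have h1 : single g α 0 s = s • single g α 0 1 := by
    have := w_single_smul g α s 0 1
    rwa [mul_zero, mul_one] at this
  funext z
  unfold ZA
  rw [Finset.sum_apply]
  refine Finset.sum_congr rfl fun V _ => ?_
  rw [Finset.prod_apply, Finset.prod_apply, h1]
  simp only [Pi.smul_apply, smul_eq_mul]
  rw [Finset.prod_mul_distrib, Finset.prod_const]

/-- the derivative at `0` of a polynomial written as a sum of monomials -/
theorem rdo_dz_deriv {ι : Type} (S : Finset ι) (n : ι → ℕ) (e : ι → ℂ) :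
    HasDerivAt (fun s : ℂ => ∑ i ∈ S, s ^ n i * e i) (∑ i ∈ S, if n i = 1 then e i else 0) 0 := by
  refine HasDerivAt.fun_sum fun i _ => ?_
  have h := (hasDerivAt_pow (n i) (0 : ℂ)).mul_const (e i)
  have hv : (if n i = 1 then e i else 0) = (n i : ℂ) * 0 ^ (n i - 1) * e i := by
    rcases n i with _ | _ | k <;> simp
  rw [hv]
  exact h

theorem rdo_dz_sum_single {G : Geom} (g : Grid G) (R : ℕ) (α : ℝ) (E : Fn G → ℂ) (hE : E 0 = 0) :
    (∑ V : Finset g.I, if (g.comps R V).card = 1 then E (∏ X ∈ g.comps R V, single g α 0 1 X) else 0) = ∑ B : g.I, E (cBC g α B) := by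
  classical
  have h1 : ∑ B : g.I, E (cBC g α B) = ∑ V ∈ Finset.univ.image (fun B : g.I => ({B} : Finset g.I)),
      if (g.comps R V).card = 1 then E (∏ X ∈ g.comps R V, single g α 0 1 X) else 0 := by
    rw [Finset.sum_image fun a _ b _ h => Finset.singleton_injective h]
    refine Finset.sum_congr rfl fun B _ => ?_
    rw [Alg.comps_self (w_conn_singleton g R B), Finset.card_singleton, if_pos rfl, Finset.prod_singleton, rdo_dz_single_one]
  rw [h1]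
  symm
  refine Finset.sum_subset (Finset.subset_univ _) fun V _ hV => ?_
  split_ifs with hc
  · obtain ⟨X, hX⟩ := Finset.card_eq_one.1 hc
    have hXV : X = V := by
      have := Alg.comps_biUnion (R := R) V
      rw [hX, Finset.singleton_biUnion] at this
      exact this
    rw [hX, Finset.prod_singleton, hXV, w_single_of_ne g α 0 1 V, hE]
    intro B hB
    exact hV (Finset.mem_image.2 ⟨B, Finset.mem_univ _, hB.symm⟩)
  · rfl

theorem rdo_dz_eter_zero {G : Geom} (Γ : Matrix G.V G.V ℝ) (ω : ℝ) (q : ℤ) (Fb : G.V → ℂ) : Eter G Γ ω q 0 Fb = 0 := by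
  unfold Eter conv
  simp

/-- one site, real form: the second harmonic integrates to zero -/
theorem rdo_dz_harm (ω : ℝ) (hω : 0 < ω) (c : ℝ) :
    ∫ θ in (0 : ℝ)..ω, Real.cos (Step.alpha ω * c + 2 * Step.alpha ω * θ) = 0 := by
  have hα : Step.alpha ω * ω = 2 * Real.pi := by
    unfold Step.alpha
    field_simp
  have hα0 : 2 * Step.alpha ω ≠ 0 := by
    intro h
    have : 2 * Step.alpha ω * ω = 0 := by rw [h, zero_mul]
    have h2 := Real.pi_pos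
    nlinarith
  rw [intervalIntegral.integral_comp_add_mul _ hα0, integral_cos]
  have e : Step.alpha ω * c + 2 * Step.alpha ω * ω = Step.alpha ω * c + (2 : ℕ) * (2 * Real.pi) := by
    push_cast
    linear_combination 2 * hα
  rw [e, Real.sin_add_nat_mul_two_pi]
  simp

/-- one site: the two charges together -/
theorem rdo_dz_site (ω : ℝ) (hω : 0 < ω) (c : ℝ) :
    (∫ θ in (0 : ℝ)..ω, Complex.exp (-(Complex.I * ((1 : ℤ) : ℂ) * ((2 * Real.pi / ω : ℝ) : ℂ) * θ)) * Complex.cos ((Step.alpha ω : ℂ) * ((c : ℂ) + θ)))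
      + (∫ θ in (0 : ℝ)..ω, Complex.exp (-(Complex.I * ((-1 : ℤ) : ℂ) * ((2 * Real.pi / ω : ℝ) : ℂ) * θ)) * Complex.cos ((Step.alpha ω : ℂ) * ((c : ℂ) + θ)))
      = ((ω * Real.cos (Step.alpha ω * c) : ℝ) : ℂ) := by
  rw [← intervalIntegral.integral_add (Continuous.intervalIntegrable (by fun_prop) _ _) (Continuous.intervalIntegrable (by fun_prop) _ _)]
  have h1 : ∀ θ : ℝ, Complex.exp (-(Complex.I * ((1 : ℤ) : ℂ) * ((2 * Real.pi / ω : ℝ) : ℂ) * θ)) * Complex.cos ((Step.alpha ω : ℂ) * ((c : ℂ) + θ))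
      + Complex.exp (-(Complex.I * ((-1 : ℤ) : ℂ) * ((2 * Real.pi / ω : ℝ) : ℂ) * θ)) * Complex.cos ((Step.alpha ω : ℂ) * ((c : ℂ) + θ))
      = ((Real.cos (Step.alpha ω * c) + Real.cos (Step.alpha ω * c + 2 * Step.alpha ω * θ) : ℝ) : ℂ) := by
    intro θ
    have e1 : ((2 * Real.pi / ω : ℝ) : ℂ) = (Step.alpha ω : ℂ) := rfl
    rw [e1, ← add_mul]
    have e2 : Complex.exp (-(Complex.I * ((1 : ℤ) : ℂ) * (Step.alpha ω : ℂ) * θ)) + Complex.exp (-(Complex.I * ((-1 : ℤ) : ℂ) * (Step.alpha ω : ℂ) * θ))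
        = 2 * Complex.cos ((Step.alpha ω * θ : ℝ) : ℂ) := by
      rw [Complex.cos]
      push_cast
      ring_nf
    have e3 : Complex.cos ((Step.alpha ω : ℂ) * ((c : ℂ) + θ)) = ((Real.cos (Step.alpha ω * (c + θ)) : ℝ) : ℂ) := by
      push_cast
      rfl
    rw [e2, e3, ← Complex.ofReal_cos]
    have e4 : Real.cos (Step.alpha ω * c) + Real.cos (Step.alpha ω * c + 2 * Step.alpha ω * θ)
        = 2 * Real.cos (Step.alpha ω * θ) * Real.cos (Step.alpha ω * (c + θ)) := by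
      have a1 : Step.alpha ω * c = Step.alpha ω * (c + θ) - Step.alpha ω * θ := by ring
      have a2 : Step.alpha ω * c + 2 * Step.alpha ω * θ = Step.alpha ω * (c + θ) + Step.alpha ω * θ := by ring
      rw [a2, a1, Real.cos_sub, Real.cos_add]
      ring
    rw [e4]
    push_cast
    ring
  simp only [h1]
  rw [intervalIntegral.integral_ofReal, intervalIntegral.integral_add (Continuous.intervalIntegrable (by fun_prop) _ _)
    (Continuous.intervalIntegrable (by fun_prop) _ _), rdo_dz_harm ω hω c, intervalIntegral.integral_const]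
  simp

/-- the terminal functional of one cosine singleton -/
theorem rdo_dz_eter_cBC {G : Geom} (g : Grid G) (Γ : Matrix G.V G.V ℝ) (hΓ : Γ.PosSemidef) (γ0 : ℝ) (hd : ∀ v, Γ v v = γ0) (ω : ℝ) (q : ℤ) (w : ℝ) (B : g.I) :
    Eter G Γ ω q (cBC g (Step.alpha ω) B) (bg G w) = ((1 / ω : ℝ) : ℂ) * ((Real.exp (-Step.alpha ω ^ 2 * γ0 / 2) : ℝ) : ℂ) * ((((g.m : ℝ) ^ 2)⁻¹ : ℝ) : ℂ) *
      ∑ x ∈ g.sites {B}, ∫ θ in (0 : ℝ)..ω, Complex.exp (-(Complex.I * (q : ℂ) * ((2 * Real.pi / ω : ℝ) : ℂ) * θ)) *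
        Complex.cos ((Step.alpha ω : ℂ) * (((w * cos1 G x : ℝ) : ℂ) + θ)) := by
  unfold Eter
  simp only [w_conv_cBC g Γ hΓ γ0 hd]
  unfold cBC bg
  have h1 : ∀ θ : ℝ, Complex.exp (-(Complex.I * (q : ℂ) * ((2 * Real.pi / ω : ℝ) : ℂ) * θ)) *
      (((Real.exp (-Step.alpha ω ^ 2 * γ0 / 2) : ℝ) : ℂ) * (((((g.m : ℝ) ^ 2)⁻¹ : ℝ) : ℂ) *
        ∑ x ∈ g.sites {B}, Complex.cos ((Step.alpha ω : ℂ) * (((w * cos1 G x : ℝ) : ℂ) + θ))))
      = ∑ x ∈ g.sites {B}, (((Real.exp (-Step.alpha ω ^ 2 * γ0 / 2) : ℝ) : ℂ) * ((((g.m : ℝ) ^ 2)⁻¹ : ℝ) : ℂ)) *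
        (Complex.exp (-(Complex.I * (q : ℂ) * ((2 * Real.pi / ω : ℝ) : ℂ) * θ)) *
          Complex.cos ((Step.alpha ω : ℂ) * (((w * cos1 G x : ℝ) : ℂ) + θ))) := by
    intro θ
    simp only [Finset.mul_sum]
    refine Finset.sum_congr rfl fun x _ => ?_
    ring
  simp only [h1]
  rw [intervalIntegral.integral_finsetSum fun x _ => Continuous.intervalIntegrable (by fun_prop) _ _]
  simp only [intervalIntegral.integral_const_mul]
  rw [← Finset.mul_sum]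
  ring

theorem rdo_dz_blocks {G : Geom} (g : Grid G) {M : Type} [AddCommMonoid M] (f : G.V → M) : ∑ B : g.I, ∑ x ∈ g.sites {B}, f x = ∑ x, f x := by
  classical
  rw [← Finset.sum_fiberwise Finset.univ g.blk f]
  refine Finset.sum_congr rfl fun B _ => Finset.sum_congr ?_ fun _ _ => rfl
  unfold Grid.sites
  ext x
  simp

theorem rdo_dz_toAct_zero (K : Cfg) (𝓡 : Reg K.s) (j h : ℕ) : K.toAct 𝓡 (0 : K.To 𝓡 j h) = 0 := by
  funext X z
  simp [Cfg.toAct, Amb.act]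

theorem rdo_dz_term (G : Geom) (u : ℕ) (hu : 1 ≤ u) : IsTerminal G Fam.entry u (termCov G Fam.entry u) := by
  have h : ∃ Γ, IsTerminal G Fam.entry u Γ := Ker.ker_exists_terminal G Fam.entry Ker.ker_entry_adm u hu
  unfold termCov
  rw [dif_pos h]
  exact h.choose_spec

/-- `L-RDO-T7` the linear term of the charged functional -/
theorem rdo_g_dz (hF : K.F = Fam.entry) (hℓ : 1 ≤ K.s.ℓ) (hω : 0 < K.p.ω) (hh : 0 < K.p.h0) (hR : 1 ≤ K.c.R) (h : ℕ) (w : ℝ) :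
    HasDerivAt (fun s : ℂ => gc K 𝓡 h ((0, s), 0) w) ((K.kP h * aveCos (K.s.T h) (Step.alpha K.p.ω * w) : ℝ) : ℂ) 0 := by
  have hu : 1 ≤ K.s.L ^ h := Nat.pow_pos K.s.L_pos
  have hT : IsTerminal (K.s.T h) Fam.entry (K.s.L ^ h) (Gge K h h) := by
    unfold Gge
    rw [hF]
    exact rdo_dz_term _ _ hu
  have hdiag : ∀ v, Gge K h h v v = Gge K h h (org _) (org _) := fun v =>
    Ker.ker_sc_diag (K.s.T h) rfl (Ker.ker_terminal_mul Ker.ker_entry_adm _ hT) v (org _)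
  have hq : ∀ (q : ℤ) (s : ℂ), gq K 𝓡 h q ((0, s), 0) w = ∑ V : Finset (K.s.lev h h).I, s ^ ((K.s.lev h h).comps K.c.R V).card *
      Eter (K.s.T h) (Gge K h h) K.p.ω q (∏ X ∈ (K.s.lev h h).comps K.c.R V, single (K.s.lev h h) (Step.alpha K.p.ω) 0 1 X) (bg _ w) := by
    intro q s
    unfold gq Zlev Kof
    simp only
    rw [rdo_dz_toAct_zero, add_zero, rdo_dz_poly]
    exact rdo_dz_eter_sum _ _ _ _ _ _ _ fun V _ => rdo_dz_nice_prod _ _ _
  have hd : ∀ q : ℤ, HasDerivAt (fun s : ℂ => gq K 𝓡 h q ((0, s), 0) w)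
      (∑ B : (K.s.lev h h).I, Eter (K.s.T h) (Gge K h h) K.p.ω q (cBC (K.s.lev h h) (Step.alpha K.p.ω) B) (bg _ w)) 0 := by
    intro q
    simp only [hq]
    have h1 := rdo_dz_deriv (Finset.univ : Finset (Finset (K.s.lev h h).I)) (fun V => ((K.s.lev h h).comps K.c.R V).card)
      (fun V => Eter (K.s.T h) (Gge K h h) K.p.ω q (∏ X ∈ (K.s.lev h h).comps K.c.R V, single (K.s.lev h h) (Step.alpha K.p.ω) 0 1 X) (bg _ w))
    rw [rdo_dz_sum_single (K.s.lev h h) K.c.R (Step.alpha K.p.ω) (fun F => Eter (K.s.T h) (Gge K h h) K.p.ω q F (bg _ w))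
      (rdo_dz_eter_zero _ _ _ _)] at h1
    exact h1
  have h2 := ((hd 1).add (hd (-1))).div_const 2
  have hv : ((K.kP h * aveCos (K.s.T h) (Step.alpha K.p.ω * w) : ℝ) : ℂ)
      = ((∑ B : (K.s.lev h h).I, Eter (K.s.T h) (Gge K h h) K.p.ω 1 (cBC (K.s.lev h h) (Step.alpha K.p.ω) B) (bg _ w))
        + ∑ B : (K.s.lev h h).I, Eter (K.s.T h) (Gge K h h) K.p.ω (-1) (cBC (K.s.lev h h) (Step.alpha K.p.ω) B) (bg _ w)) / 2 := by
    simp only [rdo_dz_eter_cBC (K.s.lev h h) (Gge K h h) hT.psd _ hdiag]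
    rw [← Finset.mul_sum, ← Finset.mul_sum, rdo_dz_blocks, rdo_dz_blocks, ← mul_add, ← Finset.sum_add_distrib]
    simp only [rdo_dz_site K.p.ω hω]
    have hm : ((K.s.lev h h).m : ℝ) = (K.s.L : ℝ) ^ h := by
      show ((K.s.L ^ (min h h) : ℕ) : ℝ) = _
      rw [min_self]
      push_cast
      rfl
    have hM : ((K.s.T h).M : ℝ) = K.s.D0 * (K.s.L : ℝ) ^ h := by
      show ((K.s.D0 * K.s.L ^ h : ℕ) : ℝ) = _
      push_cast
      rfl
    have hL : (K.s.L : ℝ) ^ h ≠ 0 := by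
      have := K.s.L_pos
      positivity
    have hD : (K.s.D0 : ℝ) ≠ 0 := by
      have := K.s.hD
      positivity
    have hr : K.kP h * aveCos (K.s.T h) (Step.alpha K.p.ω * w)
        = (1 / K.p.ω * Real.exp (-Step.alpha K.p.ω ^ 2 * Gge K h h (org (K.s.T h)) (org (K.s.T h)) / 2) * (((K.s.lev h h).m : ℝ) ^ 2)⁻¹ *
          ∑ x, K.p.ω * Real.cos (Step.alpha K.p.ω * (w * cos1 (K.s.T h) x))) / 2 := by
      unfold Cfg.kP aveCos Gge
      rw [hm, hM, ← Finset.mul_sum]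
      simp only [mul_assoc]
      field_simp
    rw [hr]
    push_cast
    rfl
  rw [hv]
  exact h2

/-! `L-RDO-T8` `rdo_gok` (**TERM, exit**) is proved in `Rdo/Gok.lean` (it needs `rdo_pG` of `Rdo/Ker.lean`). -/

end

end Claimed.Agent.R285.Rdo
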